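import Vale.Agent.P096.Three.Core.Basic

/-!
P096, cores: far sites of a family.  The left unit `01`, scaled by the ratio of the weights, and
the right unit `10` agree asymptotically, and the right unit multiplies every norm asymptotically
by a weight; both facts pass to the space of the cores.
-/

open scoped InnerProductSpace Matrix
open Filter Topology MeasureTheory

namespace Vale.Agent.P096.Three.Core

variable {H : Type} [NormedAddCommGroup H] [InnerProductSpace ℂ H] [CompleteSpace H]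

omit [CompleteSpace H] in
/-- Norms converging on a dense set converge everywhere, for bounded operators. -/
theorem tendsto_norm_of_dense {A : ℕ → H →L[ℂ] H} {B c : ℝ} (hA : ∀ j v, ‖A j v‖ ≤ B * ‖v‖)
    (hB : 0 ≤ B) (hc : 0 ≤ c) {s : Set H} (hs : Dense s)
    (h : ∀ v ∈ s, Tendsto (fun j => ‖A j v‖) atTop (𝓝 (c * ‖v‖))) (v : H) :
    Tendsto (fun j => ‖A j v‖) atTop (𝓝 (c * ‖v‖)) := by
  rw [Metric.tendsto_atTop]
  intro ε hε
  obtain ⟨z, hz, hzv⟩ := Metric.mem_closure_iff.1 (hs v) (ε / (2 * (B + c + 1))) (by positivity)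
  rw [dist_eq_norm] at hzv
  obtain ⟨N, hN⟩ := Metric.tendsto_atTop.1 (h z hz) (ε / 2) (by positivity)
  refine ⟨N, fun j hj => ?_⟩
  have h1 := hN j hj
  rw [Real.dist_eq] at h1 ⊢
  have h2 : |‖A j v‖ - ‖A j z‖| ≤ B * ‖v - z‖ :=
    ((abs_norm_sub_norm_le _ _).trans_eq (by rw [map_sub])).trans (hA j _)
  have h3 : |c * ‖z‖ - c * ‖v‖| ≤ c * ‖v - z‖ := by
    rw [← mul_sub, abs_mul, abs_of_nonneg hc, norm_sub_rev v z]
    exact mul_le_mul_of_nonneg_left (abs_norm_sub_norm_le z v) hc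
  have h4 : (B + c) * ‖v - z‖ ≤ ε / 2 := by
    calc (B + c) * ‖v - z‖ ≤ (B + c + 1) * (ε / (2 * (B + c + 1))) :=
          mul_le_mul (by linarith) hzv.le (norm_nonneg _) (by linarith)
      _ = ε / 2 := by field_simp
  have := abs_sub_le (‖A j v‖) (‖A j z‖) (c * ‖v‖)
  have := abs_sub_le (‖A j z‖) (c * ‖z‖) (c * ‖v‖)
  linarith

omit [CompleteSpace H] in
/-- Asymptotic norms pass to the pointwise operators. -/
theorem tendsto_norm_const {A : ℕ → H →L[ℂ] H} {B c : ℝ} (hA : ∀ j v, ‖A j v‖ ≤ B * ‖v‖)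
    (hc : 0 ≤ c) (h : ∀ v, Tendsto (fun j => ‖A j v‖) atTop (𝓝 (c * ‖v‖))) (ψ : CoreH H) :
    Tendsto (fun j => ‖const (A j) ψ‖) atTop (𝓝 (c * ‖ψ‖)) := by
  have hint : Integrable (fun d => B ^ 2 * ‖ψ d‖ ^ 2) volume :=
    ((Lp.memLp ψ).integrable_norm_pow two_ne_zero).const_mul _
  have hl := tendsto_integral_of_dominated_convergence (μ := volume)
    (F := fun j d => ‖A j (ψ d)‖ ^ 2) (f := fun d => (c * ‖ψ d‖) ^ 2) _
    (fun j => (((A j).continuous.comp_aestronglyMeasurable
      (Lp.aestronglyMeasurable ψ)).norm).pow 2) hint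
    (fun j => Eventually.of_forall fun d => by
      rw [Real.norm_eq_abs, abs_of_nonneg (sq_nonneg _), ← mul_pow]
      exact pow_le_pow_left₀ (norm_nonneg _) (hA j _) 2)
    (Eventually.of_forall fun d => (h (ψ d)).pow 2)
  have e1 : ∫ d, (c * ‖ψ d‖) ^ 2 = (c * ‖ψ‖) ^ 2 := by
    simp only [mul_pow]
    rw [integral_const_mul, norm_sq_eq_integral]
  have e2 : ∀ j, ∫ d, ‖A j (ψ d)‖ ^ 2 = ‖const (A j) ψ‖ ^ 2 := fun j => by
    rw [norm_sq_eq_integral]
    refine integral_congr_ae ?_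
    filter_upwards [const_apply (A j) ψ] with d hd
    rw [hd]
  rw [e1] at hl
  simp only [e2] at hl
  have := hl.sqrt
  rwa [Real.sqrt_sq (mul_nonneg hc (norm_nonneg _)),
    funext fun j => Real.sqrt_sq (norm_nonneg (const (A j) ψ))] at this

theorem apply_le_one {x : H →L[ℂ] H} (h : star x * x * (star x * x) = star x * x) (v : H) :
    ‖x v‖ ≤ ‖v‖ := by
  have h1 : ‖star x * x‖ * ‖star x * x‖ = ‖star x * x‖ := by
    rw [← CStarRing.norm_star_mul_self, (IsSelfAdjoint.star_mul_self x).star_eq, h]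
  have h2 : ‖x‖ * ‖x‖ ≤ 1 := by
    rw [← CStarRing.norm_star_mul_self]; nlinarith [norm_nonneg (star x * x)]
  exact (x.le_opNorm v).trans
    (mul_le_of_le_one_left (norm_nonneg _) (by nlinarith [norm_nonneg x]))

omit [NormedAddCommGroup H] [InnerProductSpace ℂ H] [CompleteSpace H] in
theorem siteW_sq (n : ℕ) : siteW n 0 ^ 2 + siteW n 1 ^ 2 = 1 := Cent.famW_sq _

theorem rsite_mul (n : ℕ) (a b : Matrix (Fin 2) (Fin 2) ℂ) :
    rsite (H := H) n a * rsite n b = rsite n (a * b) := by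
  show Cent.rightSite _ n a * Cent.rightSite _ n b = Cent.rightSite _ n (a * b)
  rw [Cent.rightSite, Cent.rightSite, Cent.rightSite, Cent.siteOp_mul,
    Cent.conj_mul (siteW_sq n), Cent.rightMat_mul]

theorem lsite_unit_le (n : ℕ) (v : AmbH H) :
    ‖lsite n (Matrix.single 0 1 (1 : ℂ)) v‖ ≤ ‖v‖ := by
  refine apply_le_one ?_ v
  show star (Cent.leftSite (H := H) (siteW n) n _) * Cent.leftSite (siteW n) n _
    * (star (Cent.leftSite (H := H) (siteW n) n _) * Cent.leftSite (siteW n) n _) = _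
  rw [Cent.star_leftSite, Cent.leftSite_mul (siteW_sq n), Cent.leftSite_mul (siteW_sq n)]
  congr 1
  ext i j; fin_cases i <;> fin_cases j <;> simp [Matrix.mul_apply, Fin.sum_univ_two]

theorem rsite_unit_le (n : ℕ) (v : AmbH H) :
    ‖rsite n (Matrix.single 1 0 (1 : ℂ)) v‖ ≤ ‖v‖ := by
  refine apply_le_one ?_ v
  show star (rsite (H := H) n _) * rsite n _ * (star (rsite (H := H) n _) * rsite n _) = _
  rw [show star (rsite (H := H) n (Matrix.single 1 0 (1 : ℂ)))
      = rsite n (Matrix.single 1 0 (1 : ℂ))ᴴ from Cent.star_rightSite _ _ _, rsite_mul, rsite_mul]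
  congr 1
  ext i j; fin_cases i <;> fin_cases j <;> simp [Matrix.mul_apply, Fin.sum_univ_two]

omit [CompleteSpace H] in
theorem tendsto_pair (i : ℕ) : Tendsto (fun j => Nat.pair i j) atTop atTop :=
  tendsto_atTop_mono (fun j => Nat.right_le_pair i j) tendsto_id

omit [CompleteSpace H] in
theorem siteW_pair (i j : ℕ) : siteW (Nat.pair i j) = Cent.famW i := by
  simp [siteW, Cent.siteW]

/-- The weight `w 0` times the norm: the right unit of far sites. -/
theorem tendsto_norm_rsite (i : ℕ) (v : AmbH H) :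
    Tendsto (fun j => ‖rsite (Nat.pair i j) (Matrix.single 1 0 (1 : ℂ)) v‖) atTop
      (𝓝 (Cent.famW i 0 * ‖v‖)) := by
  refine tendsto_norm_of_dense (B := 1) (fun j z => by rw [one_mul]; exact rsite_unit_le _ z)
    zero_le_one (Cent.famW_pos i 0).le Cent.dense_locVecs (fun z hz => ?_) v
  refine tendsto_nhds_of_eventually_eq (((tendsto_pair i).eventually hz).mono fun j hj => ?_)
  set n := Nat.pair i j
  set x := rsite (H := H) n (Matrix.single 1 0 (1 : ℂ))
  have e : star x * x = Cent.siteOp n (Cent.siteBasis (Cent.famW i)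
      * Cent.rightMat (Matrix.single 0 0 1) * Cent.siteBasis (Cent.famW i)) := by
    rw [show star x = rsite n (Matrix.single 1 0 (1 : ℂ))ᴴ from Cent.star_rightSite _ _ _,
      rsite_mul]
    show Cent.rightSite (siteW n) n _ = _
    rw [Cent.rightSite, siteW_pair]
    congr 4
    ext p q; fin_cases p <;> fin_cases q <;> simp [Matrix.mul_apply, Fin.sum_univ_two]
  have h1 : ((‖x z‖ : ℂ)) ^ 2 = ((Cent.famW i 0 * ‖z‖ : ℝ) : ℂ) ^ 2 := by
    refine (inner_self_eq_norm_sq_to_K (𝕜 := ℂ) (x z)).symm.trans ?_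
    rw [← ContinuousLinearMap.adjoint_inner_right, ← ContinuousLinearMap.star_eq_adjoint,
      ← mul_apply_eq_comp, e, Cent.inner_siteOp_atRest hj, inner_self_eq_norm_sq_to_K,
      Complex.ofReal_mul, mul_pow]
    refine congrArg (· * ((‖z‖ : ℂ)) ^ 2) ?_
    simp [Cent.rightMat, Cent.siteBasis, Matrix.mul_apply, Fin.sum_univ_four,
      Matrix.single_apply, sq]
  exact (pow_left_inj₀ (norm_nonneg _) (mul_nonneg (Cent.famW_pos i 0).le (norm_nonneg _))
    two_ne_zero).1 (by exact_mod_cast h1)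

/-- The left unit scaled by the ratio of the weights is asymptotically the right unit. -/
theorem tendsto_norm_sub (i : ℕ) (v : AmbH H) :
    Tendsto (fun j => ‖((((Cent.famW i 0 / Cent.famW i 1 : ℝ) : ℂ)
      • lsite (Nat.pair i j) (Matrix.single 0 1 (1 : ℂ))
        - rsite (Nat.pair i j) (Matrix.single 1 0 (1 : ℂ)) : AmbH H →L[ℂ] AmbH H)) v‖) atTop
      (𝓝 0) := by
  set κ := Cent.famW i 0 / Cent.famW i 1 with hκ
  have hκ0 : 0 ≤ κ := (div_pos (Cent.famW_pos i 0) (Cent.famW_pos i 1)).le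
  have := tendsto_norm_of_dense (c := 0) (B := κ + 1)
    (A := fun j => (κ : ℂ) • lsite (H := H) (Nat.pair i j) (Matrix.single 0 1 (1 : ℂ))
      - rsite (Nat.pair i j) (Matrix.single 1 0 (1 : ℂ))) (fun j z => ?_) (by linarith) le_rfl
    Cent.dense_locVecs (fun z hz => ?_) v
  · simpa using this
  · rw [sub_apply, smul_apply, add_one_mul]
    refine (norm_sub_le _ _).trans (add_le_add ?_ (rsite_unit_le _ z))
    rw [norm_smul, Complex.norm_real, Real.norm_of_nonneg hκ0]
    exact mul_le_mul_of_nonneg_left (lsite_unit_le _ z) hκ0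
  · refine tendsto_nhds_of_eventually_eq (((tendsto_pair i).eventually hz).mono fun j hj => ?_)
    rw [zero_mul, norm_eq_zero, sub_apply, smul_apply, sub_eq_zero]
    refine lp.ext (funext fun k => ?_)
    show ((κ : ℂ) • Cent.leftSite (siteW _) _ _ z) k = Cent.rightSite (siteW _) _ _ z k
    rw [lp.coeFn_smul, Pi.smul_apply, Cent.leftSite, Cent.rightSite, Cent.siteOp_atRest hj,
      Cent.siteOp_atRest hj, smul_smul, siteW_pair]
    congr 1
    have key : ∀ p : Fin 4, (κ : ℂ) * (Cent.siteBasis (Cent.famW i)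
        * Cent.leftMat (Matrix.single 0 1 1) * Cent.siteBasis (Cent.famW i)) p 0
        = (Cent.siteBasis (Cent.famW i) * Cent.rightMat (Matrix.single 1 0 1)
          * Cent.siteBasis (Cent.famW i)) p 0 := fun p => by
      have h1 : (Cent.famW i 1 : ℂ) ≠ 0 := Complex.ofReal_ne_zero.2 (Cent.famW_pos i 1).ne'
      fin_cases p <;>
        simp [hκ, Cent.leftMat, Cent.rightMat, Cent.siteBasis, Matrix.mul_apply,
          Fin.sum_univ_four, Matrix.single_apply] <;> field_simp
    exact key _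

end Vale.Agent.P096.Three.Core
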