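import Vale.Agent.P096.Three.Core.Defs

/-!
P096, cores: basic lemmas on the space of the cores and on membership in a core.
-/

open scoped InnerProductSpace
open MeasureTheory Filter Topology

namespace Vale.Agent.P096.Three.Core

variable {H : Type} [NormedAddCommGroup H] [InnerProductSpace ℂ H] [CompleteSpace H]

/-! ### Values almost everywhere -/

omit [CompleteSpace H] in
theorem const_apply (x : H →L[ℂ] H) (ψ : CoreH H) :
    ⇑(const x ψ) =ᵐ[volume] fun d => x (ψ d) :=
  ContinuousLinearMap.coeFn_compLpL x ψ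

omit [CompleteSpace H] in
theorem mulFn_apply (f : ℝ → ℂ) (hf : Measurable f) (K : ℝ) (hK : ∀ d, ‖f d‖ ≤ K) (ψ : CoreH H) :
    ⇑(mulFn f hf K hK ψ) =ᵐ[volume] fun d => f d • ψ d :=
  (memLp_mul hf hK ψ).coeFn_toLp

omit [CompleteSpace H] in
theorem phase_apply (t : ℝ) (ψ : CoreH H) :
    ⇑(phase t ψ) =ᵐ[volume] fun d => Complex.exp (((t * d : ℝ) : ℂ) * Complex.I) • ψ d :=
  mulFn_apply _ _ _ _ ψ

omit [CompleteSpace H] in
theorem halfLine_apply (ψ : CoreH H) :
    ⇑(halfLine ψ) =ᵐ[volume] fun d => (Set.Iic (0 : ℝ)).indicator (fun _ => (1 : ℂ)) d • ψ d :=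
  mulFn_apply _ _ _ _ ψ

omit [CompleteSpace H] in
theorem shift_apply (s : ℝ) (ψ : CoreH H) :
    ⇑(shift s ψ) =ᵐ[volume] fun d => ψ (d - s) :=
  Lp.coeFn_compMeasurePreserving ψ (measurePreserving_sub_right volume s)

omit [CompleteSpace H] in
theorem tensor_apply (k : Lp ℂ 2 (volume : Measure ℝ)) (v : H) :
    ⇑(tensor k v) =ᵐ[volume] fun d => k d • v :=
  ((ContinuousLinearMap.toSpanSingleton ℂ v).coeFn_compLpL k).trans
    (Eventually.of_forall fun d => by simp)

omit [InnerProductSpace ℂ H] [CompleteSpace H] in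
theorem ae_shift {P : ℝ → Prop} (s : ℝ) (h : ∀ᵐ d, P d) : ∀ᵐ d, P (d - s) :=
  (measurePreserving_sub_right volume s).quasiMeasurePreserving.ae h

/-! ### Pointwise operators -/

omit [CompleteSpace H] in
theorem const_one : const (1 : H →L[ℂ] H) = 1 := by
  refine ContinuousLinearMap.ext fun ψ => Lp.ext ?_
  filter_upwards [const_apply 1 ψ] with d h
  simpa using h

omit [CompleteSpace H] in
theorem const_zero : const (0 : H →L[ℂ] H) = 0 := by
  refine ContinuousLinearMap.ext fun ψ => Lp.ext ?_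
  filter_upwards [const_apply 0 ψ, Lp.coeFn_zero H 2 (volume : Measure ℝ)] with d h h0
  simp [h]

omit [CompleteSpace H] in
theorem const_mul (x y : H →L[ℂ] H) : const x * const y = const (x * y) := by
  refine ContinuousLinearMap.ext fun ψ => Lp.ext ?_
  filter_upwards [const_apply x (const y ψ), const_apply y ψ, const_apply (x * y) ψ] with d h1 h2 h3
  simp only [mul_apply_eq_comp, h1, h2, h3]

omit [CompleteSpace H] in
theorem const_add (x y : H →L[ℂ] H) : const (x + y) = const x + const y :=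
  ContinuousLinearMap.add_compLpL x y

omit [CompleteSpace H] in
theorem const_smul (c : ℂ) (x : H →L[ℂ] H) : const (c • x) = c • const x :=
  ContinuousLinearMap.smul_compLpL c x

omit [CompleteSpace H] in
theorem const_sub (x y : H →L[ℂ] H) : const (x - y) = const x - const y := by
  rw [eq_sub_iff_add_eq, ← const_add, sub_add_cancel]

omit [CompleteSpace H] in
theorem norm_const_le (x : H →L[ℂ] H) : ‖const x‖ ≤ ‖x‖ :=
  ContinuousLinearMap.norm_compLpL_le x

theorem star_const (x : H →L[ℂ] H) : star (const x) = const (star x) := by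
  rw [ContinuousLinearMap.star_eq_adjoint]
  refine ((ContinuousLinearMap.eq_adjoint_iff _ _).2 fun φ ψ => ?_).symm
  rw [L2.inner_def, L2.inner_def]
  refine integral_congr_ae ?_
  filter_upwards [const_apply (star x) φ, const_apply x ψ] with d h1 h2
  rw [h1, h2, ContinuousLinearMap.star_eq_adjoint, ContinuousLinearMap.adjoint_inner_left]

omit [CompleteSpace H] in
theorem const_mulFn (x : H →L[ℂ] H) (f : ℝ → ℂ) (hf : Measurable f) (K : ℝ) (hK : ∀ d, ‖f d‖ ≤ K) :
    Commute (const x) (mulFn f hf K hK) := by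
  refine ContinuousLinearMap.ext fun ψ => Lp.ext ?_
  filter_upwards [const_apply x (mulFn f hf K hK ψ), mulFn_apply f hf K hK ψ,
    mulFn_apply f hf K hK (const x ψ), const_apply x ψ] with d h1 h2 h3 h4
  simp only [mul_apply_eq_comp, h1, h2, h3, h4, map_smul]

omit [CompleteSpace H] in
theorem const_phase (x : H →L[ℂ] H) (t : ℝ) : Commute (const x) (phase t) :=
  const_mulFn x _ _ _ _

omit [CompleteSpace H] in
theorem const_halfLine (x : H →L[ℂ] H) : Commute (const x) (halfLine (H := H)) :=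
  const_mulFn x _ _ _ _

omit [CompleteSpace H] in
theorem const_shift (x : H →L[ℂ] H) (s : ℝ) : Commute (const x) (shift s) := by
  refine ContinuousLinearMap.ext fun ψ => Lp.ext ?_
  filter_upwards [const_apply x (shift s ψ), shift_apply s ψ,
    shift_apply s (const x ψ), ae_shift s (const_apply x ψ)] with d h1 h2 h3 h4
  simp only [mul_apply_eq_comp, h1, h2, h3, h4]

/-! ### Multiplications and phases -/

omit [CompleteSpace H] in
theorem mulFn_mul (f g : ℝ → ℂ) (hf : Measurable f) (hg : Measurable g) (K L : ℝ)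
    (hK : ∀ d, ‖f d‖ ≤ K) (hL : ∀ d, ‖g d‖ ≤ L) :
    mulFn (H := H) f hf K hK * mulFn g hg L hL = mulFn (fun d => f d * g d) (hf.mul hg) (K * L)
      (fun d => (norm_mul_le _ _).trans
        (mul_le_mul (hK d) (hL d) (norm_nonneg _) ((norm_nonneg _).trans (hK d)))) := by
  refine ContinuousLinearMap.ext fun ψ => Lp.ext ?_
  simp only [mul_apply_eq_comp]
  refine (mulFn_apply f hf K hK (mulFn g hg L hL ψ)).trans ?_
  refine EventuallyEq.trans ?_ (mulFn_apply _ _ _ _ ψ).symm
  filter_upwards [mulFn_apply g hg L hL ψ] with d h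
  rw [h, smul_smul]

omit [CompleteSpace H] in
theorem mulFn_comm (f g : ℝ → ℂ) (hf : Measurable f) (hg : Measurable g) (K L : ℝ)
    (hK : ∀ d, ‖f d‖ ≤ K) (hL : ∀ d, ‖g d‖ ≤ L) :
    Commute (mulFn (H := H) f hf K hK) (mulFn g hg L hL) := by
  refine ContinuousLinearMap.ext fun ψ => Lp.ext ?_
  simp only [mul_apply_eq_comp]
  filter_upwards [mulFn_apply f hf K hK (mulFn g hg L hL ψ), mulFn_apply g hg L hL ψ,
    mulFn_apply g hg L hL (mulFn f hf K hK ψ), mulFn_apply f hf K hK ψ] with d h1 h2 h3 h4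
  rw [h1, h2, h3, h4, smul_comm]

omit [CompleteSpace H] in
theorem phase_zero : phase (H := H) 0 = 1 := by
  refine ContinuousLinearMap.ext fun ψ => Lp.ext ?_
  filter_upwards [phase_apply 0 ψ] with d h
  simpa using h

omit [CompleteSpace H] in
theorem phase_add (s t : ℝ) : phase (H := H) (s + t) = phase s * phase t := by
  refine ContinuousLinearMap.ext fun ψ => Lp.ext ?_
  simp only [mul_apply_eq_comp]
  filter_upwards [phase_apply (s + t) ψ, phase_apply s (phase t ψ), phase_apply t ψ] with d h1 h2 h3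
  rw [h1, h2, h3, smul_smul, ← Complex.exp_add]
  congr 2
  push_cast
  ring

theorem star_mulFn (f : ℝ → ℂ) (hf : Measurable f) (K : ℝ) (hK : ∀ d, ‖f d‖ ≤ K) :
    star (mulFn (H := H) f hf K hK) = mulFn (fun d => starRingEnd ℂ (f d))
      (Complex.continuous_conj.measurable.comp hf) K (fun d => by simpa using hK d) := by
  rw [ContinuousLinearMap.star_eq_adjoint]
  refine ((ContinuousLinearMap.eq_adjoint_iff _ _).2 fun φ ψ => ?_).symm
  rw [L2.inner_def, L2.inner_def]
  refine integral_congr_ae ?_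
  filter_upwards [mulFn_apply (fun d => starRingEnd ℂ (f d))
    (Complex.continuous_conj.measurable.comp hf) K
    (fun d => by simpa using hK d) φ, mulFn_apply f hf K hK ψ] with d h1 h2
  rw [h1, h2, inner_smul_left, inner_smul_right]
  simp

theorem star_phase (t : ℝ) : star (phase (H := H) t) = phase (-t) := by
  rw [phase, star_mulFn]
  refine ContinuousLinearMap.ext fun ψ => Lp.ext ?_
  refine (mulFn_apply _ _ _ _ ψ).trans ?_
  refine EventuallyEq.trans ?_ (phase_apply (-t) ψ).symm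
  refine Eventually.of_forall fun d => ?_
  dsimp only
  rw [← Complex.exp_conj]
  simp

theorem inner_phase_phase (t : ℝ) (φ ψ : CoreH H) : ⟪phase t φ, phase t ψ⟫_ℂ = ⟪φ, ψ⟫_ℂ := by
  rw [← ContinuousLinearMap.adjoint_inner_right, ← ContinuousLinearMap.star_eq_adjoint, star_phase,
    ← mul_apply_eq_comp, ← phase_add, neg_add_cancel, phase_zero]
  rfl

omit [CompleteSpace H] in
theorem continuous_inner_phase (φ ψ : CoreH H) : Continuous fun t => ⟪φ, phase t ψ⟫_ℂ := by
  have h : ∀ t, ⟪φ, phase t ψ⟫_ℂ =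
      ∫ d, Complex.exp (((t * d : ℝ) : ℂ) * Complex.I) * ⟪φ d, ψ d⟫_ℂ := by
    intro t
    rw [L2.inner_def]
    refine integral_congr_ae ?_
    filter_upwards [phase_apply t ψ] with d hd
    rw [hd, inner_smul_right]
  simp only [h]
  refine continuous_of_dominated (bound := fun d => ‖⟪φ d, ψ d⟫_ℂ‖) (fun t => ?_) (fun t => ?_)
    (L2.integrable_inner φ ψ).norm (Eventually.of_forall fun d => by fun_prop)
  · exact (Complex.measurable_exp.comp ((Complex.measurable_ofReal.comp
      (measurable_const.mul measurable_id)).mul_const _)).aestronglyMeasurable.mul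
      (L2.integrable_inner φ ψ).aestronglyMeasurable
  · exact Eventually.of_forall fun d => by rw [norm_mul, Complex.norm_exp_ofReal_mul_I, one_mul]

theorem continuous_phase (ψ : CoreH H) : Continuous fun t => phase t ψ := by
  rw [continuous_iff_continuousAt]
  intro t₀
  rw [ContinuousAt, tendsto_iff_norm_sub_tendsto_zero]
  have hn : ∀ t : ℝ, ‖phase t ψ - phase t₀ ψ‖ ^ 2 =
      2 * ‖ψ‖ ^ 2 - 2 * (⟪phase t₀ ψ, phase t ψ⟫_ℂ).re := by
    intro t
    have e : ∀ s, ‖phase (H := H) s ψ‖ ^ 2 = ‖ψ‖ ^ 2 := fun s => by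
      rw [← inner_self_eq_norm_sq (𝕜 := ℂ), inner_phase_phase, inner_self_eq_norm_sq]
    rw [norm_sub_sq (𝕜 := ℂ), e, e, ← inner_re_symm, RCLike.re_to_complex]
    ring
  have h : Tendsto (fun t => 2 * ‖ψ‖ ^ 2 - 2 * (⟪phase t₀ ψ, phase t ψ⟫_ℂ).re) (𝓝 t₀) (𝓝 0) := by
    have h0 : 2 * ‖ψ‖ ^ 2 - 2 * (⟪phase t₀ ψ, phase t₀ ψ⟫_ℂ).re = 0 := by
      rw [inner_phase_phase, ← RCLike.re_to_complex, inner_self_eq_norm_sq]
      ring
    rw [← h0]
    exact ((continuous_const (y := 2 * ‖ψ‖ ^ 2)).sub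
      ((Complex.continuous_re.comp (continuous_inner_phase (phase t₀ ψ) ψ)).const_mul 2)).tendsto t₀
  simp only [← hn] at h
  have h2 := h.sqrt
  simp only [Real.sqrt_zero, Real.sqrt_sq (norm_nonneg _)] at h2
  exact h2

/-! ### Shifts -/

omit [CompleteSpace H] in
theorem shift_zero : shift (H := H) 0 = 1 := by
  refine ContinuousLinearMap.ext fun ψ => Lp.ext ?_
  filter_upwards [shift_apply 0 ψ] with d h
  simpa using h

omit [CompleteSpace H] in
theorem shift_add (s t : ℝ) : shift (H := H) (s + t) = shift s * shift t := by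
  refine ContinuousLinearMap.ext fun ψ => Lp.ext ?_
  simp only [mul_apply_eq_comp]
  filter_upwards [shift_apply (s + t) ψ, shift_apply s (shift t ψ),
    ae_shift s (shift_apply t ψ)] with d h1 h2 h3
  rw [h1, h2, h3, sub_sub]

theorem star_shift (s : ℝ) : star (shift (H := H) s) = shift (-s) := by
  rw [ContinuousLinearMap.star_eq_adjoint]
  refine ((ContinuousLinearMap.eq_adjoint_iff _ _).2 fun φ ψ => ?_).symm
  have h := (Lp.compMeasurePreservingₗᵢ ℂ (fun d : ℝ => d - s)
    (measurePreserving_sub_right volume s) (E := H) (p := 2)).inner_map_map (shift (-s) φ) ψ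
  rw [← h]
  change ⟪shift s (shift (-s) φ), shift s ψ⟫_ℂ = _
  rw [← mul_apply_eq_comp, ← shift_add, add_neg_cancel, shift_zero]
  rfl

omit [CompleteSpace H] in
theorem shift_mulFn (s : ℝ) (f : ℝ → ℂ) (hf : Measurable f) (K : ℝ) (hK : ∀ d, ‖f d‖ ≤ K) :
    shift (H := H) s * mulFn f hf K hK =
      mulFn (fun d => f (d - s)) (hf.comp (measurable_id.sub_const s)) K (fun _ => hK _) *
        shift s := by
  refine ContinuousLinearMap.ext fun ψ => Lp.ext ?_
  simp only [mul_apply_eq_comp]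
  filter_upwards [shift_apply s (mulFn f hf K hK ψ), ae_shift s (mulFn_apply f hf K hK ψ),
    mulFn_apply (fun d => f (d - s)) (hf.comp (measurable_id.sub_const s)) K (fun _ => hK _)
      (shift s ψ), shift_apply s ψ] with d h1 h2 h3 h4
  rw [h1, h2, h3, h4]

omit [CompleteSpace H] in
theorem shift_phase (s t : ℝ) : shift (H := H) s * phase t =
    Complex.exp (((-(t * s) : ℝ) : ℂ) * Complex.I) • (phase t * shift s) := by
  refine ContinuousLinearMap.ext fun ψ => Lp.ext ?_
  simp only [mul_apply_eq_comp, smul_apply]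
  filter_upwards [shift_apply s (phase t ψ), ae_shift s (phase_apply t ψ),
    Lp.coeFn_smul (Complex.exp (((-(t * s) : ℝ) : ℂ) * Complex.I)) (phase t (shift s ψ)),
    phase_apply t (shift s ψ), shift_apply s ψ] with d h1 h2 h3 h4 h5
  rw [h1, h2, h3, Pi.smul_apply, h4, h5, smul_smul, ← Complex.exp_add]
  congr 2
  push_cast
  ring

/-! ### The flow of the crossed product -/

variable {U : ℝ → H →L[ℂ] H}

omit [CompleteSpace H] in
theorem coreU_zero (h0 : U 0 = 1) : coreU U 0 = 1 := by
  rw [coreU, h0, const_one, phase_zero, one_mul]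

omit [CompleteSpace H] in
theorem coreU_add (hadd : ∀ s t, U (s + t) = U s * U t) (s t : ℝ) :
    coreU U (s + t) = coreU U s * coreU U t := by
  rw [coreU, coreU, coreU, hadd, ← const_mul, phase_add, mul_assoc, mul_assoc,
    ← mul_assoc (const (U t)), (const_phase (U t) s).eq, mul_assoc]

theorem star_coreU (hst : ∀ t, star (U t) = U (-t)) (t : ℝ) :
    star (coreU U t) = coreU U (-t) := by
  rw [coreU, coreU, star_mul, star_const, star_phase, hst, (const_phase _ _).eq]

theorem mem_core (hst : ∀ t, star (U t) = U (-t)) (M : VonNeumannAlgebra H)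
    (X : CoreH H →L[ℂ] CoreH H) :
    X ∈ core M U ↔
      (∀ y ∈ M.commutant, X * const y = const y * X) ∧ ∀ t, X * coreU U t = coreU U t * X := by
  change X ∈ StarSubalgebra.centralizer ℂ _ ↔ _
  rw [StarSubalgebra.mem_centralizer_iff]
  constructor
  · intro h
    exact ⟨fun y hy => ((h _ (Or.inl ⟨y, hy, rfl⟩)).1).symm,
      fun t => ((h _ (Or.inr ⟨t, rfl⟩)).1).symm⟩
  · rintro ⟨h1, h2⟩ g (⟨y, hy, rfl⟩ | ⟨t, rfl⟩)
    · exact ⟨(h1 y hy).symm, by rw [star_const]; exact (h1 _ (star_mem hy)).symm⟩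
    · exact ⟨(h2 t).symm, by rw [star_coreU hst]; exact (h2 (-t)).symm⟩

omit [CompleteSpace H] in
theorem norm_sq_eq_integral (ψ : CoreH H) : ‖ψ‖ ^ 2 = ∫ d, ‖ψ d‖ ^ 2 := by
  rw [← inner_self_eq_norm_sq (𝕜 := ℂ), L2.inner_def, ← integral_re (L2.integrable_inner ψ ψ)]
  simp [inner_self_eq_norm_sq_to_K, ← Complex.ofReal_pow]

omit [CompleteSpace H] in
theorem continuous_const_op {α : Type*} [TopologicalSpace α] [FirstCountableTopology α]
    {V : α → H →L[ℂ] H} (hc : ∀ v, Continuous fun t => V t v) {b : ℝ} (hb : ∀ t, ‖V t‖ ≤ b)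
    (ψ : CoreH H) : Continuous fun t => const (V t) ψ := by
  rw [continuous_iff_continuousAt]
  intro t₀
  rw [ContinuousAt, tendsto_iff_norm_sub_tendsto_zero]
  have hn : ∀ t, ‖const (V t) ψ - const (V t₀) ψ‖ ^ 2 = ∫ d, ‖V t (ψ d) - V t₀ (ψ d)‖ ^ 2 := by
    intro t
    rw [norm_sq_eq_integral]
    refine integral_congr_ae ?_
    filter_upwards [Lp.coeFn_sub (const (V t) ψ) (const (V t₀) ψ), const_apply (V t) ψ,
      const_apply (V t₀) ψ] with d h h1 h2
    rw [h, Pi.sub_apply, h1, h2]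
  have hm : ∀ t, AEStronglyMeasurable (fun d => ‖V t (ψ d) - V t₀ (ψ d)‖ ^ 2) volume := fun t =>
    ((((V t).continuous.comp_aestronglyMeasurable (Lp.aestronglyMeasurable ψ)).sub
      ((V t₀).continuous.comp_aestronglyMeasurable (Lp.aestronglyMeasurable ψ))).norm).pow 2
  have hle : ∀ t d, ‖V t (ψ d) - V t₀ (ψ d)‖ ^ 2 ≤ (2 * b) ^ 2 * ‖ψ d‖ ^ 2 := by
    intro t d
    rw [← mul_pow]
    refine pow_le_pow_left₀ (norm_nonneg _) ((norm_sub_le _ _).trans ?_) 2
    linarith [(V t).le_of_opNorm_le (hb t) (ψ d), (V t₀).le_of_opNorm_le (hb t₀) (ψ d)]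
  have hint : Integrable (fun d => (2 * b) ^ 2 * ‖ψ d‖ ^ 2) (volume : Measure ℝ) :=
    ((Lp.memLp ψ).integrable_norm_pow two_ne_zero).const_mul _
  have hcont : Continuous fun t => ∫ d, ‖V t (ψ d) - V t₀ (ψ d)‖ ^ 2 :=
    continuous_of_dominated hm
      (fun t => Eventually.of_forall fun d => by
        rw [Real.norm_eq_abs, abs_of_nonneg (sq_nonneg _)]; exact hle t d) hint
      (Eventually.of_forall fun d => (((hc (ψ d)).sub continuous_const).norm).pow 2)
  have h := (hcont.tendsto t₀).sqrt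
  simp only [← hn, Real.sqrt_sq (norm_nonneg _)] at h
  simpa using h

theorem continuous_coreU (hc : ∀ v, Continuous fun t => U t v) (hb : ∀ t, ‖U t‖ ≤ 1)
    (ψ : CoreH H) : Continuous fun t => coreU U t ψ := by
  rw [continuous_iff_continuousAt]
  intro t₀
  rw [ContinuousAt, tendsto_iff_norm_sub_tendsto_zero]
  have h1 := tendsto_iff_norm_sub_tendsto_zero.1
    ((continuous_const_op hc hb (phase t₀ ψ)).tendsto t₀)
  have h2 := tendsto_iff_norm_sub_tendsto_zero.1 ((continuous_phase ψ).tendsto t₀)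
  refine squeeze_zero (fun t => norm_nonneg _) (fun t => ?_) (by simpa using h2.add h1)
  simp only [coreU, mul_apply_eq_comp]
  calc ‖const (U t) (phase t ψ) - const (U t₀) (phase t₀ ψ)‖
      = ‖const (U t) (phase t ψ - phase t₀ ψ) +
          (const (U t) (phase t₀ ψ) - const (U t₀) (phase t₀ ψ))‖ := by
        rw [map_sub]; congr 1; abel
    _ ≤ _ := (norm_add_le _ _).trans (by
        gcongr
        exact ((const (U t)).le_of_opNorm_le ((norm_const_le _).trans (hb t)) _).trans_eq
          (one_mul _))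

/-! ### Elementary tensors -/

omit [CompleteSpace H] in
theorem inner_tensor (k l : Lp ℂ 2 (volume : Measure ℝ)) (u v : H) :
    ⟪tensor k u, tensor l v⟫_ℂ = ⟪k, l⟫_ℂ * ⟪u, v⟫_ℂ := by
  rw [L2.inner_def, L2.inner_def, ← integral_mul_const]
  refine integral_congr_ae ?_
  filter_upwards [tensor_apply k u, tensor_apply l v] with d h1 h2
  rw [h1, h2, inner_smul_left, inner_smul_right, RCLike.inner_apply]
  ring

omit [CompleteSpace H] in
theorem const_tensor (x : H →L[ℂ] H) (k : Lp ℂ 2 (volume : Measure ℝ)) (v : H) :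
    const x (tensor k v) = tensor k (x v) := by
  refine Lp.ext ?_
  filter_upwards [const_apply x (tensor k v), tensor_apply k v, tensor_apply k (x v)] with d h1 h2 h3
  rw [h1, h2, h3, map_smul]

end Vale.Agent.P096.Three.Core
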