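import Vale.Agent.P096.Three.Core.Conj

/-!
P096, cores: averaging a conjugation over a continuous one parameter group, along dyadic times.
-/

open Filter Topology
open Vale.Agent.P096.Full.Reduce
open Vale.Agent.P104.Discrete

namespace Vale.Agent.P096.Three.Core

variable {H : Type} [NormedAddCommGroup H] [InnerProductSpace ℂ H] [CompleteSpace H]

/-- The average of `f` over the dyadic points of level `n` in `[0, n + 1)`. -/
noncomputable def dyAvg (n : ℕ) (f : ℝ → (H →L[ℂ] H)) : H →L[ℂ] H :=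
  (((n + 1) * 2 ^ n : ℕ) : ℂ)⁻¹ • ∑ k ∈ Finset.range ((n + 1) * 2 ^ n), f ((k : ℝ) / 2 ^ n)

theorem norm_dyAvg_le {n : ℕ} {f : ℝ → (H →L[ℂ] H)} {c : ℝ} (h : ∀ t, ‖f t‖ ≤ c) :
    ‖dyAvg n f‖ ≤ c := by
  rw [dyAvg, norm_smul, norm_inv, Complex.norm_natCast, inv_mul_le_iff₀ (by positivity)]
  refine (norm_sum_le _ _).trans ((Finset.sum_le_sum fun k _ => h _).trans_eq ?_)
  simp

omit [CompleteSpace H] in
theorem dyAvg_const (n : ℕ) (a : H →L[ℂ] H) : dyAvg n (fun _ => a) = a := by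
  rw [dyAvg, Finset.sum_const, Finset.card_range, ← Nat.cast_smul_eq_nsmul ℂ, smul_smul,
    inv_mul_cancel₀ (by exact_mod_cast (by positivity : ((n + 1) * 2 ^ n : ℕ) ≠ 0)), one_smul]

/-- `L` is a mean of `f` over dyadic times. -/
def IsDyMean (f : ℝ → (H →L[ℂ] H)) (L : H →L[ℂ] H) : Prop :=
  TendsWeak (uf : Filter ℕ) (fun n => dyAvg n f) L

theorem exists_dyMean {f : ℝ → (H →L[ℂ] H)} {c : ℝ} (h : ∀ t, ‖f t‖ ≤ c) : ∃ L, IsDyMean f L :=
  exists_tendsWeak uf _ fun _ => norm_dyAvg_le h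

variable {f f' : ℝ → (H →L[ℂ] H)} {L L' : H →L[ℂ] H}

theorem IsDyMean.norm_sub_one_le (h : IsDyMean f L) {c : ℝ} (hc : 0 ≤ c)
    (hf : ∀ t, ‖f t - 1‖ ≤ c) : ‖L - 1‖ ≤ c :=
  TendsWeak.norm_le (TendsWeak.sub h (TendsWeak.const 1)) hc <| Eventually.of_forall fun n => by
    have e : dyAvg n f - 1 = dyAvg n fun t => f t - 1 := by
      conv_lhs => rw [← dyAvg_const n (1 : H →L[ℂ] H)]
      simp [dyAvg, Finset.sum_sub_distrib, smul_sub]
    rw [e]; exact norm_dyAvg_le hf

theorem IsDyMean.mul_left (h : IsDyMean f L) (a : H →L[ℂ] H) :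
    IsDyMean (fun t => a * f t) (a * L) :=
  TendsWeak.congr' (TendsWeak.mulLeft h a)
    (Eventually.of_forall fun n => by simp [dyAvg, Finset.mul_sum])

theorem IsDyMean.mul_right (h : IsDyMean f L) (a : H →L[ℂ] H) :
    IsDyMean (fun t => f t * a) (L * a) :=
  TendsWeak.congr' (TendsWeak.mulRight h a)
    (Eventually.of_forall fun n => by simp [dyAvg, Finset.sum_mul])

theorem IsDyMean.unique (h : IsDyMean f L) (h' : IsDyMean f L') : L = L' := TendsWeak.unique h h'

omit [CompleteSpace H] in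
theorem IsDyMean.congr (h : IsDyMean f L) (e : ∀ t, f t = f' t) : IsDyMean f' L :=
  funext e ▸ h

theorem IsDyMean.mem (N : VonNeumannAlgebra H) (h : IsDyMean f L) (hf : ∀ t, f t ∈ N) : L ∈ N :=
  mem_of_tendsWeak N h fun _ => SMulMemClass.smul_mem (s := N.toStarSubalgebra) _
    (sum_mem fun _ _ => show f _ ∈ N.toStarSubalgebra from hf _)

theorem IsDyMean.shift (h : IsDyMean f L) {c : ℝ} (hf : ∀ t, ‖f t‖ ≤ c) (j m : ℕ) :
    IsDyMean (fun t => f ((j : ℝ) / 2 ^ m + t)) L := by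
  have h0 : Tendsto (fun n : ℕ => 2 * c * ((j : ℝ) / 2 ^ m) / (n + 1)) atTop (𝓝 0) :=
    tendsto_const_nhds.div_atTop (tendsto_atTop_add_const_right _ 1 tendsto_natCast_atTop_atTop)
  have key : Tendsto (fun n => ‖dyAvg n (fun t => f ((j : ℝ) / 2 ^ m + t)) - dyAvg n f‖)
      atTop (𝓝 0) := by
    refine squeeze_zero' (Eventually.of_forall fun _ => norm_nonneg _)
      ((eventually_ge_atTop m).mono fun n hn => ?_) h0
    obtain ⟨l, rfl⟩ := Nat.exists_eq_add_of_le hn
    set i := j * 2 ^ l with hi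
    set T := (m + l + 1) * 2 ^ (m + l) with hT
    set g : ℕ → H →L[ℂ] H := fun k => f ((k : ℝ) / 2 ^ (m + l)) with hg
    have e : ∀ k : ℕ, (j : ℝ) / 2 ^ m + (k : ℝ) / 2 ^ (m + l) = ((i + k : ℕ) : ℝ) / 2 ^ (m + l) := by
      intro k; rw [hi]; push_cast; rw [pow_add]; field_simp
    have hb : ∀ (a : ℕ → ℕ), ‖∑ k ∈ Finset.range i, g (a k)‖ ≤ i * c := fun a => by
      refine (norm_sum_le _ _).trans ((Finset.sum_le_sum fun k _ => hf _).trans_eq ?_)
      simp
    have hs : (∑ k ∈ Finset.range T, g (i + k)) - ∑ k ∈ Finset.range T, g k =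
        (∑ k ∈ Finset.range i, g (T + k)) - ∑ k ∈ Finset.range i, g k := by
      have h1 := Finset.sum_range_add g i T
      have h2 := Finset.sum_range_add g T i
      rw [add_comm T i] at h2
      rw [h1] at h2
      rw [sub_eq_sub_iff_add_eq_add, add_comm _ (∑ k ∈ Finset.range i, g k), h2, add_comm]
    simp only [dyAvg, e]
    rw [← smul_sub, norm_smul, norm_inv, Complex.norm_natCast, hs,
      inv_mul_le_iff₀ (by positivity)]
    refine ((norm_sub_le _ _).trans (add_le_add (hb _) (hb id))).trans_eq ?_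
    rw [hi]; push_cast; rw [pow_add]; field_simp; ring
  have h1 : TendsWeak (uf : Filter ℕ)
      (fun n => dyAvg n (fun t => f ((j : ℝ) / 2 ^ m + t)) - dyAvg n f) 0 :=
    TendsWeak.of_norm_tendsto ((key.mono_left (Ultrafilter.of_le _)).congr fun n => by rw [sub_zero])
  intro ξ η
  simpa [inner_sub_right] using (h1 ξ η).add (h ξ η)

/-- A continuous one parameter group of unitaries. -/
structure IsGroup (V : ℝ → (H →L[ℂ] H)) : Prop where
  zero : V 0 = 1
  add : ∀ s t, V (s + t) = V s * V t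
  star_eq : ∀ t, star (V t) = V (-t)
  cont : ∀ v, Continuous fun t => V t v

theorem IsGroup.mem_unitary {V : ℝ → (H →L[ℂ] H)} (h : IsGroup V) (t : ℝ) :
    V t ∈ unitary (H →L[ℂ] H) :=
  Unitary.mem_iff.2 ⟨by rw [h.star_eq, ← h.add, neg_add_cancel, h.zero],
    by rw [h.star_eq, ← h.add, add_neg_cancel, h.zero]⟩

/-- The mean of the conjugates of `u` commutes with the group. -/
theorem IsGroup.exists_mean {V : ℝ → (H →L[ℂ] H)} (hV : IsGroup V) {u : H →L[ℂ] H} {η : ℝ}
    (hu : ‖u - 1‖ ≤ η) :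
    ∃ a, IsDyMean (fun t => V t * u * V (-t)) a ∧ ‖a - 1‖ ≤ η ∧ (∀ t, Commute a (V t)) ∧
      ∀ x, (∀ t, Commute u (V (-t) * x * V t)) → Commute a x := by
  have hη : 0 ≤ η := (norm_nonneg _).trans hu
  have h1 : ∀ t, V t * V (-t) = 1 := fun t => by rw [← hV.add, add_neg_cancel, hV.zero]
  have h2 : ∀ t, V (-t) * V t = 1 := fun t => by rw [← hV.add, neg_add_cancel, hV.zero]
  have hb : ∀ t, ‖V t * u * V (-t) - 1‖ ≤ η := fun t => by
    rw [show V t * u * V (-t) - 1 = V t * (u - 1) * V (-t) by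
      rw [mul_sub, sub_mul, mul_one, h1]]
    refine ((norm_mul_le _ _).trans (mul_le_mul_of_nonneg_right ((norm_mul_le _ _).trans
      (mul_le_mul (norm_le_one (hV.mem_unitary t)) hu (norm_nonneg _) zero_le_one))
      (norm_nonneg _))).trans ?_
    rw [one_mul]
    exact mul_le_of_le_one_right hη (norm_le_one (hV.mem_unitary _))
  have hb' : ∀ t, ‖V t * u * V (-t)‖ ≤ η + 1 := fun t => by
    calc ‖V t * u * V (-t)‖ = ‖(V t * u * V (-t) - 1) + 1‖ := by rw [sub_add_cancel]
      _ ≤ _ := (norm_add_le _ _).trans (add_le_add (hb t) (norm_le_one (one_mem _)))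
  obtain ⟨a, ha⟩ := exists_dyMean hb'
  have hd : ∀ j m : ℕ, Commute a (V ((j : ℝ) / 2 ^ m)) := fun j m => by
    set s : ℝ := (j : ℝ) / 2 ^ m
    have e : a = V s * a * V (-s) :=
      (ha.shift hb' j m).unique (((ha.mul_left (V s)).mul_right (V (-s))).congr fun t => by
        show V s * (V t * u * V (-t)) * V (-s) = V (s + t) * u * V (-(s + t))
        rw [hV.add, show -(s + t) = -t + -s by ring, hV.add]; simp only [mul_assoc])
    show a * V s = V s * a
    conv_lhs => rw [e]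
    rw [mul_assoc _ (V (-s)) (V s), h2, mul_one]
  have hneg : ∀ t, Commute a (V t) → Commute a (V (-t)) := fun t h => by
    show a * V (-t) = V (-t) * a
    have e := congrArg (fun T => V (-t) * T * V (-t)) h.eq
    simp only [mul_assoc, h1, mul_one] at e
    rw [← mul_assoc (V (-t)) (V t), h2, one_mul] at e
    exact e.symm
  refine ⟨a, ha, ha.norm_sub_one_le hη hb, ?_, fun x hx => ?_⟩
  · set A := {t : ℝ | Commute a (V t)}
    have hcl : IsClosed A := by
      have : A = ⋂ v, {t : ℝ | a (V t v) = V t (a v)} := Set.ext fun t => by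
        simp only [A, Set.mem_ofPred_eq, Set.mem_iInter]
        exact ⟨fun h v => DFunLike.congr_fun h.eq v, fun h => ContinuousLinearMap.ext h⟩
      rw [this]
      exact isClosed_iInter fun v => isClosed_eq (a.continuous.comp (hV.cont v)) (hV.cont _)
    intro t
    suffices ∀ r : ℝ, 0 ≤ r → r ∈ A by
      rcases le_total 0 t with h | h
      · exact this t h
      · simpa using hneg _ (this (-t) (by linarith))
    intro r hr
    refine hcl.mem_of_tendsto (f := fun m : ℕ => (⌊r * 2 ^ m⌋₊ : ℝ) / 2 ^ m) (b := atTop) ?_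
      (Eventually.of_forall fun m => hd _ m)
    exact (tendsto_nat_floor_mul_div_atTop hr).comp (tendsto_pow_atTop_atTop_of_one_lt one_lt_two)
  · have h3 : IsDyMean (fun t => V t * u * V (-t) * x) (x * a) :=
      (ha.mul_left x).congr fun t => by
        calc x * (V t * u * V (-t)) = V t * ((V (-t) * x * V t) * u) * V (-t) := by
              simp only [← mul_assoc, h1, one_mul]
          _ = V t * (u * (V (-t) * x * V t)) * V (-t) := by rw [(hx t).eq]
          _ = V t * u * V (-t) * x := by simp only [mul_assoc, h1, mul_one]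
    exact (h3.unique (ha.mul_right x)).symm

variable {P Q : VonNeumannAlgebra H} {u : H →L[ℂ] H}

/-- Averaging over a group in both algebras. -/
theorem Conj.fix_flow_left (h : Conj P Q u) {V : ℝ → (H →L[ℂ] H)} (hV : IsGroup V)
    (hP : ∀ t, V t ∈ P) (hQ : ∀ t, V t ∈ Q) {η : ℝ} (hu : ‖u - 1‖ ≤ η) (hη : η ≤ 1 / 8) :
    ∃ u', Conj P Q u' ∧ ‖u' - 1‖ ≤ 5 * η ∧ (∀ t, Commute u' (V t)) ∧
      ∀ x, (∀ t, Commute u (V (-t) * x * V t)) → (∀ t, Commute u (V (-t) * star x * V t)) →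
        Commute u' x := by
  obtain ⟨a, ha, han, hac, hax⟩ := hV.exists_mean hu
  have hL : a * star u ∈ Q := (ha.mul_right (star u)).mem Q fun t => by
    rw [show V t * u * V (-t) * star u = V t * (u * V (-t) * star u) by simp only [mul_assoc]]
    exact mul_mem (hQ t) ((h.iff _).1 (hP (-t)))
  have e : a * star u * u = a := by rw [mul_assoc, (Unitary.mem_iff.1 h.unit).1, mul_one]
  obtain ⟨u', hu', hn, hc⟩ := h.fix_left hL (by rwa [e]) hη
  rw [e] at hc
  exact ⟨u', hu', hn, fun t => hc _ (hac t) (by rw [hV.star_eq]; exact hac _),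
    fun x hx hx' => hc x (hax x hx) (hax _ hx')⟩

/-- Averaging over a group that only changes `u` by the commutant. -/
theorem Conj.fix_flow_right (h : Conj P Q u) {V : ℝ → (H →L[ℂ] H)} (hV : IsGroup V)
    (hw : ∀ t, star u * (V t * u * V (-t)) ∈ P.commutant) {η : ℝ} (hu : ‖u - 1‖ ≤ η)
    (hη : η ≤ 1 / 8) :
    ∃ u', Conj P Q u' ∧ ‖u' - 1‖ ≤ 5 * η ∧ (∀ t, Commute u' (V t)) ∧
      ∀ x, (∀ t, Commute u (V (-t) * x * V t)) → (∀ t, Commute u (V (-t) * star x * V t)) →
        Commute u' x := by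
  obtain ⟨a, ha, han, hac, hax⟩ := hV.exists_mean hu
  have hw₀ : star u * a ∈ P.commutant := (ha.mul_left (star u)).mem _ hw
  have e : u * (star u * a) = a := by rw [← mul_assoc, (Unitary.mem_iff.1 h.unit).2, one_mul]
  obtain ⟨u', hu', hn, hc⟩ := h.fix_right hw₀ (by rwa [e]) hη
  rw [e] at hc
  exact ⟨u', hu', hn, fun t => hc _ (hac t) (by rw [hV.star_eq]; exact hac _),
    fun x hx hx' => hc x (hax x hx) (hax _ hx')⟩

end Vale.Agent.P096.Three.Core
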