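import Vale.Agent.P096.Three.Spec
import Vale.Agent.P096.Three.Core.Basic
import Vale.Agent.P096.Three.Core.ConjFlow
import Vale.Agent.P096.Near

/-!
P096, cores: the cores of close algebras normalised by one flow are close.
-/

open scoped InnerProductSpace
open MeasureTheory Filter Topology
open Vale.Agent.P096.Full.Reduce
open Vale.Agent.P104 Vale.Agent.P104.Discrete Vale.Agent.P104.Distance

namespace Vale.Agent.P096.Three.Core

variable {H : Type} [NormedAddCommGroup H] [InnerProductSpace ℂ H] [CompleteSpace H]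

omit [CompleteSpace H] in
theorem norm_le_norm_const (x : H →L[ℂ] H) : ‖x‖ ≤ ‖const x‖ := by
  refine x.opNorm_le_bound (norm_nonneg (const x)) fun v => ?_
  have hs : MeasurableSet (Set.Icc (0 : ℝ) 1) := measurableSet_Icc
  have hf : volume (Set.Icc (0 : ℝ) 1) ≠ ⊤ := measure_Icc_lt_top.ne
  set k : Lp ℂ 2 (volume : Measure ℝ) := indicatorConstLp 2 hs hf (1 : ℂ) with hk
  have hk1 : ‖k‖ = 1 := by
    rw [hk, norm_indicatorConstLp two_ne_zero ENNReal.ofNat_ne_top]
    simp
  have hn : ∀ w : H, ‖tensor k w‖ = ‖w‖ := fun w => by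
    refine (pow_left_inj₀ (norm_nonneg _) (norm_nonneg _) two_ne_zero).1 ?_
    rw [← inner_self_eq_norm_sq (𝕜 := ℂ), ← inner_self_eq_norm_sq (𝕜 := ℂ), inner_tensor,
      inner_self_eq_norm_sq_to_K k, hk1]
    norm_num
  have h := (const x).le_opNorm (tensor k v)
  rwa [const_tensor, hn, hn] at h

/-- The pointwise copy of an algebra. -/
noncomputable def constAlg (A : VonNeumannAlgebra H) :
    StarSubalgebra ℂ (CoreH H →L[ℂ] CoreH H) where
  carrier := const '' (A : Set (H →L[ℂ] H))
  mul_mem' := by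
    rintro _ _ ⟨x, hx, rfl⟩ ⟨y, hy, rfl⟩
    exact ⟨x * y, mul_mem (show x ∈ A from hx) hy, (const_mul x y).symm⟩
  add_mem' := by
    rintro _ _ ⟨x, hx, rfl⟩ ⟨y, hy, rfl⟩
    exact ⟨x + y, add_mem (show x ∈ A from hx) hy, const_add x y⟩
  algebraMap_mem' c := ⟨algebraMap ℂ (H →L[ℂ] H) c, algebraMap_mem A.toStarSubalgebra c, by
    rw [Algebra.algebraMap_eq_smul_one, Algebra.algebraMap_eq_smul_one, const_smul, const_one]⟩
  star_mem' := by
    rintro _ ⟨x, hx, rfl⟩
    exact ⟨star x, star_mem (show x ∈ A from hx), (star_const x).symm⟩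

/-- One half of the closeness of two cores. -/
theorem core_near : ∃ C : ℝ, 0 ≤ C ∧ ∀ (H : Type) [NormedAddCommGroup H] [InnerProductSpace ℂ H]
    [CompleteSpace H] (M N : VonNeumannAlgebra H) (U : ℝ → H →L[ℂ] H) (γ : ℝ), IsGroup U →
    (∀ t : ℝ, ∀ x ∈ N, U t * x * U (-t) ∈ N) → 0 ≤ γ →
    (∀ x ∈ M, ‖x‖ ≤ 1 → ∃ y ∈ N, ‖x - y‖ ≤ γ) →
    ∀ X ∈ core M U, ‖X‖ ≤ 1 → ∃ Y ∈ core N U, ‖X - Y‖ ≤ C * γ := by
  obtain ⟨Cc, hCc, hcn⟩ := commutant_near.{0}
  obtain ⟨Cd, hCd, hdist⟩ := distanceAll.{0}
  refine ⟨Cd * (2 * Cc), by positivity, ?_⟩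
  intro H _ _ _ M N U γ hU hN hγ hMN X hX hX1
  obtain ⟨hXM, hXG⟩ := (mem_core hU.star_eq M X).1 hX
  -- X almost commutes with the copy of the commutant
  have hbd : CommBound (constAlg N.commutant : Set (CoreH H →L[ℂ] CoreH H)) X (2 * (Cc * γ)) := by
    rintro _ ⟨y, hy, rfl⟩ hy1
    have hy' : y ∈ Set.centralizer (N : Set (H →L[ℂ] H)) := by
      rwa [VonNeumannAlgebra.coe_commutant] at hy
    obtain ⟨b, hb, hyb⟩ := hcn H M.toStarSubalgebra N.toStarSubalgebra γ hγ hMN y hy'
      ((norm_le_norm_const y).trans hy1)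
    have hbM : b ∈ M.commutant := by
      rw [← SetLike.mem_coe, VonNeumannAlgebra.coe_commutant]; exact hb
    have e : X * const y - const y * X = X * const (y - b) - const (y - b) * X := by
      rw [const_sub, mul_sub, sub_mul, hXM b hbM]; abel
    rw [e]
    refine (norm_sub_le _ _).trans ?_
    have h1 : ‖const (y - b)‖ ≤ Cc * γ := (norm_const_le _).trans hyb
    have h2 := norm_mul_le X (const (y - b))
    have h3 := norm_mul_le (const (y - b)) X
    nlinarith [norm_nonneg X, norm_nonneg (const (y - b))]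
  obtain ⟨k, hk, hXk⟩ := hdist (CoreH H) (constAlg N.commutant) X _ (by positivity) hbd
  -- average over the flow
  set V : ℝ → CoreH H →L[ℂ] CoreH H := coreU U with hVdef
  have hV : IsGroup V := ⟨coreU_zero hU.zero, coreU_add hU.add, star_coreU hU.star_eq,
    continuous_coreU hU.cont fun t => norm_le_one (hU.mem_unitary t)⟩
  have hη : ‖(k - X + 1) - 1‖ ≤ Cd * (2 * (Cc * γ)) := by
    rw [add_sub_cancel_right, norm_sub_rev]; exact hXk
  obtain ⟨a, ha, han, hac, -⟩ := hV.exists_mean hη
  refine ⟨a + X - 1, (mem_core hU.star_eq N _).2 ⟨fun y hy => ?_, fun t => ?_⟩, ?_⟩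
  · set x := const y with hx
    have hp : ∀ t, V t * V (-t) = 1 := fun t => by rw [← hV.add, add_neg_cancel, hV.zero]
    have hXt : ∀ t, V t * X * V (-t) = X := fun t => by
      rw [← hXG t, mul_assoc, hp, mul_one]
    have hconj : ∀ t, V (-t) * x * V t = const (U (-t) * y * U t) := fun t => by
      show const (U (-t)) * phase (-t) * const y * (const (U t) * phase t) = _
      rw [mul_assoc (const (U (-t))), ← (const_phase y (-t)).eq, mul_assoc, mul_assoc,
        ← mul_assoc (phase (-t)), ← (const_phase (U t) (-t)).eq, mul_assoc (const (U t)),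
        ← phase_add, neg_add_cancel, phase_zero, mul_one, const_mul, const_mul, ← mul_assoc]
    have hy' : ∀ t, U (-t) * y * U t ∈ N.commutant := fun t => by
      refine VonNeumannAlgebra.mem_commutant_iff.2 fun n hn => ?_
      have h := VonNeumannAlgebra.mem_commutant_iff.1 hy _ (hN t n hn)
      have e1 : U (-t) * U t = 1 := by rw [← hU.add, neg_add_cancel, hU.zero]
      have h' := congrArg (fun T => U (-t) * T * U t) h
      simp only [mul_assoc, e1, mul_one] at h'
      rw [← mul_assoc (U (-t)) (U t), e1, one_mul] at h'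
      simp only [mul_assoc]
      exact h'
    have hkt : ∀ t, V t * k * V (-t) * x = x * (V t * k * V (-t)) := fun t => by
      have h := hk _ ⟨_, hy' t, rfl⟩
      rw [← hconj] at h
      have h' := congrArg (fun T => V t * T * V (-t)) h
      simp only [mul_assoc, hp, mul_one] at h'
      simp only [← mul_assoc, hp, one_mul] at h'
      simp only [← mul_assoc]
      exact h'.symm
    have hc : ∀ t, V t * (k - X + 1) * V (-t) * x - x * (V t * (k - X + 1) * V (-t)) =
        x * X - X * x := fun t => by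
      have e : V t * (k - X + 1) * V (-t) = V t * k * V (-t) - X + 1 := by
        rw [mul_add, mul_sub, add_mul, sub_mul, hXt, mul_one, hp]
      rw [e, add_mul, sub_mul, mul_add, mul_sub, hkt, one_mul, mul_one]
      abel
    have h3 : a * x - x * a = x * X - X * x := by
      refine TendsWeak.unique (TendsWeak.congr' (TendsWeak.sub (ha.mul_right x) (ha.mul_left x))
        (Eventually.of_forall fun n => ?_)) (TendsWeak.const _)
      conv_rhs => rw [← dyAvg_const n (x * X - X * x)]
      simp only [dyAvg, ← smul_sub, ← Finset.sum_sub_distrib, hc]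
    rw [sub_mul, add_mul, one_mul, mul_sub, mul_add, mul_one]
    refine sub_eq_zero.1 ?_
    calc a * x + X * x - x - (x * a + x * X - x) = (a * x - x * a) - (x * X - X * x) := by abel
      _ = 0 := by rw [h3, sub_self]
  · show (a + X - 1) * V t = V t * (a + X - 1)
    rw [sub_mul, add_mul, mul_sub, mul_add, one_mul, mul_one, (hac t).eq, hXG t]
  · rw [show X - (a + X - 1) = -(a - 1) by abel, norm_neg]
    exact han.trans_eq (by ring)

/-- CORE CLOSE. -/
theorem closeSpec : CloseSpec := by
  obtain ⟨C, hC, h⟩ := core_near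
  refine ⟨1, C, one_pos, hC, ?_⟩
  intro H _ _ _ _ M N U γ hadd h0 hst hc hM hN _ hclose
  have hU : IsGroup U := ⟨h0, hadd, hst, hc⟩
  have hγ : 0 ≤ γ := by
    obtain ⟨y, -, hy⟩ := hclose.1 1 (one_mem M) (norm_le_one (one_mem _))
    exact (norm_nonneg _).trans hy
  exact ⟨fun X hX h1 => h H M N U γ hU hN hγ (fun x hx hx1 => hclose.1 x hx hx1) X hX h1,
    fun X hX h1 => h H N M U γ hU hM hγ (fun x hx hx1 => hclose.2 x hx hx1) X hX h1⟩

end Vale.Agent.P096.Three.Core
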