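import Vale.Agent.P096.Bridge
import Vale.Agent.P096.Full.Reduce.Group

/-!
P096, cores: moving a unitary that carries one algebra onto another so that it commutes with
given operators.
-/

open Filter Topology
open Vale.Agent.P096.Full.Reduce

namespace Vale.Agent.P096.Three.Core

variable {H : Type} [NormedAddCommGroup H] [InnerProductSpace ℂ H] [CompleteSpace H]

/-- `u` carries `P` onto `Q`. -/
structure Conj (P Q : VonNeumannAlgebra H) (u : H →L[ℂ] H) : Prop where
  unit : u ∈ unitary (H →L[ℂ] H)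
  iff : ∀ X, X ∈ P ↔ u * X * star u ∈ Q

variable {P Q : VonNeumannAlgebra H} {u : H →L[ℂ] H}

theorem Conj.left_inv (h : Conj P Q u) (X : H →L[ℂ] H) : star u * (u * X * star u) * u = X := by
  simp only [mul_assoc, (Unitary.mem_iff.1 h.unit).1, mul_one]
  rw [← mul_assoc, (Unitary.mem_iff.1 h.unit).1, one_mul]

theorem Conj.right_inv (h : Conj P Q u) (X : H →L[ℂ] H) : u * (star u * X * u) * star u = X := by
  simp only [mul_assoc, (Unitary.mem_iff.1 h.unit).2, mul_one]
  rw [← mul_assoc, (Unitary.mem_iff.1 h.unit).2, one_mul]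

/-- A near conjugacy is a conjugation by a unitary near the identity. -/
theorem exists_conj {c : ℝ} (h : NearConj P Q c) : ∃ u, Conj P Q u ∧ ‖u - 1‖ ≤ c := by
  obtain ⟨u, hu, hu1, hPQ, hQP⟩ := h
  have hU := unitary_of_isUnitaryOp hu
  refine ⟨u, ⟨hU, fun X => ⟨fun hX => ?_, fun hX => ?_⟩⟩, hu1⟩
  · obtain ⟨Y, hY, hXY⟩ := hPQ X hX
    rwa [← eq_of_intertwines hU hXY]
  · obtain ⟨Y, hY, hYX⟩ := hQP _ hX
    have e := eq_of_intertwines hU hYX
    have : X = Y := by
      have h1 := congrArg (fun T => star u * T * u) e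
      simpa [mul_assoc, (Unitary.mem_iff.1 hU).1, ← mul_assoc (star u) u] using h1
    rwa [this]

theorem Conj.mul_left (h : Conj P Q u) {w : H →L[ℂ] H} (hw : w ∈ unitary (H →L[ℂ] H))
    (hwQ : w ∈ Q) : Conj P Q (w * u) := by
  refine ⟨mul_mem hw h.unit, fun X => ?_⟩
  rw [h.iff X, star_mul]
  constructor
  · intro hX
    simpa [mul_assoc] using mul_mem (mul_mem hwQ hX) (star_mem hwQ)
  · intro hX
    have := mul_mem (mul_mem (star_mem hwQ) hX) hwQ
    simpa [mul_assoc, (Unitary.mem_iff.1 hw).1, ← mul_assoc (star w) w] using this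

theorem Conj.mul_right (h : Conj P Q u) {w : H →L[ℂ] H} (hw : w ∈ unitary (H →L[ℂ] H))
    (hwP : w ∈ P.commutant) : Conj P Q (u * w) := by
  refine ⟨mul_mem h.unit hw, fun X => ?_⟩
  obtain ⟨hw1, hw2⟩ := Unitary.mem_iff.1 hw
  have e : ∀ Y ∈ P, u * w * Y * star (u * w) = u * Y * star u := fun Y hY => by
    rw [star_mul, mul_assoc u w Y, ← (VonNeumannAlgebra.mem_commutant_iff.1 hwP Y hY)]
    simp only [mul_assoc]
    rw [← mul_assoc w (star w), hw2, one_mul]
  refine ⟨fun hX => ?_, fun hX => ?_⟩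
  · rw [e X hX]; exact (h.iff X).1 hX
  · set Y := star u * (u * w * X * star (u * w)) * u with hY
    have hYP : Y ∈ P := (h.iff Y).2 (by rw [hY, h.right_inv]; exact hX)
    have e2 : Y = w * X * star w := by
      rw [hY, star_mul]
      simp only [mul_assoc, (Unitary.mem_iff.1 h.unit).1, mul_one]
      rw [← mul_assoc (star u) u, (Unitary.mem_iff.1 h.unit).1, one_mul]
    have e3 : X = star w * Y * w := by
      rw [e2]; simp only [mul_assoc, hw1, mul_one]
      rw [← mul_assoc (star w) w, hw1, one_mul]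
    rw [e3, mul_assoc, VonNeumannAlgebra.mem_commutant_iff.1 hwP Y hYP, ← mul_assoc, hw1,
      one_mul]
    exact hYP

/-- The unitary part of an operator near the identity. -/
theorem polar_near_one {a : H →L[ℂ] H} {η : ℝ} (ha : ‖a - 1‖ ≤ η) (hη : η ≤ 1 / 8) :
    ∃ r, a * r ∈ unitary (H →L[ℂ] H) ∧ ‖a * r - 1‖ ≤ 5 * η ∧
      ∀ x, Commute (star a * a) x → Commute r x := by
  have h0 : 0 ≤ η := (norm_nonneg _).trans ha
  have hone : ‖(1 : H →L[ℂ] H)‖ ≤ 1 := norm_le_one (one_mem _)
  have hn : ‖a‖ ≤ 1 + η := by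
    calc ‖a‖ = ‖1 + (a - 1)‖ := by rw [add_sub_cancel]
      _ ≤ ‖(1 : H →L[ℂ] H)‖ + ‖a - 1‖ := norm_add_le _ _
      _ ≤ 1 + η := add_le_add hone ha
  have hs : ‖star a * a - 1‖ ≤ 3 * η := by
    have e : star a * a - 1 = star (a - 1) * a + (a - 1) := by
      rw [star_sub, star_one, sub_mul, one_mul]; abel
    rw [e]
    refine (norm_add_le _ _).trans ?_
    have h1 : ‖star (a - 1) * a‖ ≤ η * (1 + η) :=
      (norm_mul_le _ _).trans (mul_le_mul (by rwa [norm_star]) hn (norm_nonneg _) h0)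
    nlinarith
  have hu : IsUnit a := isUnit_near (one_mem _) (lt_of_le_of_lt ha (by linarith))
  obtain ⟨r, -, hr, hra, hc⟩ := polar hu hs (by linarith)
  refine ⟨r, hr, ?_, hc⟩
  calc ‖a * r - 1‖ = ‖(a * r - a) + (a - 1)‖ := by rw [sub_add_sub_cancel]
    _ ≤ ‖a * r - a‖ + ‖a - 1‖ := norm_add_le _ _
    _ ≤ (1 + η) * (3 * η) + η :=
      add_le_add (hra.trans (mul_le_mul_of_nonneg_right hn (by linarith))) ha
    _ ≤ 5 * η := by nlinarith

theorem commute_star_mul_self {a x : H →L[ℂ] H} (h : Commute a x) (h' : Commute a (star x)) :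
    Commute (star a * a) x :=
  Commute.mul_left (by simpa using h'.star_star) h

theorem mem_of_commute_commutant (P : VonNeumannAlgebra H) {r : H →L[ℂ] H}
    (h : ∀ z ∈ P.commutant, Commute r z) : r ∈ P := by
  have : r ∈ Set.centralizer (Set.centralizer (P : Set (H →L[ℂ] H))) := fun z hz =>
    (h z (VonNeumannAlgebra.mem_commutant_iff.2 hz)).eq.symm
  rwa [P.centralizer_centralizer] at this

/-- A near operator `L * u` with `L` in `Q` is moved to a conjugation with the same symmetries. -/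
theorem Conj.fix_left (h : Conj P Q u) {L : H →L[ℂ] H} (hL : L ∈ Q) {η : ℝ}
    (ha : ‖L * u - 1‖ ≤ η) (hη : η ≤ 1 / 8) :
    ∃ u', Conj P Q u' ∧ ‖u' - 1‖ ≤ 5 * η ∧
      ∀ x, Commute (L * u) x → Commute (L * u) (star x) → Commute u' x := by
  obtain ⟨r, hr, hr1, hc⟩ := polar_near_one ha hη
  have haP : star (L * u) * (L * u) ∈ P := by
    refine (h.iff _).2 ?_
    have e : u * (star (L * u) * (L * u)) * star u = star L * L := by
      rw [star_mul]
      rw [show star u * star L * (L * u) = star u * (star L * L) * u by simp only [mul_assoc],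
        h.right_inv]
    rw [e]; exact mul_mem (star_mem hL) hL
  have hrP : r ∈ P := mem_of_commute_commutant P fun z hz =>
    hc z (VonNeumannAlgebra.mem_commutant_iff.1 hz _ haP)
  set w := L * u * r * star u with hw
  have hwQ : w ∈ Q := by
    rw [hw, show L * u * r * star u = L * (u * r * star u) by simp only [mul_assoc]]
    exact mul_mem hL ((h.iff r).1 hrP)
  have e : w * u = L * u * r := by
    rw [hw, mul_assoc, (Unitary.mem_iff.1 h.unit).1, mul_one]
  refine ⟨L * u * r, e ▸ h.mul_left (mul_mem hr (Unitary.star_mem h.unit)) hwQ, hr1,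
    fun x hx hx' => Commute.mul_left hx (hc x (commute_star_mul_self hx hx'))⟩

/-- A near operator `u * w₀` with `w₀` in the commutant of `P` is moved to a conjugation with the
same symmetries. -/
theorem Conj.fix_right (h : Conj P Q u) {w₀ : H →L[ℂ] H} (hw₀ : w₀ ∈ P.commutant) {η : ℝ}
    (ha : ‖u * w₀ - 1‖ ≤ η) (hη : η ≤ 1 / 8) :
    ∃ u', Conj P Q u' ∧ ‖u' - 1‖ ≤ 5 * η ∧
      ∀ x, Commute (u * w₀) x → Commute (u * w₀) (star x) → Commute u' x := by
  obtain ⟨r, hr, hr1, hc⟩ := polar_near_one ha hη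
  have e : star (u * w₀) * (u * w₀) = star w₀ * w₀ := by
    rw [star_mul, mul_assoc, ← mul_assoc (star u) u, (Unitary.mem_iff.1 h.unit).1, one_mul]
  have hrP : r ∈ P.commutant := mem_of_commute_commutant _ fun z hz => hc z <| by
    rw [e]
    exact (VonNeumannAlgebra.mem_commutant_iff.1 hz _ (mul_mem (star_mem hw₀) hw₀))
  have hu' : w₀ * r = star u * (u * w₀ * r) := by
    rw [← mul_assoc, ← mul_assoc, (Unitary.mem_iff.1 h.unit).1, one_mul]
  refine ⟨u * w₀ * r, ?_, hr1, fun x hx hx' => Commute.mul_left hx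
    (hc x (commute_star_mul_self hx hx'))⟩
  rw [mul_assoc]
  exact h.mul_right (hu' ▸ mul_mem (Unitary.star_mem h.unit) hr) (mul_mem hw₀ hrP)

/-- Averaging over finite groups in both algebras. -/
theorem Conj.fix_groups (h : Conj P Q u) (Γ : Groups H) (hP : ∀ g ∈ Γ.carrier, g ∈ P)
    (hQ : ∀ g ∈ Γ.carrier, g ∈ Q) {η : ℝ} (hu : ‖u - 1‖ ≤ η) (hη : η ≤ 1 / 8) :
    ∃ u', Conj P Q u' ∧ ‖u' - 1‖ ≤ 5 * η ∧ (∀ g ∈ Γ.carrier, Commute u' g) ∧
      ∀ x, (∀ g ∈ Γ.carrier, Commute u (star g * x * g)) →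
        (∀ g ∈ Γ.carrier, Commute u (star g * star x * g)) → Commute u' x := by
  have hη0 : 0 ≤ η := (norm_nonneg _).trans hu
  obtain ⟨hu1, hu2⟩ := Unitary.mem_iff.1 h.unit
  have hb : ∀ g ∈ Γ.carrier, ‖g * u * star g * star u‖ ≤ 1 := fun g hg =>
    norm_le_one (mul_mem (mul_mem (mul_mem (Groups.unitary_carrier hg) h.unit)
      (Unitary.star_mem (Groups.unitary_carrier hg))) (Unitary.star_mem h.unit))
  obtain ⟨L, hL⟩ := exists_mean hb
  have hLQ : L ∈ Q := hL.mem Q fun g hg => by
    rw [show g * u * star g * star u = g * (u * star g * star u) by simp only [mul_assoc]]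
    exact mul_mem (hQ g hg) ((h.iff _).1 (star_mem (hP g hg)))
  have ha : IsMean Γ (fun g => g * u * star g) (L * u) :=
    (hL.mul_right u).congr fun g _ => by
      show g * u * star g * star u * u = _
      rw [mul_assoc _ (star u) u, hu1, mul_one]
  have han : ‖L * u - 1‖ ≤ η := (ha.sub (IsMean.const 1)).norm_le hη0 fun g hg => by
    obtain ⟨g1, g2⟩ := Unitary.mem_iff.1 (Groups.unitary_carrier hg)
    rw [show g * u * star g - 1 = g * (u - 1) * star g by rw [mul_sub, sub_mul, mul_one, g2]]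
    have hgn := norm_le_one (Groups.unitary_carrier hg)
    refine ((norm_mul_le _ _).trans (mul_le_mul_of_nonneg_right
      ((norm_mul_le _ _).trans (mul_le_mul hgn hu (norm_nonneg _) zero_le_one))
      (norm_nonneg _))).trans ?_
    rw [one_mul, norm_star]
    exact mul_le_of_le_one_right hη0 hgn
  have hcg : ∀ k ∈ Γ.carrier, Commute (L * u) k := fun k hk => by
    obtain ⟨k1, k2⟩ := Unitary.mem_iff.1 (Groups.unitary_carrier hk)
    have h1 := (ha.shift hk).unique (((ha.mul_left k).mul_right (star k)).congr fun g _ => by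
      show k * (g * u * star g) * star k = k * g * u * star (k * g)
      rw [star_mul]; simp only [mul_assoc])
    show L * u * k = k * (L * u)
    conv_lhs => rw [h1]
    rw [mul_assoc _ (star k) k, k1, mul_one]
  have hcx : ∀ x, (∀ g ∈ Γ.carrier, Commute u (star g * x * g)) → Commute (L * u) x := fun x hx =>
    ((ha.commute fun g hg => by
      obtain ⟨g1, g2⟩ := Unitary.mem_iff.1 (Groups.unitary_carrier hg)
      have hcomm := (hx g hg).eq
      calc x * (g * u * star g) = g * ((star g * x * g) * u) * star g := by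
            simp only [mul_assoc]; rw [← mul_assoc g (star g), g2, one_mul]
        _ = g * (u * (star g * x * g)) * star g := by rw [hcomm]
        _ = g * u * star g * x := by
            simp only [mul_assoc]; rw [g2, mul_one]) : x * (L * u) = L * u * x).symm
  obtain ⟨u', hu', hn, hc⟩ := h.fix_left hLQ han hη
  exact ⟨u', hu', hn, fun g hg => hc g (hcg g hg) (hcg _ (Groups.star_carrier hg)),
    fun x hx hx' => hc x (hcx x hx) (hcx _ hx')⟩

end Vale.Agent.P096.Three.Core
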