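import Mathlib

/-!
P096, cores: square integrable functions of a real variable with values in a Hilbert space, with
the operators used there. The variable is the momentum of the translations of the crossed product,
so the translations act as phases and the characters as shifts.
-/

open scoped InnerProductSpace
open MeasureTheory

namespace Vale.Agent.P096.Three.Core

variable {H : Type} [NormedAddCommGroup H] [InnerProductSpace ℂ H] [CompleteSpace H]

/-- The space of the cores. -/
abbrev CoreH (H : Type) [NormedAddCommGroup H] : Type := ↥(Lp H 2 (volume : Measure ℝ))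

/-- An operator acting pointwise. -/
noncomputable def const (x : H →L[ℂ] H) : CoreH H →L[ℂ] CoreH H :=
  x.compLpL 2 volume

omit [CompleteSpace H] in
theorem memLp_mul {f : ℝ → ℂ} (hf : Measurable f) {K : ℝ} (hK : ∀ d, ‖f d‖ ≤ K) (ψ : CoreH H) :
    MemLp (fun d => f d • ψ d) 2 volume := by
  refine MemLp.of_le_mul (c := K) (Lp.memLp ψ)
    (hf.aestronglyMeasurable.smul (Lp.aestronglyMeasurable ψ)) (Filter.Eventually.of_forall fun d => ?_)
  rw [norm_smul]
  exact mul_le_mul_of_nonneg_right (hK d) (norm_nonneg _)

/-- Multiplication by a bounded measurable function. -/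
noncomputable def mulFn (f : ℝ → ℂ) (hf : Measurable f) (K : ℝ) (hK : ∀ d, ‖f d‖ ≤ K) :
    CoreH H →L[ℂ] CoreH H :=
  LinearMap.mkContinuous
    { toFun := fun ψ => (memLp_mul hf hK ψ).toLp _
      map_add' := fun ψ χ => by
        rw [← MemLp.toLp_add]
        refine MemLp.toLp_congr _ _ ?_
        filter_upwards [Lp.coeFn_add ψ χ] with d hd
        show f d • ((ψ + χ : CoreH H) : ℝ → H) d = f d • ψ d + f d • χ d
        rw [hd, Pi.add_apply, smul_add]
      map_smul' := fun c ψ => by
        rw [RingHom.id_apply, ← MemLp.toLp_const_smul]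
        refine MemLp.toLp_congr _ _ ?_
        filter_upwards [Lp.coeFn_smul c ψ] with d hd
        show f d • ((c • ψ : CoreH H) : ℝ → H) d = c • (f d • ψ d)
        rw [hd, Pi.smul_apply, smul_comm] } K fun ψ => by
    refine Lp.norm_le_mul_norm_of_ae_le_mul ?_
    filter_upwards [(memLp_mul hf hK ψ).coeFn_toLp] with d hd
    refine (congrArg norm hd).trans_le ?_
    rw [norm_smul]
    exact mul_le_mul_of_nonneg_right (hK d) (norm_nonneg _)

/-- The phase `d ↦ exp (i t d)`: the translation by `t`. -/
noncomputable def phase (t : ℝ) : CoreH H →L[ℂ] CoreH H :=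
  mulFn (fun d => Complex.exp (((t * d : ℝ) : ℂ) * Complex.I))
    (Complex.measurable_exp.comp ((Complex.measurable_ofReal.comp
      (measurable_const.mul measurable_id)).mul_const _))
    1 fun _ => (Complex.norm_exp_ofReal_mul_I _).le

/-- The projection on `d ≤ 0`, where the density `exp d` of the trace is integrable. -/
noncomputable def halfLine : CoreH H →L[ℂ] CoreH H :=
  mulFn ((Set.Iic (0 : ℝ)).indicator fun _ => (1 : ℂ))
    (measurable_const.indicator measurableSet_Iic) 1 fun d => by
      by_cases h : d ∈ Set.Iic (0 : ℝ) <;> simp [h]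

/-- The shift of the momentum by `s`: the character `s`. -/
noncomputable def shift (s : ℝ) : CoreH H →L[ℂ] CoreH H :=
  (Lp.compMeasurePreservingₗᵢ ℂ (fun d : ℝ => d - s)
    (measurePreserving_sub_right volume s)).toContinuousLinearMap

/-- The scalar functions times vectors. -/
noncomputable def tensor (k : Lp ℂ 2 (volume : Measure ℝ)) (v : H) : CoreH H :=
  (ContinuousLinearMap.toSpanSingleton ℂ v).compLpL 2 volume k

end Vale.Agent.P096.Three.Core
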