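import Vale.Agent.P096.Three.Index
import Vale.Agent.P096.Three.Pinned
import Vale.Agent.P096.Three.Core.Space

/-!
P096, cores: the algebra and the operators fixed by the identification of two cores.
-/

namespace Vale.Agent.P096.Three.Core

variable {H : Type} [NormedAddCommGroup H] [InnerProductSpace ℂ H] [CompleteSpace H]

/-- The flow of the crossed product: the flow of the algebra times a phase. -/
noncomputable def coreU (U : ℝ → H →L[ℂ] H) (t : ℝ) : CoreH H →L[ℂ] CoreH H :=
  const (U t) * phase t

/-- The core: what commutes with the commutant and with the flow. -/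
noncomputable def core (M : VonNeumannAlgebra H) (U : ℝ → H →L[ℂ] H) :
    VonNeumannAlgebra (CoreH H) where
  toStarSubalgebra := StarSubalgebra.centralizer ℂ
    (const '' (M.commutant : Set (H →L[ℂ] H)) ∪ Set.range (coreU U))
  centralizer_centralizer' := by simp

/-- The matrix unit `(a, b)` of the site `n`. -/
noncomputable def siteUnit (n : ℕ) (a b : Fin 2) : AmbH H →L[ℂ] AmbH H :=
  lsite n (Matrix.single a b (1 : ℂ))

/-- The level of the matrix unit `(a, b)` of the site `n`. -/
noncomputable def unitLevel (n : ℕ) (a b : Fin 2) : ℝ :=
  if a = b then 0 else if a = 0 then siteGap n else -siteGap n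

/-- A matrix unit shifted back by its level, so that it commutes with the flow. -/
noncomputable def coreUnit (n : ℕ) (a b : Fin 2) : CoreH (AmbH H) →L[ℂ] CoreH (AmbH H) :=
  const (siteUnit n a b) * shift (-unitLevel n a b)

/-- The operators that the identification of two cores fixes: the groups, the phases and the
shifted matrix units. -/
noncomputable def fixSet {M : VonNeumannAlgebra H} {ξ : H} (P : Pinned M ξ) :
    Set (CoreH (AmbH H) →L[ℂ] CoreH (AmbH H)) :=
  (fun g => const (ten g)) '' P.Γ.carrier ∪ Set.range (fun t => phase t) ∪
    Set.range fun p : ℕ × Fin 2 × Fin 2 => coreUnit p.1 p.2.1 p.2.2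

end Vale.Agent.P096.Three.Core
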