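import Vale.Agent.P096.Three.Core.Basic
import Vale.Agent.P096.Three.Core.Conj

/-!
P096, cores: from a conjugation of the cores by a constant operator to a conjugation of the
algebras, and from one of the stabilisations that fixes the sites to a near isomorphism.
-/

open scoped InnerProductSpace
open Filter Topology MeasureTheory
open Vale.Agent.P104.Discrete

namespace Vale.Agent.P096.Three.Core

variable {H : Type} [NormedAddCommGroup H] [InnerProductSpace ℂ H] [CompleteSpace H]

theorem Conj.symm {P Q : VonNeumannAlgebra H} {u : H →L[ℂ] H} (h : Conj P Q u) :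
    Conj Q P (star u) := by
  refine ⟨Unitary.star_mem h.unit, fun X => ?_⟩
  rw [star_star, h.iff (star u * X * u), h.right_inv]

/-- A unit vector of the scalar square integrable functions. -/
theorem exists_unit_fn : ∃ k : Lp ℂ 2 (volume : Measure ℝ), ‖k‖ = 1 := by
  refine ⟨indicatorConstLp 2 (measurableSet_Icc (a := (0 : ℝ)) (b := 1))
    (by rw [Real.volume_Icc]; exact ENNReal.ofReal_ne_top) 1, ?_⟩
  rw [norm_indicatorConstLp (by norm_num) (by norm_num)]
  simp [Measure.real, Real.volume_Icc]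

/-- An operator is bounded by the operator it gives on the space of the cores. -/
theorem le_norm_const (x : H →L[ℂ] H) : ‖x‖ ≤ ‖const x‖ := by
  obtain ⟨k, hk⟩ := exists_unit_fn
  have hn : ∀ v : H, ‖tensor k v‖ = ‖v‖ := fun v => by
    have h : ⟪tensor k v, tensor k v⟫_ℂ = ⟪v, v⟫_ℂ := by
      rw [inner_tensor, inner_self_eq_norm_sq_to_K, hk]; simp
    have h2 : ‖tensor k v‖ ^ 2 = ‖v‖ ^ 2 := by
      rw [inner_self_eq_norm_sq_to_K, inner_self_eq_norm_sq_to_K] at h
      exact_mod_cast h
    exact (sq_eq_sq₀ (norm_nonneg _) (norm_nonneg _)).1 h2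
  refine x.opNorm_le_bound (norm_nonneg _) fun v => ?_
  rw [← hn (x v), ← hn v, ← const_tensor]
  exact (const x).le_opNorm _

theorem const_injective {x y : H →L[ℂ] H} (h : const x = const y) : x = y := by
  have := le_norm_const (x - y)
  rw [const_sub, h, sub_self, norm_zero] at this
  exact sub_eq_zero.1 (norm_le_zero_iff.1 this)

/-- A constant conjugation of two algebras of the space of the cores gives one of the algebras,
when their elements are weak limits of compressions. -/
theorem conj_of_compressions {M N : VonNeumannAlgebra H} {P Q : VonNeumannAlgebra (CoreH H)}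
    (sl : Lp ℂ 2 (volume : Measure ℝ) → (CoreH H →L[ℂ] CoreH H) → (H →L[ℂ] H))
    (hsl : ∀ k a X b, sl k (const a * X * const b) = a * sl k X * b)
    (hP : ∀ k, ∀ X ∈ P, sl k X ∈ M) (hQ : ∀ k, ∀ X ∈ Q, sl k X ∈ N)
    (hM : ∀ x ∈ M, ∃ (k : ℕ → Lp ℂ 2 (volume : Measure ℝ)) (X : ℕ → CoreH H →L[ℂ] CoreH H),
      (∀ n, X n ∈ P) ∧ TendsWeak atTop (fun n => sl (k n) (X n)) x)
    (hN : ∀ x ∈ N, ∃ (k : ℕ → Lp ℂ 2 (volume : Measure ℝ)) (X : ℕ → CoreH H →L[ℂ] CoreH H),
      (∀ n, X n ∈ Q) ∧ TendsWeak atTop (fun n => sl (k n) (X n)) x)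
    {u : H →L[ℂ] H} (hu : u ∈ unitary (H →L[ℂ] H)) (h : Conj P Q (const u)) : Conj M N u := by
  have hfwd : ∀ x ∈ M, u * x * star u ∈ N := fun x hx => by
    obtain ⟨k, X, hX, hlim⟩ := hM x hx
    refine mem_of_tendsWeak N ((hlim.mulLeft u).mulRight (star u)) fun n => ?_
    rw [← hsl, ← star_const]
    exact hQ _ _ ((h.iff _).1 (hX n))
  have hbwd : ∀ x ∈ N, star u * x * u ∈ M := fun x hx => by
    obtain ⟨k, X, hX, hlim⟩ := hN x hx
    refine mem_of_tendsWeak M ((hlim.mulLeft (star u)).mulRight u) fun n => ?_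
    rw [← hsl, ← star_const]
    refine hP _ _ ((h.iff _).2 ?_)
    rw [h.right_inv]
    exact hX n
  refine ⟨hu, fun x => ⟨hfwd x, fun hx => ?_⟩⟩
  have h' := hbwd _ hx
  simp only [mul_assoc, (Unitary.mem_iff.1 hu).1, mul_one] at h'
  rwa [← mul_assoc, (Unitary.mem_iff.1 hu).1, one_mul] at h'

/-- The amplification is isometric. -/
theorem norm_le_norm_ten (x : H →L[ℂ] H) : ‖x‖ ≤ ‖ten x‖ := by
  refine x.opNorm_le_bound (norm_nonneg _) fun v => ?_
  have h1 : ‖x v‖ = ‖ten x (lp.single 2 (0 : Idx) v)‖ := by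
    rw [Cent.ten_single, lp.norm_single (by norm_num)]
  rw [h1]
  refine ((ten x).le_opNorm _).trans_eq ?_
  rw [lp.norm_single (by norm_num)]

theorem norm_ten_le (x : H →L[ℂ] H) : ‖ten x‖ ≤ ‖x‖ :=
  lp.norm_mapCLM_le 2 _ x.opNorm_nonneg fun _ => le_rfl

theorem ten_injective {x y : H →L[ℂ] H} (h : ten x = ten y) : x = y := by
  refine ContinuousLinearMap.ext fun v => ?_
  have := congrArg (fun T : AmbH H →L[ℂ] AmbH H => T (lp.single 2 (0 : Idx) v) (0 : Idx)) h
  simpa [Cent.ten_single, lp.single_apply] using this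

theorem ten_smul_add (c : ℂ) (x y : H →L[ℂ] H) : ten (c • x + y) = c • ten x + ten y :=
  ContinuousLinearMap.ext fun f => lp.ext (funext fun i => rfl)

theorem ten_one : ten (1 : H →L[ℂ] H) = 1 :=
  ContinuousLinearMap.ext fun f => lp.ext (funext fun i => rfl)

/-- A conjugation of the stabilisations near the identity that commutes with the sites gives a
near isomorphism. -/
theorem nearIso_of_amb {M N : VonNeumannAlgebra H}
    (htM : ∀ x ∈ M, ten x ∈ amb M) (htN : ∀ x ∈ N, ten x ∈ amb N)
    (hsM : ∀ X ∈ amb M, (∀ n a, X * lsite n a = lsite n a * X) → ∃ x ∈ M, X = ten x)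
    (hsN : ∀ X ∈ amb N, (∀ n a, X * lsite n a = lsite n a * X) → ∃ x ∈ N, X = ten x)
    {u : AmbH H →L[ℂ] AmbH H} {η : ℝ} (h : Conj (amb M) (amb N) u) (hu : ‖u - 1‖ ≤ η)
    (hsites : ∀ n a, Commute u (lsite n a)) : NearIso M N (2 * η) := by
  obtain ⟨hu1, hu2⟩ := Unitary.mem_iff.1 h.unit
  have hs' : ∀ n a, Commute (star u) (lsite n a) := fun n a => by
    have := congrArg (fun T => star u * T * star u) (hsites n a).eq
    simp only [mul_assoc, hu2, mul_one] at this
    rw [← mul_assoc (star u) u, hu1, one_mul] at this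
    exact this.symm
  have hcom : ∀ {w : AmbH H →L[ℂ] AmbH H}, (∀ n a, Commute w (lsite n a)) →
      (∀ n a, Commute (star w) (lsite n a)) → ∀ (x : H →L[ℂ] H) n a,
        w * ten x * star w * lsite n a = lsite n a * (w * ten x * star w) := fun hw hw' x n a =>
    (((hw n a).mul_left (show Commute (ten x) (lsite n a) from Cent.ten_siteOp x n _)).mul_left
      (hw' n a)).eq
  have ex : ∀ x ∈ M, ∃ y ∈ N, ten y = u * ten x * star u := fun x hx => by
    obtain ⟨y, hy, e⟩ := hsN _ ((h.iff _).1 (htM x hx)) (hcom hsites hs' x)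
    exact ⟨y, hy, e.symm⟩
  choose! θ hθ using ex
  have key : ∀ x ∈ M, ∀ y, u * ten x * star u = ten y → θ x = y := fun x hx y e =>
    ten_injective ((hθ x hx).2.trans e)
  have h1 : θ 1 = 1 := key 1 (one_mem M) 1 (by rw [ten_one, mul_one, hu2])
  have hη : 0 ≤ η := (norm_nonneg _).trans hu
  refine ⟨θ, ⟨fun v => ?_, fun x hx y hy z hz c e => ?_, fun x hx y hy z hz e => ?_,
    fun x hx y hy e => ?_⟩, fun x hx => ?_, fun x hx => (hθ x hx).1, fun y hy => ?_⟩
  · show θ 1 v = v
    rw [h1, one_apply_eq_self]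
  · have e' : z = c • x + y := ContinuousLinearMap.ext e
    have : θ z = c • θ x + θ y := key z hz _ (by
      rw [e', ten_smul_add, ten_smul_add, (hθ x hx).2, (hθ y hy).2, mul_add, add_mul,
        mul_smul_comm, smul_mul_assoc])
    intro v; rw [this]; rfl
  · have e' : z = x * y := ContinuousLinearMap.ext e
    have : θ z = θ x * θ y := key z hz _ (by
      rw [e', ← Cent.ten_mul, ← Cent.ten_mul, (hθ x hx).2, (hθ y hy).2]
      simp only [mul_assoc]
      rw [← mul_assoc (star u) u, hu1, one_mul])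
    intro v; rw [this]; rfl
  · have e' := eq_star_of_isAdjOp e
    have : θ y = star (θ x) := key y hy _ (by
      rw [e', ← Cent.star_ten, ← Cent.star_ten, (hθ x hx).2, star_mul, star_mul, star_star,
        mul_assoc])
    rw [this]; exact isAdjOp_star _
  · show ‖θ x - x‖ ≤ 2 * η * ‖x‖
    refine (norm_le_norm_ten _).trans ?_
    rw [show ten (θ x - x) = u * ten x * star u - ten x by
      rw [← (hθ x hx).2]; exact ContinuousLinearMap.ext fun f => lp.ext (funext fun i => rfl)]
    rw [show u * ten x * star u - ten x = ((u - 1) * ten x - ten x * (u - 1)) * star u by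
      simp only [sub_mul, mul_sub, one_mul, mul_one, mul_assoc, hu2]; abel]
    refine (norm_mul_le _ _).trans ((mul_le_of_le_one_right (norm_nonneg _)
      (Full.Reduce.norm_le_one (Unitary.star_mem h.unit))).trans ?_)
    refine (norm_sub_le _ _).trans ((add_le_add (norm_mul_le _ _) (norm_mul_le _ _)).trans ?_)
    have := norm_ten_le x
    nlinarith [norm_nonneg (ten x), norm_nonneg (u - 1), norm_nonneg x]
  · obtain ⟨x, hx, e⟩ := hsM _ ((h.symm.iff _).1 (htN y hy))
      (hcom hs' (by simpa only [star_star] using hsites) y)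
    refine ⟨x, hx, key x hx y ?_⟩
    rw [← e, star_star, h.right_inv]

end Vale.Agent.P096.Three.Core
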