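import Vale.Agent.P096.Three.Core.Basic

/-!
P096, cores: vectors on intervals.  What commutes with all phases commutes with every
multiplication; an operator of the half line which also commutes with a dense set of shifts to the
left is pointwise constant.
-/

open scoped InnerProductSpace ComplexConjugate
open MeasureTheory Filter Topology Set

namespace Vale.Agent.P096.Three.Core

variable {H : Type} [NormedAddCommGroup H] [InnerProductSpace ℂ H] [CompleteSpace H]

/-- The vector `u` on the interval `(a, b]`. -/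
noncomputable def ivec (a b : ℝ) (u : H) : CoreH H :=
  indicatorConstLp 2 measurableSet_Ioc (measure_Ioc_lt_top (μ := volume) (a := a) (b := b)).ne u

omit [CompleteSpace H] in
theorem ivec_apply (a b : ℝ) (u : H) :
    ⇑(ivec a b u) =ᵐ[volume] (Ioc a b).indicator fun _ => u :=
  indicatorConstLp_coeFn

/-- Multiplication by the indicator of an interval. -/
noncomputable def cut (a b : ℝ) : CoreH H →L[ℂ] CoreH H :=
  mulFn ((Ioc a b).indicator fun _ => (1 : ℂ)) (measurable_const.indicator measurableSet_Ioc) 1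
    fun d => by by_cases h : d ∈ Ioc a b <;> simp [h]

omit [CompleteSpace H] in
theorem cut_ivec (a b c e : ℝ) (u : H) :
    cut c e (ivec a b u) = ivec (max a c) (min b e) u := by
  refine Lp.ext ?_
  filter_upwards [mulFn_apply ((Ioc c e).indicator fun _ => (1 : ℂ))
    (measurable_const.indicator measurableSet_Ioc) 1 (fun d => by
      by_cases h : d ∈ Ioc c e <;> simp [h]) (ivec a b u), ivec_apply a b u,
    ivec_apply (max a c) (min b e) u] with d h1 h2 h3
  rw [cut, h1, h2, h3, ← Ioc_inter_Ioc]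
  by_cases hc : d ∈ Ioc c e <;> by_cases ha : d ∈ Ioc a b <;> simp [hc, ha]

omit [CompleteSpace H] in
theorem halfLine_ivec (a b : ℝ) (u : H) : halfLine (ivec a b u) = ivec a (min b 0) u := by
  refine Lp.ext ?_
  filter_upwards [halfLine_apply (ivec a b u), ivec_apply a b u,
    ivec_apply a (min b 0) u] with d h1 h2 h3
  rw [h1, h2, h3]
  by_cases hd : d ≤ 0 <;> by_cases ha : a < d <;> by_cases hb : d ≤ b <;> simp [hd, ha, hb]

omit [CompleteSpace H] in
theorem shift_ivec (s a b : ℝ) (u : H) : shift s (ivec a b u) = ivec (a + s) (b + s) u := by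
  refine Lp.ext ?_
  filter_upwards [shift_apply s (ivec a b u), ae_shift s (ivec_apply a b u),
    ivec_apply (a + s) (b + s) u] with d h1 h2 h3
  rw [h1, h2, h3]
  by_cases hd : d ∈ Ioc (a + s) (b + s)
  · rw [indicator_of_mem hd, indicator_of_mem (show d - s ∈ Ioc a b from
      ⟨by linarith [hd.1], by linarith [hd.2]⟩)]
  · rw [indicator_of_notMem hd, indicator_of_notMem fun h =>
      hd ⟨by linarith [h.1], by linarith [h.2]⟩]

omit [CompleteSpace H] in
theorem ivec_split {a b c : ℝ} (hab : a ≤ b) (hbc : b ≤ c) (u : H) :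
    ivec a c u = ivec a b u + ivec b c u := by
  refine Lp.ext ?_
  filter_upwards [ivec_apply a c u, ivec_apply a b u, ivec_apply b c u,
    Lp.coeFn_add (ivec a b u) (ivec b c u)] with d h1 h2 h3 h4
  rw [h1, h4, Pi.add_apply, h2, h3]
  rw [← Ioc_union_Ioc_eq_Ioc hab hbc, indicator_union_of_disjoint (Ioc_disjoint_Ioc_of_le le_rfl)]

omit [CompleteSpace H] in
theorem ivec_add (a b : ℝ) (u v : H) : ivec a b (u + v) = ivec a b u + ivec a b v := by
  refine Lp.ext ?_
  filter_upwards [ivec_apply a b (u + v), ivec_apply a b u, ivec_apply a b v,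
    Lp.coeFn_add (ivec a b u) (ivec a b v)] with d h1 h2 h3 h4
  rw [h1, h4, Pi.add_apply, h2, h3]
  by_cases hd : d ∈ Ioc a b <;> simp [hd]

omit [CompleteSpace H] in
theorem ivec_smul (a b : ℝ) (c : ℂ) (u : H) : ivec a b (c • u) = c • ivec a b u := by
  refine Lp.ext ?_
  filter_upwards [ivec_apply a b (c • u), ivec_apply a b u,
    Lp.coeFn_smul c (ivec a b u)] with d h1 h2 h3
  rw [h1, h3, Pi.smul_apply, h2]
  by_cases hd : d ∈ Ioc a b <;> simp [hd]

omit [CompleteSpace H] in
theorem const_ivec (x : H →L[ℂ] H) (a b : ℝ) (u : H) : const x (ivec a b u) = ivec a b (x u) := by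
  refine Lp.ext ?_
  filter_upwards [const_apply x (ivec a b u), ivec_apply a b u,
    ivec_apply a b (x u)] with d h1 h2 h3
  rw [h1, h2, h3]
  by_cases hd : d ∈ Ioc a b <;> simp [hd]

theorem inner_ivec (a b c e : ℝ) (u v : H) :
    ⟪ivec a b u, ivec c e v⟫_ℂ = ((max (min b e - max a c) 0 : ℝ) : ℂ) * ⟪u, v⟫_ℂ := by
  rw [ivec, ivec, L2.inner_indicatorConstLp_indicatorConstLp (hμs := measure_Ioc_lt_top.ne)
    (hμt := measure_Ioc_lt_top.ne), Ioc_inter_Ioc,
    measureReal_def, Real.volume_Ioc, ENNReal.toReal_ofReal', Complex.real_smul]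

theorem norm_ivec_sq {a b : ℝ} (hab : a ≤ b) (u : H) :
    ‖ivec a b u‖ ^ 2 = (b - a) * ‖u‖ ^ 2 := by
  rw [← inner_self_eq_norm_sq (𝕜 := ℂ), inner_ivec, min_self, max_self,
    max_eq_left (sub_nonneg.2 hab), inner_self_eq_norm_sq_to_K]
  simp [← Complex.ofReal_pow]

theorem eq_zero_of_ivec {ψ : CoreH H} (h : ∀ a b u, ⟪ivec a b u, ψ⟫_ℂ = 0) : ψ = 0 := by
  have hloc : LocallyIntegrable (⇑ψ) volume := (Lp.memLp ψ).locallyIntegrable (by norm_num)
  have hz : ∀ a b : ℝ, ∫ d in Ioc a b, ψ d = 0 := fun a b => by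
    have h1 := h a b (∫ d in Ioc a b, ψ d)
    rw [ivec, L2.inner_indicatorConstLp_eq_inner_setIntegral] at h1
    exact inner_self_eq_zero.1 h1
  refine Lp.ext ?_
  filter_upwards [_root_.LocallyIntegrable.ae_hasDerivAt_integral hloc, Lp.coeFn_zero H 2 (volume : Measure ℝ)] with d hd h0
  rw [h0, Pi.zero_apply]
  have e : (fun x => ∫ t in (0 : ℝ)..x, ψ t) = fun _ => (0 : H) := funext fun x => by
    rw [intervalIntegral, hz, hz, sub_self]
  have h2 := hd 0
  rw [e] at h2
  exact h2.unique (hasDerivAt_const d _)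

theorem op_ext {T S : CoreH H →L[ℂ] CoreH H} (h : ∀ a b u, T (ivec a b u) = S (ivec a b u)) :
    T = S := by
  rw [← sub_eq_zero]
  refine star_eq_zero.1 (ContinuousLinearMap.ext fun φ => eq_zero_of_ivec fun a b u => ?_)
  rw [ContinuousLinearMap.star_eq_adjoint, ContinuousLinearMap.adjoint_inner_right, sub_apply,
    h a b u, sub_self, inner_zero_left]

/-! ### Operators commuting with the phases -/

omit [NormedAddCommGroup H] [InnerProductSpace ℂ H] [CompleteSpace H] in
theorem re_ae_zero_of_fourier {g : ℝ → ℂ} (hg : Integrable g)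
    (h : ∀ t : ℝ, ∫ d, Complex.exp (((t * d : ℝ) : ℂ) * Complex.I) * g d = 0) :
    ∀ᵐ d : ℝ, (g d).re = 0 := by
  set e : ℝ → ℝ → ℂ := fun t d => Complex.exp (((t * d : ℝ) : ℂ) * Complex.I) with he
  have hem : ∀ t, AEStronglyMeasurable (e t) volume := fun t =>
    (Continuous.aestronglyMeasurable (by fun_prop))
  have hen : ∀ t d, ‖e t d‖ ≤ 1 := fun t d => (Complex.norm_exp_ofReal_mul_I _).le
  have hconj : ∀ t, ∫ d, e t d * conj (g d) = 0 := fun t => by
    have e1 : (fun d => e t d * conj (g d)) = fun d => conj (e (-t) d * g d) := funext fun d => by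
      simp only [he, map_mul, ← Complex.exp_conj]
      simp
    rw [e1, integral_conj, h, map_zero]
  have hre : ∀ t, ∫ d, e t d * ((g d).re : ℂ) = 0 := fun t => by
    have e1 : (fun d => e t d * ((g d).re : ℂ))
        = fun d => (1 / 2 : ℂ) * (e t d * g d + e t d * conj (g d)) := funext fun d => by
      rw [← mul_add, Complex.add_conj]; push_cast; ring
    have i1 : Integrable fun d => e t d * g d := hg.bdd_mul (hem t) (Eventually.of_forall (hen t))
    have i2 : Integrable fun d => e t d * conj (g d) :=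
      (Integrable.mono hg (Complex.continuous_conj.comp_aestronglyMeasurable hg.1)
        (Eventually.of_forall fun d => by simp)).bdd_mul (hem t) (Eventually.of_forall (hen t))
    rw [e1, integral_const_mul, integral_add i1 i2, h, hconj, add_zero, mul_zero]
  set r : ℝ → ℝ := fun d => (g d).re with hr
  have hri : Integrable r := hg.re
  set μp := (volume : Measure ℝ).withDensity fun d => ENNReal.ofReal (r d) with hμp
  set μn := (volume : Measure ℝ).withDensity fun d => ENNReal.ofReal (-r d) with hμn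
  haveI : IsFiniteMeasure μp := isFiniteMeasure_withDensity_ofReal hri.2
  haveI : IsFiniteMeasure μn := isFiniteMeasure_withDensity_ofReal hri.neg.2
  have hmeas : AEMeasurable r volume := hri.1.aemeasurable
  have hint : ∀ (t : ℝ) (q : ℝ → ℝ), AEMeasurable q volume →
      charFun ((volume : Measure ℝ).withDensity fun d => ENNReal.ofReal (q d)) t
        = ∫ d, e t d * ((max (q d) 0 : ℝ) : ℂ) := fun t q hq => by
    rw [charFun_apply, integral_withDensity_eq_integral_toReal_smul₀ hq.ennreal_ofReal
      (Eventually.of_forall fun d => ENNReal.ofReal_lt_top)]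
    refine integral_congr_ae (Eventually.of_forall fun d => ?_)
    simp only [he, ENNReal.toReal_ofReal', Complex.real_smul, RCLike.inner_apply, conj_trivial]
    ring
  have heq : μp = μn := by
    refine Measure.ext_of_charFun (funext fun t => ?_)
    rw [hμp, hμn, hint t r hmeas, hint t (fun d => -r d) hmeas.neg]
    have j : ∀ q : ℝ → ℝ, Integrable q → Integrable fun d => e t d * ((max (q d) 0 : ℝ) : ℂ) :=
      fun q hq => hq.pos_part.ofReal.bdd_mul (hem t) (Eventually.of_forall (hen t))
    rw [← sub_eq_zero, ← integral_sub (j r hri) (j (fun d => -r d) hri.neg)]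
    refine Eq.trans (integral_congr_ae (Eventually.of_forall fun d => ?_)) (hre t)
    show e t d * _ - e t d * _ = _
    rw [← mul_sub, ← Complex.ofReal_sub, max_zero_sub_eq_self]
  have h1 := (withDensity_eq_iff_of_sigmaFinite hmeas.ennreal_ofReal
    hmeas.neg.ennreal_ofReal).1 heq
  filter_upwards [h1] with d hd
  have h2 := congrArg ENNReal.toReal hd
  simp only [ENNReal.toReal_ofReal', Pi.neg_apply] at h2
  show r d = 0
  have h3 := max_zero_sub_eq_self (r d)
  linarith

omit [NormedAddCommGroup H] [InnerProductSpace ℂ H] [CompleteSpace H] in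
theorem ae_zero_of_fourier {g : ℝ → ℂ} (hg : Integrable g)
    (h : ∀ t : ℝ, ∫ d, Complex.exp (((t * d : ℝ) : ℂ) * Complex.I) * g d = 0) :
    g =ᵐ[volume] 0 := by
  filter_upwards [re_ae_zero_of_fourier hg h,
    re_ae_zero_of_fourier (hg.const_mul Complex.I) fun t => by
      simp only [mul_left_comm _ Complex.I]
      rw [integral_const_mul, h, mul_zero]] with d h1 h2
  exact Complex.ext h1 (by simpa using h2)

theorem commute_mulFn_of_phase {T : CoreH H →L[ℂ] CoreH H} (h : ∀ t, T * phase t = phase t * T)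
    (f : ℝ → ℂ) (hf : Measurable f) (K : ℝ) (hK : ∀ d, ‖f d‖ ≤ K) :
    T * mulFn f hf K hK = mulFn f hf K hK * T := by
  refine ContinuousLinearMap.ext fun ψ => ext_inner_left ℂ fun φ => ?_
  set g : ℝ → ℂ := fun d => ⟪(star T φ : CoreH H) d, ψ d⟫_ℂ - ⟪φ d, (T ψ) d⟫_ℂ with hg
  have e : ∀ (q : ℝ → ℂ) (hq : Measurable q) (L : ℝ) (hL : ∀ d, ‖q d‖ ≤ L),
      ⟪φ, T (mulFn q hq L hL ψ)⟫_ℂ - ⟪φ, mulFn q hq L hL (T ψ)⟫_ℂ = ∫ d, q d * g d := by
    intro q hq L hL
    rw [← ContinuousLinearMap.adjoint_inner_left T, ← ContinuousLinearMap.star_eq_adjoint,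
      L2.inner_def, L2.inner_def, ← integral_sub (L2.integrable_inner _ _) (L2.integrable_inner _ _)]
    refine integral_congr_ae ?_
    filter_upwards [mulFn_apply q hq L hL ψ, mulFn_apply q hq L hL (T ψ)] with d h1 h2
    rw [h1, h2, inner_smul_right, inner_smul_right, hg, mul_sub]
  have hgi : Integrable g := (L2.integrable_inner _ _).sub (L2.integrable_inner _ _)
  have hz := ae_zero_of_fourier hgi fun t => by
    refine (e (fun d => Complex.exp (((t * d : ℝ) : ℂ) * Complex.I))
      (Complex.measurable_exp.comp ((Complex.measurable_ofReal.comp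
      (measurable_const.mul measurable_id)).mul_const _)) 1
      fun d => (Complex.norm_exp_ofReal_mul_I _).le).symm.trans ?_
    rw [sub_eq_zero]
    exact congrArg (fun A : CoreH H →L[ℂ] CoreH H => ⟪φ, A ψ⟫_ℂ) (h t)
  rw [mul_apply_eq_comp, mul_apply_eq_comp, ← sub_eq_zero, e f hf K hK]
  refine integral_eq_zero_of_ae ?_
  filter_upwards [hz] with d hd
  rw [hd, Pi.zero_apply, mul_zero]

/-! ### Constant operators on the half line -/

/-- An additive Lipschitz function on the positive half line is linear. -/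
theorem linear_of_additive {G : ℝ → ℂ} {B : ℝ}
    (hadd : ∀ s t, 0 ≤ s → 0 ≤ t → G (s + t) = G s + G t)
    (hB : ∀ s t, 0 ≤ s → 0 ≤ t → ‖G s - G t‖ ≤ B * |s - t|) {t : ℝ} (ht : 0 ≤ t) :
    G t = (t : ℂ) * G 1 := by
  have h0 : G 0 = 0 := by simpa using hadd 0 0 le_rfl le_rfl
  have hn : ∀ (n : ℕ) (s : ℝ), 0 ≤ s → G (n * s) = n * G s := fun n s hs => by
    induction n with
    | zero => simp [h0]
    | succ n ih =>
      rw [Nat.cast_succ, add_mul, one_mul, hadd _ _ (by positivity) hs, ih]; push_cast; ring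
  have key : ∀ n : ℕ, 0 < n → ‖G t - (t : ℂ) * G 1‖ ≤ (|B| + ‖G 1‖) / n := fun n hn0 => by
    set k := ⌊t * n⌋₊
    have hk1 := Nat.floor_le (show 0 ≤ t * n by positivity)
    have hk2 := Nat.lt_floor_add_one (t * n)
    have hn' : (0 : ℝ) < n := by exact_mod_cast hn0
    have e1 : G ((k : ℝ) / n) = ((k : ℝ) / n : ℝ) * G 1 := by
      have h2 := hn n ((k : ℝ) / n) (by positivity)
      rw [mul_div_cancel₀ _ hn'.ne', ← mul_one (k : ℝ), hn k 1 zero_le_one, mul_one] at h2
      have hnc : (n : ℂ) ≠ 0 := by exact_mod_cast hn0.ne'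
      push_cast
      field_simp
      rw [h2]; ring
    have hd : |t - (k : ℝ) / n| ≤ 1 / n := by
      have e2 : t - (k : ℝ) / n = (t * n - k) / n := by field_simp
      rw [e2, abs_div, abs_of_pos hn', div_le_div_iff_of_pos_right hn', abs_le]
      constructor <;> linarith
    calc ‖G t - (t : ℂ) * G 1‖
        = ‖(G t - G ((k : ℝ) / n)) + ((((k : ℝ) / n - t : ℝ)) : ℂ) * G 1‖ := by
          rw [e1]; push_cast; ring_nf
      _ ≤ B * |t - (k : ℝ) / n| + |(k : ℝ) / n - t| * ‖G 1‖ := by
          refine (norm_add_le _ _).trans (add_le_add (hB _ _ ht (by positivity)) ?_)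
          rw [norm_mul, Complex.norm_real, Real.norm_eq_abs]
      _ ≤ |B| * (1 / n) + 1 / n * ‖G 1‖ := by
          rw [abs_sub_comm ((k : ℝ) / n)]
          exact add_le_add (mul_le_mul (le_abs_self B) hd (abs_nonneg _) (abs_nonneg _))
            (mul_le_mul_of_nonneg_right hd (norm_nonneg _))
      _ = _ := by ring
  refine sub_eq_zero.1 (norm_eq_zero.1 (le_antisymm (le_of_forall_pos_le_add fun ε hε => ?_)
    (norm_nonneg _)))
  obtain ⟨n, hn1⟩ := exists_nat_gt ((|B| + ‖G 1‖) / ε)
  have hn0 : 0 < n := by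
    exact_mod_cast (show (0 : ℝ) ≤ (|B| + ‖G 1‖) / ε by positivity).trans_lt hn1
  rw [zero_add]
  refine (key n hn0).trans ?_
  rw [div_le_iff₀ (by positivity)]
  rw [div_lt_iff₀ hε] at hn1
  linarith

/-- The unit interval left of zero. -/
noncomputable def unitVec : H →L[ℂ] CoreH H :=
  LinearMap.mkContinuous
    { toFun := ivec (-1) 0
      map_add' := ivec_add (-1) 0
      map_smul' := ivec_smul (-1) 0 } 1 fun u => by
    rw [one_mul, LinearMap.coe_mk, AddHom.coe_mk, ← sq_le_sq₀ (norm_nonneg _) (norm_nonneg _),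
      norm_ivec_sq (by norm_num)]
    norm_num

/-- The value of an operator on the unit interval. -/
noncomputable def unitSlice (T : CoreH H →L[ℂ] CoreH H) : H →L[ℂ] H :=
  (ContinuousLinearMap.adjoint unitVec).comp (T.comp unitVec)

theorem inner_unitSlice (T : CoreH H →L[ℂ] CoreH H) (v u : H) :
    ⟪v, unitSlice T u⟫_ℂ = ⟪ivec (-1) 0 v, T (ivec (-1) 0 u)⟫_ℂ := by
  rw [unitSlice, ContinuousLinearMap.comp_apply,
    ContinuousLinearMap.adjoint_inner_right, ContinuousLinearMap.comp_apply]
  rfl

theorem eq_const_halfLine {T : CoreH H →L[ℂ] CoreH H} (hr : T * halfLine = T) (hph : ∀ t, T * phase t = phase t * T)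
    (hS : ∀ a b : ℝ, a < b → b ≤ 0 → ∃ s, a < s ∧ s < b ∧ T * shift s * halfLine = shift s * T) :
    T = const (unitSlice T) * halfLine := by
  set m : H → H → ℝ → ℝ → ℂ := fun v u a b => ⟪ivec a b v, T (ivec a b u)⟫_ℂ with hm
  have hcut : ∀ a b, T * cut a b = cut a b * T := fun a b => commute_mulFn_of_phase hph _ _ _ _
  have hcs : ∀ a b (φ ψ : CoreH H), ⟪cut a b φ, ψ⟫_ℂ = ⟪φ, cut a b ψ⟫_ℂ := fun a b φ ψ => by
    rw [cut, ← ContinuousLinearMap.adjoint_inner_left, ← ContinuousLinearMap.star_eq_adjoint,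
      star_mulFn]
    congr 1
    refine congrArg (fun A : CoreH H →L[ℂ] CoreH H => A φ) ?_
    congr 1
    funext d
    by_cases hd : d ∈ Ioc a b <;> simp [hd]
  have hcr : ∀ v u a b c e, ⟪ivec a b v, T (ivec c e u)⟫_ℂ = m v u (max a c) (min b e) := by
    intro v u a b c e
    have e1 : cut a b (ivec a b v) = ivec a b v := by rw [cut_ivec, max_self, min_self]
    have e2 : cut c e (ivec c e u) = ivec c e u := by rw [cut_ivec, max_self, min_self]
    have e3 : cut (max a c) (min b e) (ivec c e u) = ivec (max a c) (min b e) u := by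
      rw [cut_ivec, max_comm a c, max_eq_right (le_max_left c a), min_comm b e,
        min_eq_right (min_le_left e b)]
    have e4 : cut a b (ivec c e u) = ivec (max a c) (min b e) u := by
      rw [cut_ivec, max_comm c a, min_comm e b]
    have e5 : cut c e (ivec a b v) = ivec (max a c) (min b e) v := cut_ivec a b c e v
    calc ⟪ivec a b v, T (ivec c e u)⟫_ℂ = ⟪cut a b (ivec a b v), T (ivec c e u)⟫_ℂ := by rw [e1]
      _ = ⟪ivec a b v, T (ivec (max a c) (min b e) u)⟫_ℂ := by
          rw [hcs, ← mul_apply_eq_comp, ← hcut, mul_apply_eq_comp, e4]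
      _ = ⟪ivec a b v, cut c e (T (ivec (max a c) (min b e) u))⟫_ℂ := by
          rw [← mul_apply_eq_comp, ← hcut, mul_apply_eq_comp, cut_ivec,
            max_eq_left (le_max_right a c), min_eq_left (min_le_right b e)]
      _ = _ := by rw [← hcs, e5]
  have hempty : ∀ v u a, m v u a a = 0 := fun v u a => by
    rw [hm]
    simp only
    rw [show ivec a a v = 0 by simp [ivec, Ioc_self], inner_zero_left]
  have hadd : ∀ v u a b c, a ≤ b → b ≤ c → m v u a c = m v u a b + m v u b c := by
    intro v u a b c hab hbc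
    show ⟪ivec a c v, T (ivec a c u)⟫_ℂ = _
    rw [ivec_split hab hbc u, ivec_split hab hbc v, map_add, inner_add_left, inner_add_right,
      inner_add_right, hcr v u a b b c, hcr v u b c a b, max_eq_right hab, min_eq_left hbc,
      max_eq_left hab, min_eq_right hbc, hempty]
    simp [hm]
  have hbound : ∀ v u a b, a ≤ b → ‖m v u a b‖ ≤ ‖T‖ * ‖u‖ * ‖v‖ * (b - a) := by
    intro v u a b hab
    refine (norm_inner_le_norm _ _).trans ((mul_le_mul_of_nonneg_left (T.le_opNorm _)
      (norm_nonneg _)).trans ?_)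
    have h1 : ‖ivec a b v‖ = Real.sqrt (b - a) * ‖v‖ := by
      rw [← Real.sqrt_sq (norm_nonneg (ivec a b v)), norm_ivec_sq hab,
        Real.sqrt_mul (sub_nonneg.2 hab), Real.sqrt_sq (norm_nonneg _)]
    have h2 : ‖ivec a b u‖ = Real.sqrt (b - a) * ‖u‖ := by
      rw [← Real.sqrt_sq (norm_nonneg (ivec a b u)), norm_ivec_sq hab,
        Real.sqrt_mul (sub_nonneg.2 hab), Real.sqrt_sq (norm_nonneg _)]
    rw [h1, h2]
    have := Real.mul_self_sqrt (sub_nonneg.2 hab)
    refine le_of_eq ?_
    calc _ = ‖T‖ * ‖u‖ * ‖v‖ * (Real.sqrt (b - a) * Real.sqrt (b - a)) := by ring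
      _ = _ := by rw [this]
  have main : ∀ v u a b, a ≤ b → b ≤ 0 → m v u a b = ((b - a : ℝ) : ℂ) * ⟪v, unitSlice T u⟫_ℂ := by
    intro v u
    set G : ℝ → ℂ := fun t => m v u (-t) 0 with hG
    set B := ‖T‖ * ‖u‖ * ‖v‖ with hBdef
    have hlip' : ∀ s t, 0 ≤ s → s ≤ t → ‖G t - G s‖ ≤ B * (t - s) := fun s t hs hst => by
      have e := hadd v u (-t) (-s) 0 (by linarith) (by linarith)
      show ‖m v u (-t) 0 - m v u (-s) 0‖ ≤ _
      rw [e, add_sub_cancel_right]
      exact (hbound v u _ _ (by linarith)).trans_eq (by ring)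
    have hlip : ∀ s t, 0 ≤ s → 0 ≤ t → ‖G s - G t‖ ≤ B * |s - t| := fun s t hs ht => by
      rcases le_total s t with h | h
      · rw [norm_sub_rev, abs_sub_comm, abs_of_nonneg (sub_nonneg.2 h)]; exact hlip' s t hs h
      · rw [abs_of_nonneg (sub_nonneg.2 h)]; exact hlip' t s ht h
    have hGadd : ∀ s t, 0 ≤ s → 0 ≤ t → G (s + t) = G s + G t := by
      intro s t hs ht
      refine sub_eq_zero.1 (norm_eq_zero.1 (le_antisymm (le_of_forall_pos_le_add fun ε hε => ?_)
        (norm_nonneg _)))
      rw [zero_add]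
      set η := ε / (2 * (B + 1)) with hη
      have hB0 : 0 ≤ B := by positivity
      have hη0 : 0 < η := by positivity
      obtain ⟨σ, h1, h2, hσ⟩ := hS (-s - η) (min (-s + η) 0)
        (lt_min (by linarith) (by linarith)) (min_le_right _ _)
      have hσ0 : σ ≤ 0 := h2.le.trans (min_le_right _ _)
      have h2' : σ < -s + η := h2.trans_le (min_le_left _ _)
      have hmov : m v u (-t + σ) σ = G t := by
        have ep : halfLine (ivec (-t) 0 u) = ivec (-t) 0 u := by rw [halfLine_ivec, min_self]
        show ⟪ivec (-t + σ) σ v, T (ivec (-t + σ) σ u)⟫_ℂ = _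
        rw [← zero_add σ]
        simp only [add_zero, ← add_assoc]
        rw [← shift_ivec, ← shift_ivec,
          show T (shift σ (ivec (-t) 0 u))
              = ((T * shift σ * halfLine : CoreH H →L[ℂ] CoreH H)) (ivec (-t) 0 u) by
            rw [mul_apply_eq_comp, mul_apply_eq_comp, ep],
          hσ, mul_apply_eq_comp]
        exact (Lp.compMeasurePreservingₗᵢ ℂ (fun d : ℝ => d - σ)
          (measurePreserving_sub_right volume σ) (E := H) (p := 2)).inner_map_map _ _
      have e := hadd v u (-t + σ) σ 0 (by linarith) hσ0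
      rw [hmov] at e
      have a1 := hlip (s + t) (t + -σ) (by linarith) (by linarith)
      have a2 := hlip s (-σ) hs (by linarith)
      have hGσ : G (t + -σ) = G t + G (-σ) := by
        simp only [hG, neg_add_rev, neg_neg]
        rw [add_comm σ (-t)]
        exact e
      rw [hGσ] at a1
      have hs1 : |s + t - (t + -σ)| ≤ η := abs_le.2 ⟨by linarith, by linarith⟩
      have hs2 : |s - -σ| ≤ η := abs_le.2 ⟨by linarith, by linarith⟩
      calc ‖G (s + t) - (G s + G t)‖
          = ‖(G (s + t) - (G t + G (-σ))) - (G s - G (-σ))‖ := by ring_nf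
        _ ≤ B * η + B * η := (norm_sub_le _ _).trans (add_le_add
            (a1.trans (mul_le_mul_of_nonneg_left hs1 hB0))
            (a2.trans (mul_le_mul_of_nonneg_left hs2 hB0)))
        _ ≤ ε := by
            rw [hη]; field_simp; nlinarith
    intro a b hab hb
    have e := hadd v u a b 0 hab hb
    have ea := linear_of_additive hGadd hlip (t := -a) (by linarith)
    have eb := linear_of_additive hGadd hlip (t := -b) (by linarith)
    simp only [hG, neg_neg] at ea eb
    rw [inner_unitSlice]
    show m v u a b = _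
    rw [eq_sub_of_add_eq e.symm, ea, eb]
    show _ = _ * m v u (-1) 0
    push_cast; ring
  refine op_ext fun c e u => ?_
  rw [← sub_eq_zero]
  refine eq_zero_of_ivec fun a b v => ?_
  rw [inner_sub_right, sub_eq_zero, mul_apply_eq_comp, halfLine_ivec, const_ivec, inner_ivec]
  conv_lhs => rw [← hr, mul_apply_eq_comp, halfLine_ivec, hcr]
  rcases le_total (max a c) (min b (min e 0)) with h | h
  · rw [main v u _ _ h ((min_le_right _ _).trans (min_le_right _ _)), max_eq_left (sub_nonneg.2 h)]
  · rw [max_eq_right (sub_nonpos.2 h)]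
    have : ivec (max a c) (min b (min e 0)) u = (0 : CoreH H) := by simp [ivec, Ioc_eq_empty (not_lt.2 h)]
    simp [hm, this]

theorem halfLine_shift_halfLine {s : ℝ} (hs : s ≤ 0) :
    halfLine * shift s * halfLine = shift s * halfLine (H := H) := by
  refine op_ext fun a b u => ?_
  simp only [mul_apply_eq_comp, halfLine_ivec, shift_ivec]
  rw [min_eq_left ((add_le_add (min_le_right b 0) hs).trans_eq (add_zero 0))]

/-- What commutes with all phases and all shifts is pointwise constant. -/
theorem exists_const {T : CoreH H →L[ℂ] CoreH H} (hph : ∀ t, T * phase t = phase t * T)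
    (hsh : ∀ s, T * shift s = shift s * T) : ∃ u, T = const u := by
  have hTp : T * halfLine = halfLine * T := commute_mulFn_of_phase hph _ _ _ _
  have h := eq_const_halfLine (T := T * halfLine) (by
      rw [mul_assoc]
      congr 1
      refine op_ext fun a b u => ?_
      simp only [mul_apply_eq_comp, halfLine_ivec]
      rw [min_assoc, min_self])
    (fun t => by
      rw [mul_assoc, show halfLine * phase t = phase t * halfLine (H := H) from
        (mulFn_comm _ _ _ _ _ _ _ _).eq, ← mul_assoc, hph, mul_assoc])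
    fun a b hab hb => ⟨(a + b) / 2, by linarith, by linarith, by
      rw [show T * halfLine * shift ((a + b) / 2) * halfLine
          = T * (halfLine * shift ((a + b) / 2) * halfLine) by simp only [mul_assoc],
        halfLine_shift_halfLine (by linarith), ← mul_assoc, hsh, mul_assoc]⟩
  refine ⟨unitSlice (T * halfLine), op_ext fun a b u => ?_⟩
  have e : ivec a b u = shift b (ivec (a - b) 0 u) := by rw [shift_ivec, sub_add_cancel, zero_add]
  have e2 := congrArg (fun A : CoreH H →L[ℂ] CoreH H => A (ivec (a - b) 0 u)) h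
  simp only [mul_apply_eq_comp, halfLine_ivec, min_self] at e2
  rw [e, ← mul_apply_eq_comp, hsh, mul_apply_eq_comp, e2, ← mul_apply_eq_comp (const _),
    (const_shift _ b).eq, mul_apply_eq_comp]

theorem const_halfLine_inj {x y : H →L[ℂ] H}
    (h : const x * halfLine = const y * halfLine) : x = y := by
  refine ContinuousLinearMap.ext fun u => sub_eq_zero.1 (norm_eq_zero.1 ?_)
  have h1 := congrArg (fun A : CoreH H →L[ℂ] CoreH H => A (ivec (-1) 0 u)) h
  simp only [mul_apply_eq_comp, halfLine_ivec, min_self, const_ivec] at h1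
  have e : ivec (-1) 0 (x u - y u) = (0 : CoreH H) := by
    have := ivec_add (-1) 0 (x u - y u) (y u)
    rw [sub_add_cancel, h1] at this
    exact right_eq_add.1 this
  have h2 := norm_ivec_sq (show (-1 : ℝ) ≤ 0 by norm_num) (x u - y u)
  rw [e, norm_zero] at h2
  simpa using h2.symm

end Vale.Agent.P096.Three.Core
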