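import Vale.Agent.P096.Three.Core.Basic
import Vale.Agent.P096.Full.Reduce.Group

/-!
P096, cores: the shifted units of each site are matrix units, and signed permutations of finitely
many sites are increasing finite groups with the same commutant as the units.
-/

namespace Vale.Agent.P096.Three.Core.Sites

variable {H : Type} [NormedAddCommGroup H] [InnerProductSpace ℂ H] [CompleteSpace H]

/-! ### The units of a site -/

theorem siteW_sq (n : ℕ) : siteW n 0 ^ 2 + siteW n 1 ^ 2 = 1 := Cent.famW_sq _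

theorem lsite_mul (n : ℕ) (a b : Matrix (Fin 2) (Fin 2) ℂ) :
    lsite (H := H) n a * lsite n b = lsite n (a * b) :=
  Cent.leftSite_mul (siteW_sq n) n a b

theorem lsite_zero (n : ℕ) : lsite (H := H) n 0 = 0 := by
  rw [lsite, Cent.leftSite, Cent.leftMat_zero, Matrix.mul_zero, Matrix.zero_mul, Cent.siteOp_zero]

theorem lsite_one (n : ℕ) : lsite (H := H) n 1 = 1 := by
  rw [lsite, Cent.leftSite, Cent.leftMat_one, Matrix.mul_one, Cent.siteBasis_sq (siteW_sq n),
    Cent.siteOp_one]

theorem lsite_add (n : ℕ) (a b : Matrix (Fin 2) (Fin 2) ℂ) :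
    lsite (H := H) n (a + b) = lsite n a + lsite n b := by
  simp only [lsite, Cent.leftSite, Cent.leftMat_add, Matrix.mul_add, Matrix.add_mul,
    Cent.siteOp_add]

theorem lsite_comm {n m : ℕ} (h : n ≠ m) (a b : Matrix (Fin 2) (Fin 2) ℂ) :
    Commute (lsite (H := H) n a) (lsite m b) :=
  Cent.siteOp_comm h _ _

theorem unitLevel_swap (n : ℕ) (a b : Fin 2) : unitLevel n b a = -unitLevel n a b := by
  fin_cases a <;> fin_cases b <;> simp [unitLevel]

theorem unitLevel_add (n : ℕ) (a b d : Fin 2) :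
    unitLevel n a b + unitLevel n b d = unitLevel n a d := by
  fin_cases a <;> fin_cases b <;> fin_cases d <;> simp [unitLevel]

omit [CompleteSpace H] in
theorem const_comm {x y : H →L[ℂ] H} (h : Commute x y) : Commute (const x) (const y) := by
  show _ * _ = _ * _
  rw [const_mul, const_mul, h.eq]

omit [CompleteSpace H] in
theorem shift_comm (s t : ℝ) : Commute (shift (H := H) s) (shift t) := by
  show _ * _ = _ * _
  rw [← shift_add, ← shift_add, add_comm]

theorem coreUnit_mul (n : ℕ) (a b c d : Fin 2) :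
    coreUnit (H := H) n a b * coreUnit n c d = if b = c then coreUnit n a d else 0 := by
  have e : coreUnit (H := H) n a b * coreUnit n c d =
      const (siteUnit n a b * siteUnit n c d) *
        shift (-unitLevel n a b + -unitLevel n c d) := by
    rw [coreUnit, coreUnit, ← const_mul, shift_add, mul_assoc, mul_assoc,
      ← mul_assoc (shift _) (const _), ← (const_shift _ _).eq, mul_assoc]
  rw [e, siteUnit, siteUnit, lsite_mul]
  split_ifs with h
  · subst h
    rw [Matrix.single_mul_single_same, one_mul, ← neg_add, unitLevel_add]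
    rfl
  · rw [Matrix.single_mul_single_of_ne _ _ _ _ h, lsite_zero, const_zero, zero_mul]

theorem star_coreUnit (n : ℕ) (a b : Fin 2) :
    star (coreUnit (H := H) n a b) = coreUnit n b a := by
  rw [coreUnit, coreUnit, star_mul, star_const, star_shift, ← (const_shift _ _).eq,
    unitLevel_swap n a b, siteUnit, siteUnit, lsite, Cent.star_leftSite,
    Matrix.conjTranspose_single, star_one]

theorem coreUnit_sum (n : ℕ) : coreUnit (H := H) n 0 0 + coreUnit n 1 1 = 1 := by
  have h1 : Matrix.single (0 : Fin 2) 0 (1 : ℂ) + Matrix.single (1 : Fin 2) (1 : Fin 2) (1 : ℂ) = 1 := by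
    ext i j
    fin_cases i <;> fin_cases j <;> simp
  simp only [coreUnit, siteUnit, show ∀ a, unitLevel n a a = 0 from fun a => if_pos rfl, neg_zero,
    shift_zero, mul_one]
  rw [← const_add, ← lsite_add, h1, lsite_one, const_one]

theorem coreUnit_shift (n : ℕ) (a b : Fin 2) (s : ℝ) :
    Commute (coreUnit (H := H) n a b) (shift s) := by
  rw [coreUnit]
  exact (const_shift _ s).mul_left (shift_comm _ s)

theorem coreUnit_comm {n m : ℕ} (h : n ≠ m) (a b c d : Fin 2) :
    Commute (coreUnit (H := H) n a b) (coreUnit m c d) := by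
  have h1 : Commute (siteUnit (H := H) n a b) (siteUnit m c d) := lsite_comm h _ _
  rw [coreUnit, coreUnit]
  exact ((const_comm h1).mul_right (const_shift _ _)).mul_left
    ((const_shift _ _).symm.mul_right (shift_comm _ _))

theorem coreUnit_ten (n : ℕ) (a b : Fin 2) (x : H →L[ℂ] H) :
    Commute (coreUnit (H := H) n a b) (const (H := AmbH H) (ten x)) := by
  have h1 : Commute (siteUnit (H := H) n a b) (ten x) := (Cent.ten_siteOp x n _).symm
  rw [coreUnit]
  exact (const_comm h1).mul_left (const_shift _ _).symm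

theorem phase_coreUnit (n : ℕ) (a b : Fin 2) (t : ℝ) :
    phase (H := AmbH H) t * coreUnit (H := H) n a b =
      Complex.exp (((-(t * unitLevel n a b) : ℝ) : ℂ) * Complex.I) •
        (coreUnit (H := H) n a b * phase (H := AmbH H) t) := by
  rw [coreUnit, ← mul_assoc, ← (const_phase _ t).eq, mul_assoc, mul_assoc, shift_phase,
    mul_smul_comm, smul_smul, ← Complex.exp_add]
  rw [show (((-(t * unitLevel n a b) : ℝ) : ℂ) * Complex.I +
      ((-(t * -unitLevel n a b) : ℝ) : ℂ) * Complex.I) = 0 by push_cast; ring,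
    Complex.exp_zero, one_smul]

/-! ### Groups of unitaries at commuting sites -/

section Product

variable {E : Type} [NormedAddCommGroup E] [InnerProductSpace ℂ E] [CompleteSpace E]
  (S : ℕ → Finset (E →L[ℂ] E))

open Classical in
/-- The products of elements of the first `k` sets. -/
noncomputable def prodSet : ℕ → Finset (E →L[ℂ] E)
  | 0 => {1}
  | k + 1 => (prodSet k ×ˢ S k).image fun p => p.1 * p.2

omit [CompleteSpace E] in
open Classical in
theorem mem_prodSet_succ {k : ℕ} {g : E →L[ℂ] E} :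
    g ∈ prodSet S (k + 1) ↔ ∃ p ∈ prodSet S k, ∃ s ∈ S k, p * s = g := by
  simp [prodSet, and_assoc]

omit [CompleteSpace E] in
/-- What commutes with the sets before `k` commutes with their products. -/
theorem commute_prodSet {u : E →L[ℂ] E} : ∀ {k : ℕ}, (∀ j < k, ∀ s ∈ S j, Commute u s) →
    ∀ g ∈ prodSet S k, Commute u g
  | 0, _, g, hg => by simp only [prodSet, Finset.mem_singleton] at hg; subst hg; exact .one_right u
  | k + 1, h, g, hg => by
    obtain ⟨p, hp, s, hs, rfl⟩ := (mem_prodSet_succ S).1 hg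
    exact (commute_prodSet (fun j hj => h j (by omega)) p hp).mul_right (h k (by omega) s hs)

theorem prodSet_mem {A : VonNeumannAlgebra E} (h : ∀ n, ∀ s ∈ S n, s ∈ A) :
    ∀ {k : ℕ}, ∀ g ∈ prodSet S k, g ∈ A
  | 0, g, hg => by simp only [prodSet, Finset.mem_singleton] at hg; subst hg; exact one_mem A
  | k + 1, g, hg => by
    obtain ⟨p, hp, s, hs, rfl⟩ := (mem_prodSet_succ S).1 hg
    exact mul_mem (prodSet_mem h p hp) (h k s hs)

variable (h1 : ∀ n, (1 : E →L[ℂ] E) ∈ S n) (hm : ∀ n, ∀ g ∈ S n, ∀ h ∈ S n, g * h ∈ S n)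
  (hs : ∀ n, ∀ g ∈ S n, star g ∈ S n) (hu : ∀ n, ∀ g ∈ S n, g ∈ unitary (E →L[ℂ] E))
  (hc : ∀ n m, n ≠ m → ∀ g ∈ S n, ∀ h ∈ S m, Commute g h)

omit [CompleteSpace E] in
include h1 in
theorem prodSet_one : ∀ k, (1 : E →L[ℂ] E) ∈ prodSet S k
  | 0 => by simp [prodSet]
  | k + 1 => (mem_prodSet_succ S).2 ⟨1, prodSet_one k, 1, h1 k, one_mul 1⟩

omit [CompleteSpace E] in
include hc in
theorem prodSet_comm {k : ℕ} {s : E →L[ℂ] E} (hs : s ∈ S k) :
    ∀ g ∈ prodSet S k, Commute s g :=
  commute_prodSet S fun j hj t ht => hc k j (by omega) s hs t ht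

omit [CompleteSpace E] in
include hm hc in
theorem prodSet_mul : ∀ k, ∀ g ∈ prodSet S k, ∀ h ∈ prodSet S k, g * h ∈ prodSet S k
  | 0, g, hg, h, hh => by
    simp only [prodSet, Finset.mem_singleton] at hg hh ⊢
    rw [hg, hh, one_mul]
  | k + 1, g, hg, h, hh => by
    obtain ⟨p, hp, s, hs', rfl⟩ := (mem_prodSet_succ S).1 hg
    obtain ⟨q, hq, t, ht, rfl⟩ := (mem_prodSet_succ S).1 hh
    refine (mem_prodSet_succ S).2
      ⟨p * q, prodSet_mul k p hp q hq, s * t, hm k s hs' t ht, ?_⟩
    rw [mul_assoc, mul_assoc, ← mul_assoc q, ← (prodSet_comm S hc hs' q hq).eq, mul_assoc]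

include hs hc in
theorem prodSet_star : ∀ k, ∀ g ∈ prodSet S k, star g ∈ prodSet S k
  | 0, g, hg => by
    simp only [prodSet, Finset.mem_singleton] at hg ⊢
    rw [hg, star_one]
  | k + 1, g, hg => by
    obtain ⟨p, hp, s, hs', rfl⟩ := (mem_prodSet_succ S).1 hg
    refine (mem_prodSet_succ S).2 ⟨star p, prodSet_star k p hp, star s, hs k s hs', ?_⟩
    rw [star_mul, (prodSet_comm S hc (hs k s hs') _ (prodSet_star k p hp)).eq]

include hu in
theorem prodSet_unitary : ∀ k, ∀ g ∈ prodSet S k, g ∈ unitary (E →L[ℂ] E)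
  | 0, g, hg => by
    simp only [prodSet, Finset.mem_singleton] at hg
    rw [hg]
    exact one_mem _
  | k + 1, g, hg => by
    obtain ⟨p, hp, s, hs', rfl⟩ := (mem_prodSet_succ S).1 hg
    exact mul_mem (prodSet_unitary k p hp) (hu k s hs')

omit [CompleteSpace E] in
include h1 in
theorem prodSet_mono {j k : ℕ} (h : j ≤ k) : prodSet S j ⊆ prodSet S k := by
  induction h with
  | refl => exact fun _ hg => hg
  | step _ ih => exact fun g hg => (mem_prodSet_succ S).2 ⟨g, ih hg, 1, h1 _, mul_one g⟩

/-- The groups of products. -/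
noncomputable def prodGroups : Full.Reduce.Groups E where
  G := prodSet S
  one_mem := prodSet_one S h1
  mul_mem := prodSet_mul S hm hc
  star_mem := prodSet_star S hs hc
  mem_unitary := prodSet_unitary S hu
  mono _ _ h := prodSet_mono S h1 h

theorem mem_prodGroups {n : ℕ} {g : E →L[ℂ] E} (hg : g ∈ S n) :
    g ∈ (prodGroups S h1 hm hs hu hc).carrier :=
  ⟨n + 1, (mem_prodSet_succ S).2 ⟨1, prodSet_one S h1 n, g, hg, one_mul g⟩⟩

end Product

/-! ### The signed permutations of a site -/

/-- The difference of the diagonal units. -/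
noncomputable def signOp (n : ℕ) : CoreH (AmbH H) →L[ℂ] CoreH (AmbH H) :=
  coreUnit n 0 0 - coreUnit n 1 1

/-- The exchange of the two states. -/
noncomputable def flipOp (n : ℕ) : CoreH (AmbH H) →L[ℂ] CoreH (AmbH H) :=
  coreUnit n 0 1 + coreUnit n 1 0

theorem signOp_sq (n : ℕ) : signOp (H := H) n * signOp n = 1 := by
  simp [signOp, mul_sub, sub_mul, coreUnit_mul, coreUnit_sum n]

theorem flipOp_sq (n : ℕ) : flipOp (H := H) n * flipOp n = 1 := by
  simp [flipOp, mul_add, add_mul, coreUnit_mul, add_comm (coreUnit n 1 1), coreUnit_sum n]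

theorem flipOp_signOp (n : ℕ) :
    flipOp (H := H) n * signOp n = -(signOp n * flipOp n) := by
  simp [flipOp, signOp, mul_add, add_mul, mul_sub, sub_mul, coreUnit_mul]
  abel

theorem star_signOp (n : ℕ) : star (signOp (H := H) n) = signOp n := by
  simp [signOp, star_coreUnit]

theorem star_flipOp (n : ℕ) : star (flipOp (H := H) n) = flipOp n := by
  simp [flipOp, star_coreUnit, add_comm]

open Classical in
/-- The signed permutations of the site `n`. -/
noncomputable def siteSet (n : ℕ) : Finset (CoreH (AmbH H) →L[ℂ] CoreH (AmbH H)) :=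
  {1, -1, signOp n, -signOp n, flipOp n, -flipOp n, signOp n * flipOp n,
    -(signOp n * flipOp n)}

open Classical in
theorem mem_siteSet {n : ℕ} {g : CoreH (AmbH H) →L[ℂ] CoreH (AmbH H)} :
    g ∈ siteSet n ↔ g = 1 ∨ g = -1 ∨ g = signOp n ∨ g = -signOp n ∨ g = flipOp n ∨
      g = -flipOp n ∨ g = signOp n * flipOp n ∨ g = -(signOp n * flipOp n) := by
  simp [siteSet]

theorem siteSet_mul (n : ℕ) : ∀ g ∈ siteSet (H := H) n, ∀ h ∈ siteSet n, g * h ∈ siteSet n := by
  have a := signOp_sq (H := H) n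
  have b := flipOp_sq (H := H) n
  have c := flipOp_signOp (H := H) n
  have a' : ∀ z, signOp (H := H) n * (signOp n * z) = z := fun z => by
    rw [← mul_assoc, a, one_mul]
  have c' : ∀ z, flipOp (H := H) n * (signOp n * z) = -(signOp n * (flipOp n * z)) := fun z => by
    rw [← mul_assoc, c, neg_mul, mul_assoc]
  intro g hg h hh
  rw [mem_siteSet] at hg hh ⊢
  rcases hg with rfl | rfl | rfl | rfl | rfl | rfl | rfl | rfl <;>
    rcases hh with rfl | rfl | rfl | rfl | rfl | rfl | rfl | rfl <;>
    simp [mul_assoc, a, b, c, a', c']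

theorem siteSet_star (n : ℕ) : ∀ g ∈ siteSet (H := H) n, star g ∈ siteSet n := by
  intro g hg
  rw [mem_siteSet] at hg ⊢
  rcases hg with rfl | rfl | rfl | rfl | rfl | rfl | rfl | rfl <;>
    simp [star_signOp, star_flipOp, flipOp_signOp]

theorem siteSet_unitary (n : ℕ) :
    ∀ g ∈ siteSet (H := H) n, g ∈ unitary (CoreH (AmbH H) →L[ℂ] CoreH (AmbH H)) := by
  have a := signOp_sq (H := H) n
  have b := flipOp_sq (H := H) n
  have hn : ∀ g : CoreH (AmbH H) →L[ℂ] CoreH (AmbH H), g ∈ unitary _ → -g ∈ unitary _ :=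
    fun g hg => Unitary.mem_iff.2 (by simpa using Unitary.mem_iff.1 hg)
  have hD : signOp (H := H) n ∈ unitary _ :=
    Unitary.mem_iff.2 (by rw [star_signOp]; exact ⟨a, a⟩)
  have hX : flipOp (H := H) n ∈ unitary _ :=
    Unitary.mem_iff.2 (by rw [star_flipOp]; exact ⟨b, b⟩)
  intro g hg
  rw [mem_siteSet] at hg
  rcases hg with rfl | rfl | rfl | rfl | rfl | rfl | rfl | rfl
  exacts [one_mem _, hn _ (one_mem _), hD, hn _ hD, hX, hn _ hX, mul_mem hD hX,
    hn _ (mul_mem hD hX)]

/-- What commutes with the units of a site commutes with its signed permutations. -/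
theorem commute_siteSet {n : ℕ} {u : CoreH (AmbH H) →L[ℂ] CoreH (AmbH H)}
    (h : ∀ a b, Commute u (coreUnit n a b)) : ∀ g ∈ siteSet n, Commute u g := by
  have hD : Commute u (signOp n) := (h 0 0).sub_right (h 1 1)
  have hX : Commute u (flipOp n) := (h 0 1).add_right (h 1 0)
  intro g hg
  rw [mem_siteSet] at hg
  rcases hg with rfl | rfl | rfl | rfl | rfl | rfl | rfl | rfl
  exacts [.one_right u, (Commute.one_right u).neg_right, hD, hD.neg_right, hX, hX.neg_right,
    hD.mul_right hX, (hD.mul_right hX).neg_right]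

theorem siteSet_comm (n m : ℕ) (hnm : n ≠ m) :
    ∀ g ∈ siteSet (H := H) n, ∀ h ∈ siteSet m, Commute g h :=
  fun _ hg => commute_siteSet fun c d =>
    (commute_siteSet (fun a b => coreUnit_comm (H := H) (Ne.symm hnm) c d a b) _ hg).symm

/-- The groups of signed permutations of finitely many sites. -/
noncomputable def siteGroups : Full.Reduce.Groups (CoreH (AmbH H)) :=
  prodGroups siteSet (fun _ => mem_siteSet.2 (Or.inl rfl)) siteSet_mul siteSet_star siteSet_unitary
    siteSet_comm

/-- What commutes with all units commutes with the groups. -/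
theorem commute_siteGroups {u : CoreH (AmbH H) →L[ℂ] CoreH (AmbH H)}
    (h : ∀ n a b, Commute u (coreUnit n a b)) : ∀ g ∈ siteGroups.carrier, Commute u g := by
  rintro g ⟨k, hk⟩
  exact commute_prodSet _ (fun j _ => commute_siteSet (h j)) g hk

/-- What commutes with the groups commutes with all units. -/
theorem commute_coreUnit {u : CoreH (AmbH H) →L[ℂ] CoreH (AmbH H)}
    (h : ∀ g ∈ siteGroups.carrier, Commute u g) (n : ℕ) (a b : Fin 2) :
    Commute u (coreUnit n a b) := by
  have hD : Commute u (signOp n) :=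
    h _ (mem_prodGroups _ _ _ _ _ _ (n := n) (mem_siteSet.2 (by simp)))
  have hX : Commute u (flipOp n) :=
    h _ (mem_prodGroups _ _ _ _ _ _ (n := n) (mem_siteSet.2 (by simp)))
  have e0 : coreUnit (H := H) n 0 0 = (1 / 2 : ℂ) • (1 + signOp n) := by
    rw [signOp, ← coreUnit_sum n]; module
  have e1 : coreUnit (H := H) n 1 1 = (1 / 2 : ℂ) • (1 - signOp n) := by
    rw [signOp, ← coreUnit_sum n]; module
  have h0 : Commute u (coreUnit n 0 0) := by
    rw [e0]; exact ((Commute.one_right u).add_right hD).smul_right _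
  have h1 : Commute u (coreUnit n 1 1) := by
    rw [e1]; exact ((Commute.one_right u).sub_right hD).smul_right _
  have e01 : coreUnit (H := H) n 0 1 = coreUnit n 0 0 * flipOp n := by
    simp [flipOp, mul_add, coreUnit_mul]
  have e10 : coreUnit (H := H) n 1 0 = coreUnit n 1 1 * flipOp n := by
    simp [flipOp, mul_add, coreUnit_mul]
  fin_cases a <;> fin_cases b
  · exact h0
  · show Commute u (coreUnit n 0 1); rw [e01]; exact h0.mul_right hX
  · show Commute u (coreUnit n 1 0); rw [e10]; exact h1.mul_right hX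
  · exact h1

/-- The groups lie in every algebra containing all units. -/
theorem siteGroups_mem {A : VonNeumannAlgebra (CoreH (AmbH H))}
    (h : ∀ n a b, coreUnit n a b ∈ A) : ∀ g ∈ siteGroups.carrier, g ∈ A := by
  rintro g ⟨k, hk⟩
  refine prodSet_mem _ (fun n s hs => ?_) g hk
  rw [← SetLike.mem_coe, ← A.centralizer_centralizer]
  exact fun u hu =>
    (commute_siteSet (fun a b => (hu (coreUnit n a b) (h n a b)).symm) s hs).eq

theorem siteGroups_ten (x : H →L[ℂ] H) : ∀ g ∈ siteGroups.carrier, Commute (const (ten x)) g :=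
  commute_siteGroups fun n a b => (coreUnit_ten n a b x).symm

theorem siteGroups_shift (s : ℝ) :
    ∀ g ∈ siteGroups.carrier, Commute (shift (H := AmbH H) s) g :=
  commute_siteGroups fun n a b => (coreUnit_shift n a b s).symm

/-- Increasing finite groups made from the units, with the same commutant. -/
theorem exists_siteGroups : ∃ Γ : Full.Reduce.Groups (CoreH (AmbH H)),
    (∀ u, (∀ n a b, Commute u (coreUnit n a b)) → ∀ g ∈ Γ.carrier, Commute u g) ∧
    (∀ A : VonNeumannAlgebra (CoreH (AmbH H)), (∀ n a b, coreUnit n a b ∈ A) →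
      ∀ g ∈ Γ.carrier, g ∈ A) ∧
    (∀ u, (∀ g ∈ Γ.carrier, Commute u g) → ∀ n a b, Commute u (coreUnit n a b)) ∧
    (∀ x : H →L[ℂ] H, ∀ g ∈ Γ.carrier, Commute (const (ten x)) g) ∧
    ∀ s : ℝ, ∀ g ∈ Γ.carrier, Commute (shift (H := AmbH H) s) g :=
  ⟨siteGroups, fun _ h => commute_siteGroups h, fun _ h => siteGroups_mem h,
    fun _ h => commute_coreUnit h, siteGroups_ten, siteGroups_shift⟩

end Vale.Agent.P096.Three.Core.Sites
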