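import Vale.Agent.P096.Three.Core.Basic

/-!
P096, cores: slices of operators on the space of the cores along scalar functions, and elements of
the core whose slices approximate a given element of the algebra weakly.
-/

open scoped InnerProductSpace
open MeasureTheory Filter Topology

namespace Vale.Agent.P096.Three.Core

variable {H : Type} [NormedAddCommGroup H] [InnerProductSpace ℂ H] [CompleteSpace H]
  {M : VonNeumannAlgebra H} {U : ℝ → H →L[ℂ] H}

omit [CompleteSpace H] in
theorem norm_tensor (k : Lp ℂ 2 (volume : Measure ℝ)) (v : H) : ‖tensor k v‖ = ‖k‖ * ‖v‖ := by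
  have h := inner_tensor k k v v
  rw [inner_self_eq_norm_sq_to_K, inner_self_eq_norm_sq_to_K, inner_self_eq_norm_sq_to_K] at h
  refine (pow_left_inj₀ (norm_nonneg _) (by positivity) two_ne_zero).1 ?_
  rw [mul_pow]
  simp only [RCLike.ofReal_eq_complex_ofReal] at h
  exact_mod_cast h

/-- Tensoring with a fixed scalar function. -/
noncomputable def tens (k : Lp ℂ 2 (volume : Measure ℝ)) : H →L[ℂ] CoreH H :=
  LinearMap.mkContinuous
    { toFun := fun v => tensor k v
      map_add' := fun v w => Lp.ext <| by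
        filter_upwards [tensor_apply k (v + w), tensor_apply k v, tensor_apply k w,
          Lp.coeFn_add (tensor k v) (tensor k w)] with d h h1 h2 h3
        rw [h, h3, Pi.add_apply, h1, h2, smul_add]
      map_smul' := fun c v => Lp.ext <| by
        filter_upwards [tensor_apply k (c • v), tensor_apply k v,
          Lp.coeFn_smul c (tensor k v)] with d h h1 h2
        rw [RingHom.id_apply, h, h2, Pi.smul_apply, h1, smul_comm] }
    ‖k‖ fun v => (norm_tensor k v).le

omit [CompleteSpace H] in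
theorem tens_apply (k : Lp ℂ 2 (volume : Measure ℝ)) (v : H) : tens k v = tensor k v := rfl

/-- The slice of an operator along a scalar function. -/
noncomputable def slice (k : Lp ℂ 2 (volume : Measure ℝ)) (X : CoreH H →L[ℂ] CoreH H) :
    H →L[ℂ] H :=
  (ContinuousLinearMap.adjoint (tens k)).comp (X.comp (tens k))

theorem inner_slice (k : Lp ℂ 2 (volume : Measure ℝ)) (X : CoreH H →L[ℂ] CoreH H) (v w : H) :
    ⟪v, slice k X w⟫_ℂ = ⟪tensor k v, X (tensor k w)⟫_ℂ :=
  ContinuousLinearMap.adjoint_inner_right (tens k) v (X (tens k w))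

theorem adjoint_tens_const (k : Lp ℂ 2 (volume : Measure ℝ)) (a : H →L[ℂ] H) (ψ : CoreH H) :
    ContinuousLinearMap.adjoint (tens k) (const a ψ) =
      a (ContinuousLinearMap.adjoint (tens k) ψ) := by
  refine ext_inner_left ℂ fun v => ?_
  rw [ContinuousLinearMap.adjoint_inner_right, ← ContinuousLinearMap.adjoint_inner_left a,
    ContinuousLinearMap.adjoint_inner_right, ← ContinuousLinearMap.adjoint_inner_left (const a),
    ← ContinuousLinearMap.star_eq_adjoint, ← ContinuousLinearMap.star_eq_adjoint, star_const,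
    tens_apply, tens_apply, const_tensor]

/-- Slicing is a bimodule map for the pointwise operators. -/
theorem slice_const_mul (k : Lp ℂ 2 (volume : Measure ℝ)) (a b : H →L[ℂ] H)
    (X : CoreH H →L[ℂ] CoreH H) :
    slice k (const a * X * const b) = a * slice k X * b := by
  refine ContinuousLinearMap.ext fun w => ?_
  show ContinuousLinearMap.adjoint (tens k) (const a (X (const b (tens k w)))) = _
  rw [adjoint_tens_const, tens_apply, const_tensor]
  rfl

theorem slice_smul (k : Lp ℂ 2 (volume : Measure ℝ)) (c : ℂ) (X : CoreH H →L[ℂ] CoreH H) :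
    slice k (c • X) = c • slice k X := by
  refine ContinuousLinearMap.ext fun w => ?_
  show ContinuousLinearMap.adjoint (tens k) (c • X (tens k w)) = _
  rw [map_smul]
  rfl

/-- Slices of elements of a core are in the algebra. -/
theorem slice_mem (k : Lp ℂ 2 (volume : Measure ℝ)) {X : CoreH H →L[ℂ] CoreH H}
    (hX : X ∈ core M U) : slice k X ∈ M := by
  rw [← VonNeumannAlgebra.commutant_commutant M, VonNeumannAlgebra.mem_commutant_iff]
  intro y hy
  have hc : const y * X = X * const y := by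
    have h : X ∈ StarSubalgebra.centralizer ℂ
      (const '' (M.commutant : Set (H →L[ℂ] H)) ∪ Set.range (coreU U)) := hX
    rw [StarSubalgebra.mem_centralizer_iff] at h
    exact (h _ (Or.inl ⟨y, hy, rfl⟩)).1
  have h1 := slice_const_mul k y 1 X
  have h2 := slice_const_mul k 1 y X
  simp only [const_one, one_mul, mul_one] at h1 h2
  rw [← h1, ← h2, hc]

/-! ### Averaging along the flow -/

omit [CompleteSpace H] in
/-- Continuity of a bounded strongly continuous family applied to a continuous path. -/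
theorem continuous_apply_path {V : ℝ → H →L[ℂ] H} (hV : ∀ v, Continuous fun t => V t v)
    (hb : ∀ t, ‖V t‖ ≤ 1) {w : ℝ → H} (hw : Continuous w) : Continuous fun t => V t (w t) := by
  rw [continuous_iff_continuousAt]
  intro t₀
  rw [ContinuousAt, tendsto_iff_norm_sub_tendsto_zero]
  have h1 := tendsto_iff_norm_sub_tendsto_zero.1 (hw.tendsto t₀)
  have h2 := tendsto_iff_norm_sub_tendsto_zero.1 ((hV (w t₀)).tendsto t₀)
  refine squeeze_zero (fun t => norm_nonneg _) (fun t => ?_) (by simpa using h1.add h2)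
  calc ‖V t (w t) - V t₀ (w t₀)‖
      = ‖V t (w t - w t₀) + (V t (w t₀) - V t₀ (w t₀))‖ := by rw [map_sub]; congr 1; abel
    _ ≤ _ := (norm_add_le _ _).trans (by
        gcongr
        exact ((V t).le_of_opNorm_le (hb t) _).trans_eq (one_mul _))

/-- The Fourier transform of the unit interval. -/
noncomputable def boxFT (s : ℝ) : ℂ :=
  ∫ u in (0 : ℝ)..1, Complex.exp (((-(s * u) : ℝ) : ℂ) * Complex.I)

theorem boxFT_zero : boxFT 0 = 1 := by simp [boxFT]

theorem continuous_boxFT : Continuous boxFT :=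
  intervalIntegral.continuous_parametric_intervalIntegral_of_continuous' (by fun_prop) 0 1

theorem boxFT_int {n : ℤ} (hn : n ≠ 0) : boxFT (2 * Real.pi * n) = 0 := by
  have hc : -(2 * (Real.pi : ℂ) * n * Complex.I) ≠ 0 := by
    simp [Real.pi_ne_zero, hn, Complex.I_ne_zero]
  have e : ∀ u : ℝ, Complex.exp (((-(2 * Real.pi * n * u) : ℝ) : ℂ) * Complex.I) =
      Complex.exp (-(2 * (Real.pi : ℂ) * n * Complex.I) * u) := fun u => by
    congr 1
    push_cast
    ring
  rw [boxFT]
  simp only [e]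
  rw [integral_exp_mul_complex hc, Complex.ofReal_one, Complex.ofReal_zero, mul_one, mul_zero,
    Complex.exp_zero, show -(2 * (Real.pi : ℂ) * n * Complex.I) =
      ((-n : ℤ) : ℂ) * (2 * Real.pi * Complex.I) by push_cast; ring,
    Complex.exp_int_mul_two_pi_mul_I, sub_self, zero_div]

/-- The normalised indicator of `(0, L]`. -/
noncomputable def box (L : ℝ) : Lp ℂ 2 (volume : Measure ℝ) :=
  indicatorConstLp 2 (measurableSet_Ioc (a := (0 : ℝ)) (b := L)) measure_Ioc_lt_top.ne
    ((Real.sqrt L)⁻¹ : ℂ)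

omit [CompleteSpace H] in
theorem inner_phase_box {L : ℝ} (hL : 0 < L) (s : ℝ) (v w : H) :
    ⟪phase s (tensor (box L) v), tensor (box L) w⟫_ℂ = boxFT (s * L) * ⟪v, w⟫_ℂ := by
  have e : ⟪phase s (tensor (box L) v), tensor (box L) w⟫_ℂ = ∫ d : ℝ,
      (Set.Ioc (0 : ℝ) L).indicator
        (fun d => (L : ℂ)⁻¹ * Complex.exp (((-(s * d) : ℝ) : ℂ) * Complex.I) * ⟪v, w⟫_ℂ) d := by
    rw [L2.inner_def]
    refine integral_congr_ae ?_
    filter_upwards [phase_apply s (tensor (box L) v), tensor_apply (box L) v,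
      tensor_apply (box L) w, indicatorConstLp_coeFn (p := 2)
        (hs := measurableSet_Ioc (a := (0 : ℝ)) (b := L)) (hμs := measure_Ioc_lt_top.ne)
        (c := ((Real.sqrt L)⁻¹ : ℂ))] with d h1 h2 h3 h4
    change (box L : ℝ → ℂ) d = _ at h4
    rw [h1, h2, h3, h4]
    by_cases hd : d ∈ Set.Ioc (0 : ℝ) L
    · rw [Set.indicator_of_mem hd, Set.indicator_of_mem hd, inner_smul_left, inner_smul_left,
        inner_smul_right, ← Complex.exp_conj, ← mul_assoc, ← mul_assoc]
      congr 1
      rw [show ((L : ℂ))⁻¹ = ((Real.sqrt L : ℂ))⁻¹ * ((Real.sqrt L : ℂ))⁻¹ by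
        rw [← mul_inv, ← Complex.ofReal_mul, Real.mul_self_sqrt hL.le]]
      simp only [map_mul, map_inv₀, Complex.conj_ofReal, Complex.conj_I]
      push_cast
      ring_nf
    · simp [Set.indicator_of_notMem hd]
  rw [e, integral_indicator measurableSet_Ioc, integral_mul_const,
    ← intervalIntegral.integral_of_le hL.le]
  congr 1
  rw [intervalIntegral.integral_const_mul, boxFT]
  have hs := intervalIntegral.integral_comp_mul_left
    (fun d : ℝ => Complex.exp (((-(s * d) : ℝ) : ℂ) * Complex.I)) hL.ne' (a := 0) (b := 1)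
  simp only [mul_zero, mul_one, Complex.real_smul, Complex.ofReal_inv] at hs
  rw [← hs]
  simp only [← mul_assoc]

/-- The coefficient of a vector along the box moved by the phase `t`. -/
noncomputable def coef (L t : ℝ) (ψ : CoreH H) : H :=
  ContinuousLinearMap.adjoint (tens (box L)) (phase (-t) ψ)

theorem inner_coef (L t : ℝ) (v : H) (ψ : CoreH H) :
    ⟪v, coef L t ψ⟫_ℂ = ⟪phase t (tensor (box L) v), ψ⟫_ℂ := by
  rw [coef, ContinuousLinearMap.adjoint_inner_right, tens_apply, ← star_phase,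
    ContinuousLinearMap.star_eq_adjoint, ContinuousLinearMap.adjoint_inner_right]

theorem continuous_coef (L : ℝ) (ψ : CoreH H) : Continuous fun t => coef L t ψ :=
  (ContinuousLinearMap.continuous _).comp ((continuous_phase ψ).comp continuous_neg)

theorem coef_add (L t : ℝ) (φ ψ : CoreH H) : coef L t (φ + ψ) = coef L t φ + coef L t ψ := by
  simp only [coef, map_add]

theorem coef_smul (L t : ℝ) (c : ℂ) (ψ : CoreH H) : coef L t (c • ψ) = c • coef L t ψ := by
  simp only [coef, map_smul]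

theorem coef_const (L t : ℝ) (a : H →L[ℂ] H) (ψ : CoreH H) :
    coef L t (const a ψ) = a (coef L t ψ) := by
  rw [coef, ← mul_apply_eq_comp, ← (const_phase a (-t)).eq, mul_apply_eq_comp, adjoint_tens_const,
    coef]

theorem coef_coreU (L t s : ℝ) (ψ : CoreH H) :
    coef L t (coreU U s ψ) = U s (coef L (t - s) ψ) := by
  rw [coreU, mul_apply_eq_comp, coef_const]
  congr 1
  rw [coef, coef, ← mul_apply_eq_comp (phase (-t)), ← phase_add, neg_sub, neg_add_eq_sub]

theorem coef_tensor {L : ℝ} (hL : 0 < L) (t : ℝ) (w : H) :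
    coef L t (tensor (box L) w) = boxFT (t * L) • w := by
  refine ext_inner_left ℂ fun v => ?_
  rw [inner_coef, inner_phase_box hL, inner_smul_right]

/-- Bessel: translates by a lattice of moved boxes are orthogonal. -/
theorem sum_coef_sq_le {L : ℝ} (hL : 0 < L) (t : ℝ) (S : Finset ℤ) (ψ : CoreH H) :
    ∑ n ∈ S, ‖coef L (t + n * (2 * Real.pi / L)) ψ‖ ^ 2 ≤ ‖ψ‖ ^ 2 := by
  classical
  set f : ℤ → H := fun n => coef L (t + n * (2 * Real.pi / L)) ψ
  set Φ : CoreH H := ∑ n ∈ S, phase (t + n * (2 * Real.pi / L)) (tensor (box L) (f n))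
  set A : ℝ := ∑ n ∈ S, ‖f n‖ ^ 2
  show A ≤ ‖ψ‖ ^ 2
  have hA0 : 0 ≤ A := Finset.sum_nonneg fun _ _ => sq_nonneg _
  have h1 : ⟪Φ, ψ⟫_ℂ = (A : ℂ) := by
    simp only [Φ, A, sum_inner, Complex.ofReal_sum, Complex.ofReal_pow]
    refine Finset.sum_congr rfl fun n _ => ?_
    rw [← inner_coef]
    exact inner_self_eq_norm_sq_to_K (f n)
  have h2 : ⟪Φ, Φ⟫_ℂ = (A : ℂ) := by
    simp only [Φ, A, sum_inner, inner_sum, Complex.ofReal_sum, Complex.ofReal_pow]
    refine Finset.sum_congr rfl fun n hn => ?_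
    rw [Finset.sum_eq_single n]
    · rw [inner_phase_phase, inner_tensor]
      have h := inner_phase_box (H := H) hL 0 (f n) (f n)
      rw [phase_zero, one_apply_eq_self, inner_tensor, zero_mul, boxFT_zero] at h
      rw [h, one_mul]
      exact inner_self_eq_norm_sq_to_K (f n)
    · intro m _ hm
      rw [show t + (m : ℝ) * (2 * Real.pi / L) = (t + n * (2 * Real.pi / L)) +
          ((m - n : ℤ) : ℝ) * (2 * Real.pi / L) by push_cast; ring, phase_add,
        mul_apply_eq_comp, ← inner_conj_symm, inner_phase_phase, inner_conj_symm,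
        inner_phase_box hL, show ((m - n : ℤ) : ℝ) * (2 * Real.pi / L) * L =
          2 * Real.pi * ((m - n : ℤ) : ℝ) by field_simp, boxFT_int (sub_ne_zero.2 hm), zero_mul]
    · exact fun h => absurd hn h
  have h3 : ‖Φ‖ ^ 2 = A := by
    rw [inner_self_eq_norm_sq_to_K] at h2
    simp only [RCLike.ofReal_eq_complex_ofReal] at h2
    exact_mod_cast h2
  have h4 : A ≤ ‖Φ‖ * ‖ψ‖ := by
    have := norm_inner_le_norm (𝕜 := ℂ) Φ ψ
    rwa [h1, Complex.norm_real, Real.norm_of_nonneg hA0] at this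
  nlinarith [norm_nonneg Φ, norm_nonneg ψ, sq_nonneg (‖Φ‖ - ‖ψ‖)]

/-- The coefficients are square integrable. -/
theorem integral_coef_sq {L : ℝ} (hL : 0 < L) (ψ : CoreH H) :
    Integrable (fun t => ‖coef L t ψ‖ ^ 2) ∧
      ∫ t, ‖coef L t ψ‖ ^ 2 ≤ 2 * Real.pi / L * ‖ψ‖ ^ 2 := by
  set h : ℝ := 2 * Real.pi / L
  have hh : 0 < h := by positivity
  set g : ℝ → ℝ := fun t => ‖coef L t ψ‖ ^ 2 with hg
  have hgc : Continuous g := (continuous_coef L ψ).norm.pow 2
  have hbound : ∀ N : ℕ, ∫ t in -((N : ℝ) * h)..(N : ℝ) * h, g t ≤ h * ‖ψ‖ ^ 2 := by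
    intro N
    have hs := intervalIntegral.sum_integral_adjacent_intervals (μ := volume) (f := g)
      (a := fun i : ℕ => ((i : ℝ) - N) * h) (n := 2 * N) fun i _ => hgc.intervalIntegrable _ _
    simp only [Nat.cast_mul, Nat.cast_ofNat, Nat.cast_zero, zero_sub, neg_mul] at hs
    rw [show (2 * (N : ℝ) - N) * h = N * h by ring] at hs
    rw [← hs]
    have e : ∀ i : ℕ, ∫ t in ((i : ℝ) - N) * h..(((i + 1 : ℕ) : ℝ) - N) * h, g t =
        ∫ t in (0 : ℝ)..h, g (t + ((i : ℤ) - N : ℤ) * h) := fun i => by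
      rw [intervalIntegral.integral_comp_add_right g]
      congr 1 <;> push_cast <;> ring
    simp only [e]
    rw [← intervalIntegral.integral_finsetSum
      (f := fun i t => g (t + (((i : ℕ) : ℤ) - N : ℤ) * h)) fun i _ => ((hgc.comp
      (continuous_id.add continuous_const)).intervalIntegrable _ _)]
    refine (intervalIntegral.integral_mono_on hh.le ?_
      (continuous_const.intervalIntegrable 0 h) fun t _ => ?_).trans_eq
      (b := ∫ _ in (0 : ℝ)..h, ‖ψ‖ ^ 2) (by simp)
    · exact (continuous_finsetSum _ fun i _ =>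
        hgc.comp (continuous_id.add continuous_const)).intervalIntegrable _ _
    · have hinj : Set.InjOn (fun i : ℕ => ((i : ℤ) - N : ℤ)) (Finset.range (2 * N)) :=
        fun a _ b _ hab => by simpa using hab
      have := sum_coef_sq_le hL t ((Finset.range (2 * N)).image fun i : ℕ => ((i : ℤ) - N : ℤ)) ψ
      rwa [Finset.sum_image hinj] at this
  have ha : Tendsto (fun N : ℕ => -((N : ℝ) * h)) atTop atBot :=
    tendsto_neg_atTop_atBot.comp (tendsto_natCast_atTop_atTop.atTop_mul_const hh)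
  have hb : Tendsto (fun N : ℕ => (N : ℝ) * h) atTop atTop :=
    tendsto_natCast_atTop_atTop.atTop_mul_const hh
  have hi : Integrable g := integrable_of_intervalIntegral_norm_bounded (h * ‖ψ‖ ^ 2)
    (fun N => (hgc.integrableOn_Ioc)) ha hb (Eventually.of_forall fun N => by
      refine le_of_eq_of_le ?_ (hbound N)
      exact intervalIntegral.integral_congr fun t _ => Real.norm_of_nonneg (sq_nonneg _))
  exact ⟨hi, le_of_tendsto (intervalIntegral_tendsto_integral hi ha hb)
    (Eventually.of_forall hbound)⟩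

/-- The integrand of the average of `x` along the flow. -/
noncomputable def avgFun (U : ℝ → H →L[ℂ] H) (L : ℝ) (x : H →L[ℂ] H) (φ ψ : CoreH H) (t : ℝ) : ℂ :=
  ⟪coef L t φ, U t (x (U (-t) (coef L t ψ)))⟫_ℂ

theorem norm_avgFun_le (hb : ∀ t, ‖U t‖ ≤ 1) (L : ℝ) (x : H →L[ℂ] H) (φ ψ : CoreH H) (t : ℝ) :
    ‖avgFun U L x φ ψ t‖ ≤ ‖x‖ * (‖coef L t φ‖ * ‖coef L t ψ‖) := by
  refine (norm_inner_le_norm _ _).trans ?_
  have h1 : ‖U t (x (U (-t) (coef L t ψ)))‖ ≤ 1 * (‖x‖ * (1 * ‖coef L t ψ‖)) :=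
    ((U t).le_of_opNorm_le (hb t) _).trans (mul_le_mul_of_nonneg_left
      ((x.le_opNorm _).trans (mul_le_mul_of_nonneg_left ((U (-t)).le_of_opNorm_le (hb _) _)
        (norm_nonneg _))) zero_le_one)
  calc _ ≤ ‖coef L t φ‖ * (1 * (‖x‖ * (1 * ‖coef L t ψ‖))) :=
        mul_le_mul_of_nonneg_left h1 (norm_nonneg _)
    _ = _ := by ring

theorem integral_avgFun (hb : ∀ t, ‖U t‖ ≤ 1) (hc : ∀ v, Continuous fun t => U t v) {L : ℝ}
    (hL : 0 < L) (x : H →L[ℂ] H) (φ ψ : CoreH H) :
    Integrable (avgFun U L x φ ψ) ∧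
      ‖∫ t, avgFun U L x φ ψ t‖ ≤ ‖x‖ * (2 * Real.pi / L) * ‖φ‖ * ‖ψ‖ := by
  have hcont : Continuous (avgFun U L x φ ψ) :=
    (continuous_coef L φ).inner (continuous_apply_path hc hb (x.continuous.comp
      (continuous_apply_path (V := fun t => U (-t)) (fun v => (hc v).comp continuous_neg)
        (fun t => hb _) (continuous_coef L ψ))))
  have h0 : ∀ φ ψ : CoreH H, Integrable fun t => ‖coef L t φ‖ * ‖coef L t ψ‖ := fun φ ψ =>
    Integrable.mono' ((integral_coef_sq hL φ).1.add (integral_coef_sq hL ψ).1)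
      ((continuous_coef L φ).norm.mul (continuous_coef L ψ).norm).aestronglyMeasurable
      (Eventually.of_forall fun t => by
        rw [Real.norm_of_nonneg (by positivity)]
        simp only [Pi.add_apply]
        nlinarith [two_mul_le_add_sq ‖coef L t φ‖ ‖coef L t ψ‖, norm_nonneg (coef L t φ),
          norm_nonneg (coef L t ψ), mul_nonneg (norm_nonneg (coef L t φ)) (norm_nonneg (coef L t ψ))])
  have hint : Integrable (avgFun U L x φ ψ) :=
    Integrable.mono' ((h0 φ ψ).const_mul ‖x‖) hcont.aestronglyMeasurable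
      (Eventually.of_forall fun t => norm_avgFun_le hb L x φ ψ t)
  refine ⟨hint, ?_⟩
  refine (norm_integral_le_of_norm_le ((h0 φ ψ).const_mul ‖x‖)
    (Eventually.of_forall fun t => norm_avgFun_le hb L x φ ψ t)).trans ?_
  rw [integral_const_mul, mul_assoc, mul_assoc]
  refine mul_le_mul_of_nonneg_left ?_ (norm_nonneg _)
  -- Cauchy and Schwarz, by scaling
  rcases eq_or_ne ‖φ‖ 0 with hφ | hφ
  · have : φ = 0 := norm_eq_zero.1 hφ
    subst this
    simp [coef]
  rcases eq_or_ne ‖ψ‖ 0 with hψ | hψ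
  · have : ψ = 0 := norm_eq_zero.1 hψ
    subst this
    simp [coef]
  have hle : ∀ t, ‖coef L t φ‖ * ‖coef L t ψ‖ ≤ ‖ψ‖ / ‖φ‖ / 2 * ‖coef L t φ‖ ^ 2 +
      ‖φ‖ / ‖ψ‖ / 2 * ‖coef L t ψ‖ ^ 2 := fun t => by
    have hp : 0 < ‖φ‖ * ‖ψ‖ := by positivity
    refine le_of_mul_le_mul_left ?_ hp
    have := sq_nonneg (‖ψ‖ * ‖coef L t φ‖ - ‖φ‖ * ‖coef L t ψ‖)
    field_simp
    nlinarith
  refine (integral_mono (h0 φ ψ) (((integral_coef_sq hL φ).1.const_mul _).add
    ((integral_coef_sq hL ψ).1.const_mul _)) hle).trans ?_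
  rw [integral_add' ((integral_coef_sq hL φ).1.const_mul _) ((integral_coef_sq hL ψ).1.const_mul _),
    integral_const_mul, integral_const_mul]
  refine (add_le_add (mul_le_mul_of_nonneg_left (integral_coef_sq hL φ).2 (by positivity))
    (mul_le_mul_of_nonneg_left (integral_coef_sq hL ψ).2 (by positivity))).trans_eq ?_
  field_simp
  ring

/-- The average of `x` tensor a moved box along the flow. -/
theorem exists_avg (hadd : ∀ s t, U (s + t) = U s * U t)
    (hst : ∀ t, star (U t) = U (-t)) (hc : ∀ v, Continuous fun t => U t v)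
    (hM : ∀ t : ℝ, ∀ x ∈ M, U t * x * U (-t) ∈ M) (hb : ∀ t, ‖U t‖ ≤ 1) {L : ℝ} (hL : 0 < L)
    {x : H →L[ℂ] H} (hx : x ∈ M) :
    ∃ X ∈ core M U, ∀ φ ψ : CoreH H, ⟪φ, X ψ⟫_ℂ = ∫ t, avgFun U L x φ ψ t := by
  have hi := fun φ ψ : CoreH H => (integral_avgFun hb hc hL x φ ψ).1
  let B : CoreH H →L⋆[ℂ] CoreH H →L[ℂ] ℂ := LinearMap.mkContinuous₂
    (LinearMap.mk₂'ₛₗ (starRingEnd ℂ) (RingHom.id ℂ)
      (fun φ ψ : CoreH H => ∫ t, avgFun U L x φ ψ t)
      (fun φ φ' ψ => by
        rw [← integral_add (hi φ ψ) (hi φ' ψ)]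
        simp only [avgFun, coef_add, inner_add_left])
      (fun c φ ψ => by
        rw [smul_eq_mul, ← integral_const_mul]
        simp only [avgFun, coef_smul, inner_smul_left])
      (fun φ ψ ψ' => by
        rw [← integral_add (hi φ ψ) (hi φ ψ')]
        simp only [avgFun, coef_add, map_add, inner_add_right])
      (fun c φ ψ => by
        rw [RingHom.id_apply, smul_eq_mul, ← integral_const_mul]
        simp only [avgFun, coef_smul, map_smul, inner_smul_right]))
    (‖x‖ * (2 * Real.pi / L)) fun φ ψ => (integral_avgFun hb hc hL x φ ψ).2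
  set X : CoreH H →L[ℂ] CoreH H :=
    ContinuousLinearMap.adjoint (InnerProductSpace.continuousLinearMapOfBilin B)
  have hX : ∀ φ ψ, ⟪φ, X ψ⟫_ℂ = ∫ t, avgFun U L x φ ψ t := fun φ ψ => by
    rw [ContinuousLinearMap.adjoint_inner_right,
      InnerProductSpace.continuousLinearMapOfBilin_apply]
    rfl
  refine ⟨X, (mem_core hst M X).2 ⟨fun y hy => ?_, fun s => ?_⟩, hX⟩
  · refine ContinuousLinearMap.ext fun ψ => ext_inner_left ℂ fun φ => ?_
    rw [mul_apply_eq_comp, mul_apply_eq_comp, hX, ← ContinuousLinearMap.adjoint_inner_left,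
      ← ContinuousLinearMap.star_eq_adjoint, star_const, hX]
    refine integral_congr_ae (Eventually.of_forall fun t => ?_)
    simp only [avgFun, coef_const]
    rw [ContinuousLinearMap.star_eq_adjoint, ContinuousLinearMap.adjoint_inner_left]
    have h := congrArg (fun T : H →L[ℂ] H => T (coef L t ψ))
      (VonNeumannAlgebra.mem_commutant_iff.1 hy _ (hM t x hx))
    simp only [mul_apply_eq_comp] at h
    rw [h]
  · refine ContinuousLinearMap.ext fun ψ => ext_inner_left ℂ fun φ => ?_
    rw [mul_apply_eq_comp, mul_apply_eq_comp, hX, ← ContinuousLinearMap.adjoint_inner_left,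
      ← ContinuousLinearMap.star_eq_adjoint, star_coreU hst, hX]
    have hU : ∀ (a b : ℝ) (v : H), U (a + b) v = U a (U b v) := fun a b v => by
      rw [hadd, mul_apply_eq_comp]
    rw [← integral_add_right_eq_self (fun t => avgFun U L x φ (coreU U s ψ) t) s]
    refine integral_congr_ae (Eventually.of_forall fun t => ?_)
    simp only [avgFun, coef_coreU, sub_neg_eq_add, add_sub_cancel_right]
    conv_rhs => rw [← hst, ContinuousLinearMap.star_eq_adjoint,
      ContinuousLinearMap.adjoint_inner_left, ← hU s t]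
    rw [← hU (-(t + s)) s, add_comm s t, show -(t + s) + s = -t by ring]

/-- Every element of the algebra is a weak limit of slices of elements of the core. -/
theorem exists_core_approx (hadd : ∀ s t, U (s + t) = U s * U t) (h0 : U 0 = 1)
    (hst : ∀ t, star (U t) = U (-t)) (hc : ∀ v, Continuous fun t => U t v)
    (hM : ∀ t : ℝ, ∀ x ∈ M, U t * x * U (-t) ∈ M) {x : H →L[ℂ] H} (hx : x ∈ M) :
    ∃ (k : ℕ → Lp ℂ 2 (volume : Measure ℝ)) (X : ℕ → CoreH H →L[ℂ] CoreH H),
      (∀ n, X n ∈ core M U) ∧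
        ∀ v w, Tendsto (fun n => ⟪v, slice (k n) (X n) w⟫_ℂ) atTop (𝓝 ⟪v, x w⟫_ℂ) := by
  have hb : ∀ t, ‖U t‖ ≤ 1 := fun t => ContinuousLinearMap.opNorm_le_bound _ zero_le_one fun v => by
    have e : ⟪U t v, U t v⟫_ℂ = ⟪v, v⟫_ℂ := by
      rw [← ContinuousLinearMap.adjoint_inner_left, ← ContinuousLinearMap.star_eq_adjoint, hst,
        ← mul_apply_eq_comp, ← hadd, neg_add_cancel, h0, one_apply_eq_self]
    rw [one_mul]
    refine le_of_pow_le_pow_left₀ two_ne_zero (norm_nonneg _) ?_
    rw [inner_self_eq_norm_sq_to_K, inner_self_eq_norm_sq_to_K] at e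
    exact le_of_eq (by exact_mod_cast e)
  -- a unit vector, if there is one
  rcases subsingleton_or_nontrivial H with hH | hH
  · refine ⟨fun _ => 0, fun _ => 0, fun _ => zero_mem _, fun v w => ?_⟩
    simp [Subsingleton.elim v 0]
  obtain ⟨v₀, hv₀⟩ := exists_norm_eq H zero_le_one
  set ρ : ℝ → ℝ := fun u => ‖boxFT u‖ ^ 2 with hρ
  have hρc : Continuous ρ := continuous_boxFT.norm.pow 2
  have hρi : Integrable ρ := by
    have h := (integral_coef_sq (L := 1) one_pos (tensor (box 1) v₀)).1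
    refine h.congr (Eventually.of_forall fun t => ?_)
    simp [coef_tensor one_pos, norm_smul, hv₀, hρ]
  set c : ℝ := ∫ u, ρ u
  have hcpos : 0 < c := integral_pos_of_integrable_nonneg_nonzero (x := (0 : ℝ)) hρc hρi
    (fun u => sq_nonneg _) (by simp [hρ, boxFT_zero])
  have hn : ∀ n : ℕ, (0 : ℝ) < n + 1 := fun n => by positivity
  choose X hX hXi using fun n : ℕ => exists_avg hadd hst hc hM hb (hn n) hx
  refine ⟨fun n => box (n + 1), fun n => (((n + 1 : ℝ) / c : ℝ) : ℂ) • X n,
    fun n => (core M U).toStarSubalgebra.smul_mem (hX n) _, fun v w => ?_⟩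
  set g : ℝ → ℂ := fun t => ⟪v, U t (x (U (-t) w))⟫_ℂ with hgdef
  have hgc : Continuous g := continuous_const.inner (continuous_apply_path hc hb
    (x.continuous.comp ((hc w).comp continuous_neg)))
  have hg0 : g 0 = ⟪v, x w⟫_ℂ := by simp [hgdef, h0]
  have hgb : ∀ t, ‖g t‖ ≤ ‖v‖ * (‖x‖ * ‖w‖) := fun t => (norm_inner_le_norm _ _).trans (by
    refine mul_le_mul_of_nonneg_left ?_ (norm_nonneg _)
    refine (((U t).le_of_opNorm_le (hb t) _).trans_eq (one_mul _)).trans ((x.le_opNorm _).trans ?_)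
    gcongr
    exact ((U (-t)).le_of_opNorm_le (hb _) _).trans_eq (one_mul _))
  have key : ∀ n : ℕ, ⟪v, slice (box (n + 1)) ((((n + 1 : ℝ) / c : ℝ) : ℂ) • X n) w⟫_ℂ =
      ((c : ℝ) : ℂ)⁻¹ * ∫ u, (ρ u : ℂ) * g (u / (n + 1)) := fun n => by
    rw [slice_smul, smul_apply, inner_smul_right, inner_slice, hXi n]
    have e : ∀ t, avgFun U (n + 1) x (tensor (box (n + 1)) v) (tensor (box (n + 1)) w) t =
        (fun u => (ρ u : ℂ) * g (u / (n + 1))) (((n : ℝ) + 1) * t) := fun t => by
      simp only [avgFun, coef_tensor (hn n), map_smul, inner_smul_left, inner_smul_right, hgdef,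
        hρ, mul_comm t ((n : ℝ) + 1)]
      rw [mul_div_cancel_left₀ t (hn n).ne', ← mul_assoc, Complex.mul_conj']
      norm_num
    simp only [e]
    rw [Measure.integral_comp_mul_left (fun u => (ρ u : ℂ) * g (u / (n + 1))) ((n : ℝ) + 1),
      abs_of_pos (inv_pos.2 (hn n)), Complex.real_smul, ← mul_assoc]
    congr 1
    have := hn n
    push_cast
    field_simp
  rw [← hg0]
  refine Tendsto.congr (fun n => (key n).symm) ?_
  have h : Tendsto (fun n : ℕ => ∫ u, (ρ u : ℂ) * g (u / (n + 1))) atTop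
      (𝓝 (∫ u, (ρ u : ℂ) * g 0)) := by
    refine tendsto_integral_of_dominated_convergence (fun u => ρ u * (‖v‖ * (‖x‖ * ‖w‖)))
      (fun n => ((Complex.continuous_ofReal.comp hρc).mul
        (hgc.comp (continuous_id.div_const _))).aestronglyMeasurable)
      (hρi.mul_const _) (fun n => Eventually.of_forall fun u => ?_)
      (Eventually.of_forall fun u => ?_)
    · rw [norm_mul, Complex.norm_real, Real.norm_of_nonneg (sq_nonneg _)]
      exact mul_le_mul_of_nonneg_left (hgb _) (sq_nonneg _)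
    · refine tendsto_const_nhds.mul ((hgc.tendsto 0).comp ?_)
      have := (tendsto_one_div_add_atTop_nhds_zero_nat (𝕜 := ℝ)).const_mul u
      simpa [div_eq_mul_inv] using this
  have e : ((c : ℝ) : ℂ)⁻¹ * ∫ u, (ρ u : ℂ) * g 0 = g 0 := by
    rw [integral_mul_const, integral_complex_ofReal, ← mul_assoc,
      inv_mul_cancel₀ (by exact_mod_cast hcpos.ne'), one_mul]
  have := h.const_mul (((c : ℝ) : ℂ)⁻¹)
  rwa [e] at this

end Vale.Agent.P096.Three.Core
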