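import Vale.Agent.P096.Three.Spec
import Vale.Agent.P096.Three.Pins
import Vale.Agent.P096.Three.Core.ConjFlow
import Vale.Agent.P096.Three.Core.Descend
import Vale.Agent.P096.Three.Core.Ivec
import Vale.Agent.P096.Three.Core.Sites
import Vale.Agent.P096.Three.Core.Slice
import Vale.Agent.P096.Three.Amb.Normal
import Vale.Agent.P096.Bridge

/-!
P096, cores: the semifinite theorem on the cores gives the conjugacy.
-/

open scoped InnerProductSpace
open Filter Topology MeasureTheory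
open TopologicalSpace (SeparableSpace)
open Vale.Agent.P096.Full.Reduce
open Vale.Agent.P132.TypeThree (StdData)
open Vale.Agent.P104.Discrete

namespace Vale.Agent.P096.Three.Core

section generic

variable {H : Type} [NormedAddCommGroup H] [InnerProductSpace ℂ H] [CompleteSpace H]

omit [InnerProductSpace ℂ H] [CompleteSpace H] in
theorem continuous_translate [InnerProductSpace ℂ H] (ψ : CoreH H) :
    Continuous fun s : ℝ => shift s ψ := by
  let g : ℝ → C(ℝ, ℝ) := fun s => ⟨fun d => d - s, continuous_id.sub continuous_const⟩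
  have hg : Continuous g :=
    ContinuousMap.continuous_of_continuous_uncurry _ (by
      show Continuous fun p : ℝ × ℝ => p.2 - p.1
      exact continuous_snd.sub continuous_fst)
  exact continuous_const.compMeasurePreservingLp hg
    (fun s => measurePreserving_sub_right volume s) ENNReal.ofNat_ne_top

theorem isGroup_phase : IsGroup (H := CoreH H) (phase (H := H)) :=
  ⟨phase_zero, phase_add, star_phase, continuous_phase⟩

theorem isGroup_shift : IsGroup (H := CoreH H) (shift (H := H)) :=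
  ⟨shift_zero, shift_add, star_shift, continuous_translate⟩

/-- The image of a system of groups under a homomorphism. -/
noncomputable def mapGroups {K : Type} [NormedAddCommGroup K] [InnerProductSpace ℂ K]
    [CompleteSpace K] (Γ : Groups H) (f : (H →L[ℂ] H) → (K →L[ℂ] K)) (h1 : f 1 = 1)
    (hm : ∀ x y, f (x * y) = f x * f y) (hs : ∀ x, f (star x) = star (f x)) : Groups K where
  G n := by classical exact (Γ.G n).image f
  one_mem n := by classical exact Finset.mem_image.2 ⟨1, Γ.one_mem n, h1⟩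
  mul_mem n := by
    classical
    intro g hg k hk
    obtain ⟨a, ha, rfl⟩ := Finset.mem_image.1 hg
    obtain ⟨b, hb, rfl⟩ := Finset.mem_image.1 hk
    exact Finset.mem_image.2 ⟨a * b, Γ.mul_mem n a ha b hb, hm a b⟩
  star_mem n := by
    classical
    intro g hg
    obtain ⟨a, ha, rfl⟩ := Finset.mem_image.1 hg
    exact Finset.mem_image.2 ⟨star a, Γ.star_mem n a ha, hs a⟩
  mem_unitary n := by
    classical
    intro g hg
    obtain ⟨a, ha, rfl⟩ := Finset.mem_image.1 hg
    obtain ⟨a1, a2⟩ := Unitary.mem_iff.1 (Γ.mem_unitary n a ha)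
    exact Unitary.mem_iff.2 ⟨by rw [← hs, ← hm, a1, h1], by rw [← hs, ← hm, a2, h1]⟩
  mono m n h := by classical exact Finset.image_subset_image (Γ.mono m n h)

theorem carrier_mapGroups {K : Type} [NormedAddCommGroup K] [InnerProductSpace ℂ K]
    [CompleteSpace K] (Γ : Groups H) (f : (H →L[ℂ] H) → (K →L[ℂ] K)) (h1 : f 1 = 1)
    (hm : ∀ x y, f (x * y) = f x * f y) (hs : ∀ x, f (star x) = star (f x)) :
    (mapGroups Γ f h1 hm hs).carrier = f '' Γ.carrier := by
  classical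
  ext g
  simp only [Groups.carrier, mapGroups, Set.mem_ofPred_eq, Finset.mem_image, Set.mem_image]
  exact ⟨fun ⟨n, a, ha, e⟩ => ⟨a, ⟨n, ha⟩, e⟩, fun ⟨a, ⟨n, ha⟩, e⟩ => ⟨n, a, ha, e⟩⟩

theorem conj_of_commute {K : Type} [NormedAddCommGroup K] [InnerProductSpace ℂ K] [CompleteSpace K]
    {g x : K →L[ℂ] K} (hg : g ∈ unitary (K →L[ℂ] K)) (h : Commute x g) :
    star g * x * g = x := by
  rw [mul_assoc, h.eq, ← mul_assoc, (Unitary.mem_iff.1 hg).1, one_mul]

theorem phase_conj (s t : ℝ) (x : H →L[ℂ] H) :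
    phase (-t) * (const x * shift s) * phase t =
      Complex.exp (((-(t * s) : ℝ) : ℂ) * Complex.I) • (const x * shift (H := H) s) := by
  rw [mul_assoc, mul_assoc (const x), shift_phase, mul_smul_comm, mul_smul_comm, ← mul_assoc,
    ← mul_assoc, (const_phase x (-t)).eq.symm, mul_assoc (const x) (phase (-t)) (phase t),
    ← phase_add, neg_add_cancel, phase_zero, mul_one]

end generic

section sites

variable {H : Type} [NormedAddCommGroup H] [InnerProductSpace ℂ H] [CompleteSpace H]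

theorem lsite_add (n : ℕ) (a b : Matrix (Fin 2) (Fin 2) ℂ) :
    lsite (H := H) n (a + b) = lsite n a + lsite n b := by
  simp only [Cent.leftSite, Cent.leftMat_add, mul_add, add_mul, Cent.siteOp_add]

theorem lsite_smul (n : ℕ) (c : ℂ) (a : Matrix (Fin 2) (Fin 2) ℂ) :
    lsite (H := H) n (c • a) = c • lsite n a := by
  have e : Cent.leftMat (c • a) = c • Cent.leftMat a := by
    ext i j
    fin_cases i <;> fin_cases j <;> simp [Cent.leftMat]
  simp only [Cent.leftSite, e, Matrix.mul_smul, Matrix.smul_mul, Cent.siteOp_smul]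

/-- What commutes with the matrix units of a site commutes with its algebra. -/
theorem commute_lsite {w : AmbH H →L[ℂ] AmbH H} (n : ℕ)
    (h : ∀ i j, Commute w (siteUnit n i j)) (a : Matrix (Fin 2) (Fin 2) ℂ) :
    Commute w (lsite n a) := by
  have e : a = a 0 0 • Matrix.single 0 0 (1 : ℂ) + a 0 1 • Matrix.single 0 1 (1 : ℂ) +
      (a 1 0 • Matrix.single 1 0 (1 : ℂ) + a 1 1 • Matrix.single 1 1 (1 : ℂ)) := by
    ext i j
    fin_cases i <;> fin_cases j <;> simp
  rw [e]
  simp only [lsite_add, lsite_smul]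
  exact (((h 0 0).smul_right _).add_right ((h 0 1).smul_right _)).add_right
    (((h 1 0).smul_right _).add_right ((h 1 1).smul_right _))

variable {M : VonNeumannAlgebra H} {ξ : H}

theorem phase_coreUnit (n : ℕ) (a b : Fin 2) (t : ℝ) : ∃ k : ℂ,
    phase (-t) * coreUnit (H := H) n a b * phase t = k • coreUnit n a b :=
  ⟨Complex.exp (((-(t * -unitLevel n a b) : ℝ) : ℂ) * Complex.I), by
    unfold coreUnit
    rw [phase_conj]⟩

theorem star_mem_fixSet (P : Pinned M ξ) : ∀ a ∈ fixSet P, star a ∈ fixSet P := by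
  rintro a ((⟨g, hg, rfl⟩ | ⟨t, rfl⟩) | ⟨p, rfl⟩)
  · exact Or.inl (Or.inl ⟨star g, Groups.star_carrier hg, by rw [star_const, Cent.star_ten]⟩)
  · exact Or.inl (Or.inr ⟨-t, (star_phase t).symm⟩)
  · exact Or.inr ⟨(p.1, p.2.2, p.2.1), (Sites.star_coreUnit _ _ _).symm⟩

theorem shift_fixSet (P : Pinned M ξ) (s : ℝ) :
    ∀ a ∈ fixSet P, ∃ k : ℂ, shift (-s) * a * shift s = k • a := by
  have hss : shift (H := AmbH H) (-s) * shift s = 1 := by
    rw [← shift_add, neg_add_cancel, shift_zero]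
  rintro a ((⟨g, hg, rfl⟩ | ⟨t, rfl⟩) | ⟨p, rfl⟩)
  · exact ⟨1, by rw [one_smul, (const_shift (ten g) (-s)).eq.symm, mul_assoc, hss, mul_one]⟩
  · refine ⟨Complex.exp (((-(t * -s) : ℝ) : ℂ) * Complex.I), ?_⟩
    show shift (-s) * phase t * shift s = _
    rw [shift_phase, smul_mul_assoc, mul_assoc, hss, mul_one]
  · refine ⟨1, ?_⟩
    show shift (-s) * coreUnit p.1 p.2.1 p.2.2 * shift s = _
    rw [one_smul, coreUnit, ← mul_assoc, ← (const_shift _ (-s)).eq, mul_assoc, mul_assoc,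
      ← shift_add, ← shift_add]
    congr 2; ring

variable {P₀ Q₀ : VonNeumannAlgebra (CoreH (AmbH H))} {u : CoreH (AmbH H) →L[ℂ] CoreH (AmbH H)}

/-- The conjugation is moved to one that fixes the fixed operators. -/
theorem exists_fixing (P : Pinned M ξ) (hu : Conj P₀ Q₀ u) {η : ℝ} (hu0 : ‖u - 1‖ ≤ η)
    (hη : 25 * η ≤ 1 / 8) (hP : ∀ a ∈ fixSet P, a ∈ P₀) (hQ : ∀ a ∈ fixSet P, a ∈ Q₀)
    (Γs : Groups (CoreH (AmbH H)))
    (hsS : ∀ S : VonNeumannAlgebra (CoreH (AmbH H)), (∀ n a b, coreUnit n a b ∈ S) →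
      ∀ g ∈ Γs.carrier, g ∈ S)
    (hsU : ∀ u, (∀ g ∈ Γs.carrier, Commute u g) → ∀ n a b, Commute u (coreUnit n a b))
    (hsT : ∀ g ∈ Γs.carrier, ∀ x : H →L[ℂ] H, Commute (const (ten x)) g) :
    ∃ u', Conj P₀ Q₀ u' ∧ ‖u' - 1‖ ≤ 125 * η ∧ ∀ a ∈ fixSet P, Commute u' a := by
  have hη0 : 0 ≤ η := (norm_nonneg _).trans hu0
  have htp : ∀ x y : H →L[ℂ] H, const (ten (x * y)) = const (ten x) * const (ten y) := fun x y => by
    rw [← Cent.ten_mul, const_mul]
  obtain ⟨Γp, hcp⟩ : ∃ Γp : Groups (CoreH (AmbH H)),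
      Γp.carrier = (fun x => const (ten x)) '' P.Γ.carrier :=
    ⟨_, carrier_mapGroups P.Γ (fun x => const (ten x))
      (by rw [ten_one, const_one]) htp (fun x => by rw [← Cent.star_ten, star_const])⟩
  obtain ⟨u₁, hu₁, hn₁, hc₁, -⟩ := hu.fix_groups Γp
    (by rw [hcp]; exact fun a ha => hP a (Or.inl (Or.inl ha)))
    (by rw [hcp]; exact fun a ha => hQ a (Or.inl (Or.inl ha))) hu0 (by linarith)
  obtain ⟨u₂, hu₂, hn₂, hc₂, hp₂⟩ := hu₁.fix_groups Γs
    (hsS P₀ fun n a b => hP _ (Or.inr ⟨(n, a, b), rfl⟩))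
    (hsS Q₀ fun n a b => hQ _ (Or.inr ⟨(n, a, b), rfl⟩)) (η := 5 * η) hn₁ (by linarith)
  have hpin₂ : ∀ g ∈ P.Γ.carrier, Commute u₂ (const (ten g)) := fun g hg => by
    refine hp₂ (const (ten g)) (fun s hs => ?_) (fun s hs => ?_)
    · rw [conj_of_commute (Groups.unitary_carrier hs) (hsT s hs g)]
      exact hc₁ _ (hcp ▸ ⟨g, hg, rfl⟩)
    · rw [star_const, Cent.star_ten,
        conj_of_commute (Groups.unitary_carrier hs) (hsT s hs (star g))]
      exact hc₁ _ (hcp ▸ ⟨star g, Groups.star_carrier hg, rfl⟩)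
  have hunit₂ := hsU u₂ hc₂
  obtain ⟨u₃, hu₃, hn₃, hc₃, hp₃⟩ := hu₂.fix_flow_left isGroup_phase
    (fun t => hP _ (Or.inl (Or.inr ⟨t, rfl⟩))) (fun t => hQ _ (Or.inl (Or.inr ⟨t, rfl⟩)))
    (η := 25 * η) (hn₂.trans_eq (by ring)) hη
  refine ⟨u₃, hu₃, hn₃.trans_eq (by ring), ?_⟩
  rintro a ((⟨g, hg, rfl⟩ | ⟨t, rfl⟩) | ⟨⟨n, i, j⟩, rfl⟩)
  · have e : ∀ x : AmbH H →L[ℂ] AmbH H, ∀ t, phase (-t) * const x * phase t = const x :=
      fun x t => by
      rw [(const_phase x (-t)).eq.symm, mul_assoc, ← phase_add, neg_add_cancel, phase_zero, mul_one]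
    refine hp₃ (const (ten g)) (fun t => ?_) (fun t => ?_)
    · rw [e]; exact hpin₂ g hg
    · rw [star_const, Cent.star_ten, e]; exact hpin₂ _ (Groups.star_carrier hg)
  · exact hc₃ t
  · have e : ∀ (a b : Fin 2) (t : ℝ), Commute u₂
        (phase (H := AmbH H) (-t) * coreUnit (H := H) n a b * phase (H := AmbH H) t) := fun a b t => by
      obtain ⟨k, hk⟩ := phase_coreUnit (H := H) n a b t
      rw [hk]; exact (hunit₂ n a b).smul_right k
    exact hp₃ (coreUnit n i j) (fun t => e i j t) (fun t => by rw [Sites.star_coreUnit]; exact e j i t)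

/-- Conjugates by shifts differ by the commutant. -/
theorem shift_diff (P : Pinned M ξ) (hu : Conj P₀ Q₀ u) {η c : ℝ} (hu0 : ‖u - 1‖ ≤ η)
    (hη : 2 * η ≤ c) (hfix : ∀ a ∈ fixSet P, Commute u a)
    (hP : ∀ s, ∀ X ∈ P₀, shift s * X * shift (-s) ∈ P₀)
    (hQ : ∀ s, ∀ X ∈ Q₀, shift s * X * shift (-s) ∈ Q₀)
    (hrigid : ∀ w ∈ unitary (CoreH (AmbH H) →L[ℂ] CoreH (AmbH H)), ‖w - 1‖ ≤ c →
      (∀ X, X ∈ P₀ ↔ w * X * star w ∈ P₀) → (∀ a ∈ fixSet P, w * a = a * w) →
      ∀ X ∈ P₀, w * X = X * w)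
    (s : ℝ) : star u * (shift s * u * shift (-s)) ∈ P₀.commutant := by
  obtain ⟨v1, v2⟩ := Unitary.mem_iff.1 hu.unit
  have hss : shift (H := AmbH H) (-s) * shift s = 1 := by
    rw [← shift_add, neg_add_cancel, shift_zero]
  have hss' : shift (H := AmbH H) s * shift (-s) = 1 := by
    rw [← shift_add, add_neg_cancel, shift_zero]
  obtain ⟨w, hwdef⟩ : ∃ w, w = star u * (shift s * u * shift (-s)) := ⟨_, rfl⟩
  rw [← hwdef]
  have hsu : shift (H := AmbH H) s ∈ unitary _ := isGroup_shift.mem_unitary s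
  have hsu' : shift (H := AmbH H) (-s) ∈ unitary _ := isGroup_shift.mem_unitary _
  have hwu : w ∈ unitary _ :=
    hwdef ▸ mul_mem (Unitary.star_mem hu.unit) (mul_mem (mul_mem hsu hu.unit) hsu')
  have hws : star w = shift s * star u * shift (-s) * u := by
    rw [hwdef]; simp only [star_mul, star_star, star_shift, neg_neg, mul_assoc]
  have hconj : ∀ X, w * X * star w =
      star u * (shift s * (u * (shift (-s) * X * shift s) * star u) * shift (-s)) * u :=
    fun X => by rw [hws, hwdef]; simp only [mul_assoc]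
  have hbound : ‖w - 1‖ ≤ c := by
    have e : w - 1 = star u * (shift s * (u - 1) * shift (-s) - (u - 1)) := by
      rw [hwdef]
      simp only [mul_sub, sub_mul, mul_one, hss', v1]
      abel
    rw [e]
    refine (norm_mul_le _ _).trans ((mul_le_of_le_one_left (norm_nonneg _)
      (norm_le_one (Unitary.star_mem hu.unit))).trans ((norm_sub_le _ _).trans ?_))
    have n2 : ‖shift (H := AmbH H) s * (u - 1) * shift (-s)‖ ≤ ‖u - 1‖ :=
      (norm_mul_le _ _).trans ((mul_le_of_le_one_right (norm_nonneg _) (norm_le_one hsu')).trans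
        ((norm_mul_le _ _).trans (mul_le_of_le_one_left (norm_nonneg _) (norm_le_one hsu))))
    linarith [n2.trans hu0]
  have hX : ∀ X, X ∈ P₀ ↔ w * X * star w ∈ P₀ := by
    intro X
    have h1 : X ∈ P₀ ↔ shift (-s) * X * shift s ∈ P₀ := by
      refine ⟨fun h => by simpa using hP (-s) X h, fun h => ?_⟩
      have := hP s _ h
      simp only [← mul_assoc, hss', one_mul] at this
      rwa [mul_assoc, hss', mul_one] at this
    have h2 : ∀ Y, Y ∈ Q₀ ↔ shift s * Y * shift (-s) ∈ Q₀ := fun Y => by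
      refine ⟨hQ s Y, fun h => ?_⟩
      have := hQ (-s) _ h
      rw [neg_neg] at this
      simp only [← mul_assoc, hss, one_mul] at this
      rwa [mul_assoc, hss, mul_one] at this
    rw [hconj, h1, hu.iff, h2, hu.iff (star u * _ * u), hu.right_inv]
  refine VonNeumannAlgebra.mem_commutant_iff.2 fun X hXP =>
    (hrigid w hwu hbound hX (fun a ha => ?_) X hXP).symm
  obtain ⟨k, hk⟩ := shift_fixSet P s a ha
  have hc := (hfix a ha).eq
  have e0 : shift s * (k • a) * shift (-s) = a := by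
    rw [← hk]; simp only [← mul_assoc, hss', one_mul]; rw [mul_assoc, hss', mul_one]
  have e : w * a * star w = a := by
    rw [hconj, hk, mul_smul_comm, smul_mul_assoc, hc, mul_assoc a, v2, mul_one, e0, mul_assoc,
      ← hc, ← mul_assoc, v1, one_mul]
  have e2 := congrArg (fun T => T * w) e
  simp only [mul_assoc, (Unitary.mem_iff.1 hwu).1, mul_one] at e2
  exact e2

/-- A fixing conjugation whose shifts differ by the commutant is moved to a constant one. -/
theorem exists_const_conj (P : Pinned M ξ) (hu : Conj P₀ Q₀ u) {η : ℝ} (hu0 : ‖u - 1‖ ≤ η)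
    (hη : η ≤ 1 / 8) (hfix : ∀ a ∈ fixSet P, Commute u a)
    (hw : ∀ s, star u * (shift s * u * shift (-s)) ∈ P₀.commutant) :
    ∃ w, Conj P₀ Q₀ (const w) ∧ w ∈ unitary (AmbH H →L[ℂ] AmbH H) ∧ ‖w - 1‖ ≤ 5 * η ∧
      ∀ n a, Commute w (lsite n a) := by
  obtain ⟨u', hu', hn, hc, hp⟩ := hu.fix_flow_right isGroup_shift hw hu0 hη
  have hall : ∀ a ∈ fixSet P, Commute u' a := fun a ha => hp a
    (fun t => by
      obtain ⟨k, hk⟩ := shift_fixSet P t a ha
      rw [hk]; exact (hfix a ha).smul_right k)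
    (fun t => by
      obtain ⟨k, hk⟩ := shift_fixSet P t _ (star_mem_fixSet P a ha)
      rw [hk]; exact (hfix _ (star_mem_fixSet P a ha)).smul_right k)
  obtain ⟨w, hw4⟩ := exists_const (T := u') (fun t => (hall _ (Or.inl (Or.inr ⟨t, rfl⟩))).eq)
    (fun s => (hc s).eq)
  refine ⟨w, hw4 ▸ hu', ?_, (le_norm_const _).trans ?_, fun n => commute_lsite n fun i j => ?_⟩
  · obtain ⟨a1, a2⟩ := Unitary.mem_iff.1 hu'.unit
    rw [hw4, star_const, const_mul, ← const_one] at a1 a2
    exact Unitary.mem_iff.2 ⟨const_injective a1, const_injective a2⟩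
  · rw [const_sub, const_one, ← hw4]; exact hn
  · have e := (hall _ (Or.inr ⟨(n, i, j), rfl⟩)).eq
    rw [hw4] at e
    have hss : shift (H := AmbH H) (-unitLevel n i j) * shift (unitLevel n i j) = 1 := by
      rw [← shift_add, neg_add_cancel, shift_zero]
    refine const_injective ?_
    rw [← const_mul, ← const_mul]
    have := congrArg (fun T => T * shift (H := AmbH H) (unitLevel n i j)) e
    simp only [coreUnit] at this
    rw [mul_assoc (const (siteUnit n i j)) (shift _) (const w),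
      ← (const_shift w (-unitLevel n i j)).eq] at this
    simp only [mul_assoc, hss, mul_one] at this
    exact this

end sites

/-- A conjugation of the cores near the identity, with the rigidity of the first, gives a near
isomorphism of the algebras. -/
theorem nearIso_of_cores (hA : AmbSpec) {H : Type} [NormedAddCommGroup H] [InnerProductSpace ℂ H]
    [CompleteSpace H] {M N : VonNeumannAlgebra H} {ξ : H} (P : Pinned M ξ)
    {U : ℝ → H →L[ℂ] H} (hst : ∀ t, star (U t) = U (-t))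
    (hadd : ∀ s t, U (s + t) = U s * U t) (h0 : U 0 = 1)
    (hc₂ : ∀ v, Continuous fun t => ambU U t v)
    (hM₂ : ∀ t, ∀ x ∈ amb M, ambU U t * x * ambU U (-t) ∈ amb M)
    (hN₂ : ∀ t, ∀ x ∈ amb N, ambU U t * x * ambU U (-t) ∈ amb N)
    (hg : ∀ g ∈ P.Γ.carrier, ∀ t, U t * g = g * U t) (hgN : ∀ g ∈ P.Γ.carrier, g ∈ N)
    {c η : ℝ} (hη : 125 * η ≤ 1 / 8) (hηc : 2 * (125 * η) ≤ c)
    (hrigid : ∀ w ∈ unitary (CoreH (AmbH H) →L[ℂ] CoreH (AmbH H)), ‖w - 1‖ ≤ c →
      (∀ X, X ∈ core (amb M) (ambU U) ↔ w * X * star w ∈ core (amb M) (ambU U)) →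
      (∀ a ∈ fixSet P, w * a = a * w) → ∀ X ∈ core (amb M) (ambU U), w * X = X * w)
    {u : CoreH (AmbH H) →L[ℂ] CoreH (AmbH H)}
    (hu : Conj (core (amb M) (ambU U)) (core (amb N) (ambU U)) u) (hu0 : ‖u - 1‖ ≤ η) :
    NearIso M N (2 * (5 * (125 * η))) := by
  have hη0 : 0 ≤ η := (norm_nonneg _).trans hu0
  have hst₂ := star_ambU hst
  have hmem : ∀ S : VonNeumannAlgebra H, (∀ g ∈ P.Γ.carrier, g ∈ S) →
      ∀ a ∈ fixSet P, a ∈ core (amb S) (ambU U) := by
    rintro S hS' a ((⟨g, hg', rfl⟩ | ⟨t, rfl⟩) | ⟨p, rfl⟩)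
    · exact const_ten_mem_core hst (hS' g hg') (hg g hg')
    · exact phase_mem_core hst₂ t
    · exact coreUnit_mem_core hst _ _ _
  obtain ⟨Γs, -, hsS, hsU, hsT, -⟩ := Sites.exists_siteGroups (H := H)
  obtain ⟨u₃, hu₃, hn₃, hfix⟩ := exists_fixing P hu hu0 (by linarith) (hmem M P.memM)
    (hmem N hgN) Γs hsS hsU fun g hg' x => hsT x g hg'
  have hw := shift_diff P hu₃ hn₃ hηc hfix
    (fun s X hX => shift_conj_mem_core hst₂ s hX) (fun s X hX => shift_conj_mem_core hst₂ s hX)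
    hrigid
  obtain ⟨w, hconj₀, hwu, hwn, hwsite⟩ := exists_const_conj P hu₃ hn₃ hη hfix hw
  exact nearIso_of_amb (hA.ten_mem H M) (hA.ten_mem H N) (hA.commute_sites H M)
    (hA.commute_sites H N)
    (conj_of_compressions (slice (H := AmbH H)) (fun k a X b => slice_const_mul k a b X)
      (fun k X hX => slice_mem k hX) (fun k X hX => slice_mem k hX)
      (fun x hx => exists_core_approx (H := AmbH H) (ambU_add hadd) (ambU_zero h0) hst₂ hc₂ hM₂ hx)
      (fun x hx => exists_core_approx (H := AmbH H) (ambU_add hadd) (ambU_zero h0) hst₂ hc₂ hN₂ hx)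
      hwu hconj₀)
    hwn hwsite

/-- The semifinite theorem on the cores gives the conjugacy. -/
theorem endModule : EndModule := by
  intro hA _ hS hSemi hClose hRigid
  obtain ⟨δs, Cs, hδs, hsemi⟩ := hS
  obtain ⟨δc, Cc, hδc, hCc, hclose⟩ := hClose
  obtain ⟨c, hc, hrigid⟩ := hRigid
  obtain ⟨Ca, hCa, hambclose⟩ := hA.close
  obtain ⟨Cf, hCf, hfinal⟩ := Vale.Agent.P096.final.{0}
  -- the size of the first conjugation per unit of closeness, and of the last
  set K : ℝ := |Cs| * (Cc * Ca) + 1 with hK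
  have hK0 : 0 < K := by positivity
  refine ⟨min (min (δc / (Ca + 1)) (δs / (Cc * Ca + 1)))
    (min (min (1 / (8 * 125 * K)) (c / (2 * 125 * K))) (1 / (2 * 625 * K * Cf + 1))),
    Cf * (2 * (625 * K)), by positivity, by positivity, ?_⟩
  intro H _ _ _ _ M N ξ P R J U γ hd hP hUN hγ hcl
  simp only [lt_min_iff] at hγ
  obtain ⟨⟨hγc, hγs⟩, ⟨hγ8, hγr⟩, hγf⟩ := hγ
  have hγ0 : 0 ≤ γ := by
    obtain ⟨x, _, hx⟩ := hcl.1 0 (zero_mem _)
      (ContinuousLinearMap.opNorm_le_bound _ zero_le_one fun z => by simp)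
    exact (norm_nonneg _).trans hx
  rw [lt_div_iff₀ (by positivity)] at hγc hγs hγ8 hγr hγf
  have := hA.separable H
  obtain ⟨R₂, J₂, hd₂, -⟩ := hA.data H M ξ R J U hd
  have hm := hd.mod
  have hm₂ := hd₂.mod
  have hN₂ : ∀ t, ∀ x ∈ amb N, ambU U t * x * ambU U (-t) ∈ amb N := fun t x hx =>
    Amb.ambU_conj_mem hm.U_star hm.U_add hm.U_zero hUN t hx
  have hclose₀ : Lit.IsClose (CoreH (AmbH H)) (core (amb M) (ambU U)) (core (amb N) (ambU U))
      (Cc * (Ca * γ)) :=
    hclose (AmbH H) (amb M) (amb N) (ambU U) (Ca * γ) hm₂.U_add hm₂.U_zero hm₂.U_star hm₂.U_cont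
      hm₂.U_mem hN₂ (by nlinarith) (hambclose H M N γ hcl)
  obtain ⟨u, hu, hu0⟩ := exists_conj (hsemi (CoreH (AmbH H)) _ _ (Cc * (Ca * γ))
    (hSemi H M ξ R J U hd ⟨P⟩) (by nlinarith) hclose₀)
  have hη0 : 0 ≤ K * γ := by positivity
  replace hu0 : ‖u - 1‖ ≤ K * γ := hu0.trans (by
    rw [hK]
    nlinarith [mul_le_mul_of_nonneg_right (le_abs_self Cs) (by positivity : 0 ≤ Cc * (Ca * γ))])
  have hiso := nearIso_of_cores hA P hm.U_star hm.U_add hm.U_zero hm₂.U_cont hm₂.U_mem hN₂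
    (fun g hg t => P.U_comm_g P.fits_self hd hg t) hP.memN (c := c) (by nlinarith) (by nlinarith)
    (hrigid H M ξ P R J U hd) hu hu0
  have := ((hfinal H (2 * (5 * (125 * (K * γ)))) (by positivity)).2.1 M N (by nlinarith)).1 hiso
  rwa [show Cf * (2 * (5 * (125 * (K * γ)))) = Cf * (2 * (625 * K)) * γ by ring] at this

end Vale.Agent.P096.Three.Core
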