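import Mathlib

/-!
P096, cores: the least vector of a corner with a trace vector.

If a unitary near the identity normalises `C` and commutes with a projection `p` of `C` whose
corner has a trace vector `W`, then some element of the corner near `p` intertwines the
automorphism and the identity on the corner.
-/

open scoped InnerProductSpace
open Filter Topology

namespace Vale.Agent.P096.Three.Core

variable {H : Type} [NormedAddCommGroup H] [InnerProductSpace ℂ H] [CompleteSpace H]
variable {C : VonNeumannAlgebra H} {p w : H →L[ℂ] H} {W : H} {r : ℝ}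

/-- Bounded operators vanishing outside `p` which converge on a set that is dense in the range
of `p` converge everywhere. -/
theorem exists_strong_limit {T : ℕ → H →L[ℂ] H} {B : ℝ} (hB : ∀ n, ‖T n‖ ≤ B)
    (hp : ∀ n, T n * p = T n) {s : Set H} (hs : ∀ v, p v ∈ closure s)
    (h : ∀ v ∈ s, ∃ l, Tendsto (fun n => T n v) atTop (𝓝 l)) :
    ∃ X : H →L[ℂ] H, ∀ v, Tendsto (fun n => T n v) atTop (𝓝 (X v)) := by
  have hB0 : 0 ≤ B := (norm_nonneg _).trans (hB 0)
  have hc : ∀ v, ∃ l, Tendsto (fun n => T n v) atTop (𝓝 l) := fun v => by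
    refine cauchySeq_tendsto_of_complete (Metric.cauchySeq_iff.2 fun ε hε => ?_)
    obtain ⟨z, hz, hzd⟩ := Metric.mem_closure_iff.1 (hs v) (ε / (4 * (B + 1))) (by positivity)
    rw [dist_eq_norm] at hzd
    obtain ⟨l, hl⟩ := h z hz
    obtain ⟨N, hN⟩ := Metric.cauchySeq_iff.1 hl.cauchySeq (ε / 2) (by positivity)
    refine ⟨N, fun m hm n hn => ?_⟩
    have e : ∀ k, ‖T k v - T k z‖ ≤ ε / 4 := fun k => by
      rw [show T k v = T k (p v) by rw [← mul_apply_eq_comp, hp], ← map_sub]
      refine ((T k).le_opNorm _).trans ?_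
      calc ‖T k‖ * ‖p v - z‖ ≤ (B + 1) * (ε / (4 * (B + 1))) :=
            mul_le_mul ((hB k).trans (by linarith)) hzd.le (norm_nonneg _) (by linarith)
        _ = ε / 4 := by field_simp
    have h1 := dist_triangle4 (T m v) (T m z) (T n z) (T n v)
    have h2 := hN m hm n hn
    have h3 : dist (T m v) (T m z) ≤ ε / 4 := by rw [dist_eq_norm]; exact e m
    have h4 : dist (T n z) (T n v) ≤ ε / 4 := by rw [dist_comm, dist_eq_norm]; exact e n
    linarith
  choose f hf using hc
  exact ⟨continuousLinearMapOfTendsto T (tendsto_pi_nhds.2 hf), hf⟩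

/-- The commutant moved vectors separate the corner. -/
theorem eq_zero_of_apply (hD : ∀ v, p v ∈ closure ((fun a : H →L[ℂ] H => a W) '' C.commutant))
    {X : H →L[ℂ] H} (hX : X ∈ C) (hXp : X * p = X) (h0 : X W = 0) : X = 0 := by
  refine ContinuousLinearMap.ext fun v => ?_
  have hsub : (fun a : H →L[ℂ] H => a W) '' C.commutant ⊆ {z | X z = 0} := by
    rintro _ ⟨a, ha, rfl⟩
    show X (a W) = 0
    rw [← mul_apply_eq_comp, VonNeumannAlgebra.mem_commutant_iff.1 ha X hX, mul_apply_eq_comp, h0,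
      map_zero]
  have h := closure_minimal hsub (isClosed_eq X.continuous continuous_const) (hD v)
  rw [zero_apply, ← hXp]
  exact h

theorem norm_conj_sub_le (hw : w ∈ unitary (H →L[ℂ] H)) (hr : ‖w - 1‖ ≤ r) (X : H →L[ℂ] H) :
    ‖w * X * star w - X‖ ≤ 2 * r * ‖X‖ := by
  have e : w * X * star w - X = ((w - 1) * X - X * (w - 1)) * star w := by
    have h1 : w * star w = 1 := Unitary.mul_star_self_of_mem hw
    simp only [sub_mul, mul_sub, one_mul, mul_one, mul_assoc]
    rw [h1, mul_one]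
    abel
  rw [e, CStarRing.norm_mul_mem_unitary _ (Unitary.star_mem hw)]
  calc _ ≤ ‖w - 1‖ * ‖X‖ + ‖X‖ * ‖w - 1‖ :=
        (norm_sub_le _ _).trans (add_le_add (norm_mul_le _ _) (norm_mul_le _ _))
    _ ≤ r * ‖X‖ + ‖X‖ * r := add_le_add (mul_le_mul_of_nonneg_right hr (norm_nonneg _))
        (mul_le_mul_of_nonneg_left hr (norm_nonneg _))
    _ = _ := by ring

/-- A unitary of the corner `p C p`. -/
structure CornerUnitary (C : VonNeumannAlgebra H) (p u : H →L[ℂ] H) : Prop where
  mem : u ∈ C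
  left : p * u = u
  right : u * p = u
  star_mul : star u * u = p
  mul_star : u * star u = p

/-- Elements near `p` of the corner. -/
def nearSet (C : VonNeumannAlgebra H) (p : H →L[ℂ] H) (r : ℝ) : Set (H →L[ℂ] H) :=
  {X | X ∈ C ∧ p * X = X ∧ X * p = X ∧ ‖X - p‖ ≤ r}

theorem exists_least_intertwiner (hp : IsStarProjection p) (hpC : p ∈ C)
    (hw : w ∈ unitary (H →L[ℂ] H)) (hr : ‖w - 1‖ ≤ r) (hwp : w * p = p * w)
    (hnorm : ∀ X ∈ C, w * X * star w ∈ C) (hW : p W = W)
    (hT : ∀ X ∈ C, p * X = X → X * p = X → ‖X W‖ = ‖star X W‖)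
    (hD : ∀ v, p v ∈ closure ((fun a : H →L[ℂ] H => a W) '' C.commutant)) :
    ∃ c₀, c₀ ∈ nearSet C p (2 * r) ∧ ∀ X ∈ C, p * X = X → X * p = X →
      w * X * star w * c₀ = c₀ * X := by
  set α : (H →L[ℂ] H) → (H →L[ℂ] H) := fun X => w * X * star w with hα
  have hww : star w * w = 1 := Unitary.star_mul_self_of_mem hw
  have hww' : w * star w = 1 := Unitary.mul_star_self_of_mem hw
  have hws : star w * p = p * star w := by
    have h := congrArg star hwp
    rwa [star_mul, star_mul, hp.isSelfAdjoint.star_eq, eq_comm] at h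
  have hαmul : ∀ X Y, α X * α Y = α (X * Y) := fun X Y => by
    simp only [hα, mul_assoc]
    rw [← mul_assoc (star w) w, hww, one_mul]
  have hαp : α p = p := by rw [hα]; simp only; rw [hwp, mul_assoc, hww', mul_one]
  have hαstar : ∀ X, star (α X) = α (star X) := fun X => by
    simp [hα, star_mul, mul_assoc]
  have hr0 : 0 ≤ r := (norm_nonneg _).trans hr
  have hpn : ‖p‖ ≤ 1 := by
    have h : ‖p‖ = ‖p‖ * ‖p‖ := by
      conv_lhs => rw [← hp.isIdempotentElem.eq]
      nth_rw 1 [← hp.isSelfAdjoint.star_eq]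
      exact CStarRing.norm_star_mul_self
    nlinarith [norm_nonneg p]
  set G : Set (H →L[ℂ] H) := {Y | ∃ u, CornerUnitary C p u ∧ Y = α u * star u} with hG
  set A : Set (H →L[ℂ] H) := convexHull ℝ G with hA
  have hGnear : G ⊆ nearSet C p (2 * r) := by
    rintro _ ⟨u, hu, rfl⟩
    refine ⟨mul_mem (hnorm u hu.mem) (star_mem hu.mem), ?_, ?_, ?_⟩
    · conv_lhs => rw [← hαp]
      rw [← mul_assoc, hαmul, hu.left]
    · rw [mul_assoc]
      congr 1
      have h := congrArg star hu.left
      rwa [star_mul, hp.isSelfAdjoint.star_eq] at h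
    · conv_lhs => rw [← hu.mul_star, ← sub_mul]
      have hu1 : ‖u‖ ≤ 1 := by
        have := CStarRing.norm_star_mul_self (x := u)
        rw [hu.star_mul] at this
        nlinarith [norm_nonneg u]
      calc _ ≤ ‖α u - u‖ * ‖star u‖ := norm_mul_le _ _
        _ ≤ (2 * r * ‖u‖) * ‖u‖ := by
            rw [norm_star]
            exact mul_le_mul_of_nonneg_right (norm_conj_sub_le hw hr u) (norm_nonneg _)
        _ ≤ 2 * r * 1 * 1 := by gcongr
        _ = 2 * r := by ring
  have hnearconv : Convex ℝ (nearSet C p (2 * r)) := by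
    intro X hX Y hY a b ha hb hab
    obtain ⟨hX1, hX2, hX3, hX4⟩ := hX
    obtain ⟨hY1, hY2, hY3, hY4⟩ := hY
    refine ⟨add_mem (C.toStarSubalgebra.toSubalgebra.smul_mem hX1 (a : ℂ))
      (C.toStarSubalgebra.toSubalgebra.smul_mem hY1 (b : ℂ)),
      by rw [mul_add, mul_smul_comm, mul_smul_comm, hX2, hY2],
      by rw [add_mul, smul_mul_assoc, smul_mul_assoc, hX3, hY3], ?_⟩
    rw [show a • X + b • Y - p = a • (X - p) + b • (Y - p) by
      rw [smul_sub, smul_sub, sub_add_sub_comm, ← add_smul, hab, one_smul]]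
    refine (norm_add_le _ _).trans ?_
    rw [norm_smul, norm_smul, Real.norm_of_nonneg ha, Real.norm_of_nonneg hb]
    calc _ ≤ a * (2 * r) + b * (2 * r) := by gcongr
      _ = 2 * r := by rw [← add_mul, hab, one_mul]
  have hAnear : A ⊆ nearSet C p (2 * r) := convexHull_min hGnear hnearconv
  have hpG : p ∈ G := ⟨p, ⟨hpC, hp.isIdempotentElem.eq, hp.isIdempotentElem.eq,
    by rw [hp.isSelfAdjoint.star_eq, hp.isIdempotentElem.eq],
    by rw [hp.isSelfAdjoint.star_eq, hp.isIdempotentElem.eq]⟩,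
    by rw [hαp, hp.isSelfAdjoint.star_eq, hp.isIdempotentElem.eq]⟩
  -- the least vector
  set ev : (H →L[ℂ] H) →ₗ[ℝ] H :=
    ((ContinuousLinearMap.apply ℂ H W).toLinearMap.restrictScalars ℝ) with hev
  set K : Set H := closure (ev '' A) with hK
  have hKconv : Convex ℝ K := ((convex_convexHull ℝ G).linear_image ev).closure
  letI := InnerProductSpace.complexToReal (G := H)
  obtain ⟨v₀, hv₀K, hv₀⟩ := exists_norm_eq_iInf_of_complete_convex
    (K := K) (⟨ev p, subset_closure ⟨p, subset_convexHull ℝ G hpG, rfl⟩⟩)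
    isClosed_closure.isComplete hKconv (0 : H)
  have hmin : ∀ z ∈ K, ‖v₀‖ ≤ ‖z‖ := fun z hz => by
    have h : ‖(0 : H) - v₀‖ ≤ ‖(0 : H) - z‖ := by
      rw [hv₀]
      exact ciInf_le (f := fun y : K => ‖(0 : H) - y‖) ⟨0, by
        rintro _ ⟨y, rfl⟩; exact norm_nonneg _⟩ (⟨z, hz⟩ : K)
    simpa using h
  have huniq : ∀ z ∈ K, ‖z‖ ≤ ‖v₀‖ → z = v₀ := fun z hz hzn => by
    have hm := hmin _ (hKconv hz hv₀K (a := 1 / 2) (b := 1 / 2) (by norm_num) (by norm_num)
      (by norm_num))
    have e := parallelogram_law_with_norm ℝ z v₀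
    have e2 : ‖z + v₀‖ = 2 * ‖(1 / 2 : ℝ) • z + (1 / 2 : ℝ) • v₀‖ := by
      rw [← smul_add, norm_smul, Real.norm_of_nonneg (by norm_num : (0 : ℝ) ≤ 1 / 2)]
      ring
    have h2 : ‖z - v₀‖ * ‖z - v₀‖ ≤ 0 := by nlinarith [norm_nonneg z, norm_nonneg v₀]
    exact sub_eq_zero.1 (norm_eq_zero.1 (by nlinarith [norm_nonneg (z - v₀)]))
  obtain ⟨s, hs, hslim⟩ := mem_closure_iff_seq_limit.1 hv₀K
  choose X hXA hXW using hs
  have hXn : ∀ n, X n ∈ nearSet C p (2 * r) := fun n => hAnear (hXA n)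
  have hXW' : Tendsto (fun n => X n W) atTop (𝓝 v₀) := hslim.congr fun n => (hXW n).symm
  obtain ⟨c₀, hc₀⟩ := exists_strong_limit (T := X) (B := 2 * r + 1) (p := p) (fun n => by
      calc ‖X n‖ = ‖(X n - p) + p‖ := by rw [sub_add_cancel]
        _ ≤ 2 * r + 1 := (norm_add_le _ _).trans (add_le_add (hXn n).2.2.2 hpn))
    (fun n => (hXn n).2.2.1) hD (by
      rintro _ ⟨a, ha, rfl⟩
      refine ⟨a v₀, ((a.continuous.tendsto v₀).comp hXW').congr fun n => ?_⟩
      exact (congrArg (fun T : H →L[ℂ] H => T W)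
        (VonNeumannAlgebra.mem_commutant_iff.1 ha _ (hXn n).1)).symm)
  have hlim : ∀ {Z : H →L[ℂ] H} {Y : ℕ → H →L[ℂ] H},
      (∀ v, Tendsto (fun n => Y n v) atTop (𝓝 (Z v))) → (∀ n, Y n ∈ C) → Z ∈ C := by
    intro Z Y hY hYC
    rw [← VonNeumannAlgebra.commutant_commutant C, VonNeumannAlgebra.mem_commutant_iff]
    intro a ha
    refine ContinuousLinearMap.ext fun v => ?_
    refine tendsto_nhds_unique (((a.continuous.tendsto _).comp (hY v)).congr fun n => ?_)
      (hY (a v))
    exact (congrArg (fun T : H →L[ℂ] H => T v)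
      (VonNeumannAlgebra.mem_commutant_iff.1 ha _ (hYC n))).symm
  have hc₀mem : c₀ ∈ nearSet C p (2 * r) := by
    refine ⟨hlim hc₀ fun n => (hXn n).1, ContinuousLinearMap.ext fun v => ?_,
      ContinuousLinearMap.ext fun v => ?_, ?_⟩
    · exact tendsto_nhds_unique (((p.continuous.tendsto _).comp (hc₀ v)).congr fun n =>
        congrArg (fun T : H →L[ℂ] H => T v) (hXn n).2.1) (hc₀ v)
    · exact tendsto_nhds_unique ((hc₀ (p v)).congr fun n =>
        congrArg (fun T : H →L[ℂ] H => T v) (hXn n).2.2.1) (hc₀ v)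
    · refine ContinuousLinearMap.opNorm_le_bound _ (by linarith) fun v => ?_
      refine le_of_tendsto ((hc₀ v).sub_const (p v)).norm (Eventually.of_forall fun n => ?_)
      exact ((X n - p).le_opNorm v).trans
        (mul_le_mul_of_nonneg_right (hXn n).2.2.2 (norm_nonneg _))
  have hc₀W : c₀ W = v₀ := tendsto_nhds_unique (hc₀ W) hXW'
  -- invariance
  have hinv : ∀ u, CornerUnitary C p u → α u * c₀ = c₀ * u := by
    intro u hu
    set Φ : (H →L[ℂ] H) →ₗ[ℝ] (H →L[ℂ] H) :=
      (LinearMap.mulLeft ℝ (α u)).comp (LinearMap.mulRight ℝ (star u)) with hΦ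
    have hΦa : ∀ Y, Φ Y = α u * Y * star u := fun Y => (mul_assoc _ _ _).symm
    have hΦA : Φ '' A ⊆ A := by
      rw [hA, Φ.image_convexHull]
      refine convexHull_mono ?_
      rintro _ ⟨_, ⟨v, hv, rfl⟩, rfl⟩
      refine ⟨u * v, ⟨mul_mem hu.mem hv.mem, by rw [← mul_assoc, hu.left],
        by rw [mul_assoc, hv.right], ?_, ?_⟩, ?_⟩
      · rw [star_mul, mul_assoc, ← mul_assoc (star u), hu.star_mul, hv.left, hv.star_mul]
      · rw [star_mul, mul_assoc, ← mul_assoc v, hv.mul_star]
        rw [show p * star u = star u by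
          have h := congrArg star hu.right
          rwa [star_mul, hp.isSelfAdjoint.star_eq] at h, hu.mul_star]
      · rw [hΦa, star_mul, ← hαmul]
        simp only [mul_assoc]
    have hiso : ‖(α u * c₀ * star u) W‖ = ‖c₀ W‖ := by
      obtain ⟨hC, hl, hr', -⟩ := hc₀mem
      have hsu : star u * p = star u := by
        have h := congrArg star hu.left
        rwa [star_mul, hp.isSelfAdjoint.star_eq] at h
      have e1 : ‖(α u * c₀ * star u) W‖ = ‖(c₀ * star u) W‖ := by
        rw [mul_assoc, mul_apply_eq_comp]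
        set z := (c₀ * star u) W
        have hz : (star (α u) * α u) z = z := by
          rw [hαstar, hαmul, hu.star_mul, hαp, ← mul_apply_eq_comp, ← mul_assoc, hl]
        have h1 : (⟪α u z, α u z⟫_ℂ) = ⟪z, z⟫_ℂ := by
          rw [← ContinuousLinearMap.adjoint_inner_right, ← ContinuousLinearMap.star_eq_adjoint,
            ← mul_apply_eq_comp, hz]
        rw [norm_eq_sqrt_re_inner (𝕜 := ℂ), h1, ← norm_eq_sqrt_re_inner]
      have e2 : ‖(c₀ * star u) W‖ = ‖(star c₀) W‖ := by
        rw [hT _ (mul_mem hC (star_mem hu.mem)) (by rw [← mul_assoc, hl])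
          (by rw [mul_assoc, hsu]), star_mul, star_star, mul_apply_eq_comp]
        set z := star c₀ W
        have hz : (star u * u) z = z := by
          rw [hu.star_mul, ← mul_apply_eq_comp]
          congr 1
          have h := congrArg star hr'
          rwa [star_mul, hp.isSelfAdjoint.star_eq] at h
        have h1 : (⟪u z, u z⟫_ℂ) = ⟪z, z⟫_ℂ := by
          rw [← ContinuousLinearMap.adjoint_inner_right, ← ContinuousLinearMap.star_eq_adjoint,
            ← mul_apply_eq_comp, hz]
        rw [norm_eq_sqrt_re_inner (𝕜 := ℂ), h1, ← norm_eq_sqrt_re_inner]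
      rw [e1, e2, ← hT _ hC hl hr']
    have hKm : (α u * c₀ * star u) W ∈ K := by
      refine mem_closure_of_tendsto (b := atTop)
        (((α u).continuous.tendsto _).comp (hc₀ (star u W))) (Eventually.of_forall fun n => ?_)
      exact ⟨Φ (X n), hΦA ⟨X n, hXA n, rfl⟩, by rw [hΦa]; rfl⟩
    have heq := huniq _ hKm (by rw [hiso, hc₀W])
    obtain ⟨hC, hl, hr', -⟩ := hc₀mem
    have hsu : star u * p = star u := by
      have h := congrArg star hu.left
      rwa [star_mul, hp.isSelfAdjoint.star_eq] at h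
    have hzero := eq_zero_of_apply hD
      (sub_mem (mul_mem (mul_mem (hnorm u hu.mem) hC) (star_mem hu.mem)) hC)
      (by rw [sub_mul, hr', mul_assoc, hsu]) (by rw [sub_apply, heq, hc₀W, sub_self])
    have h1 := congrArg (· * u) (sub_eq_zero.1 hzero)
    simp only [mul_assoc, hu.star_mul, hr'] at h1
    exact h1
  refine ⟨c₀, hc₀mem, fun Y hY hpY hYp => ?_⟩
  -- the unitaries of `C` commuting with `p` span it
  set S : StarSubalgebra ℂ (H →L[ℂ] H) :=
    C.toStarSubalgebra ⊓ StarSubalgebra.centralizer ℂ {p} with hS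
  have : IsClosed (S : Set (H →L[ℂ] H)) := by
    refine IsClosed.inter ?_ ?_
    · rw [← VonNeumannAlgebra.commutant_commutant C]
      show IsClosed ((C.commutant).commutant : Set (H →L[ℂ] H))
      rw [VonNeumannAlgebra.coe_commutant]
      exact Set.isClosed_centralizer _
    · show IsClosed ((StarSubalgebra.centralizer ℂ {p}) : Set (H →L[ℂ] H))
      rw [StarSubalgebra.coe_centralizer]
      exact Set.isClosed_centralizer _
  have hYS : Y ∈ S := ⟨hY, by
    show Y ∈ StarSubalgebra.centralizer ℂ {p}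
    rw [StarSubalgebra.mem_centralizer_iff]
    rintro _ rfl
    rw [hp.isSelfAdjoint.star_eq, hpY, hYp]
    exact ⟨rfl, rfl⟩⟩
  have key : ∀ Z : S, α ((Z : H →L[ℂ] H) * p) * c₀ = c₀ * ((Z : H →L[ℂ] H) * p) := by
    intro Z
    have hZ : Z ∈ Submodule.span ℂ (unitary S : Set S) := by
      rw [CStarAlgebra.span_unitary]; trivial
    induction hZ using Submodule.span_induction with
    | mem v hv =>
      obtain ⟨h1, h2⟩ := Unitary.mem_iff.1 hv
      have h1' : star v.1 * v.1 = 1 := congrArg Subtype.val h1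
      have h2' : v.1 * star v.1 = 1 := congrArg Subtype.val h2
      have hvp : p * (v : H →L[ℂ] H) = v * p :=
        ((StarSubalgebra.mem_centralizer_iff ℂ).1 v.2.2 p rfl).1
      refine hinv _ ⟨mul_mem v.2.1 hpC, by rw [← mul_assoc, hvp, mul_assoc,
        hp.isIdempotentElem.eq], by rw [mul_assoc, hp.isIdempotentElem.eq], ?_, ?_⟩
      · rw [star_mul, hp.isSelfAdjoint.star_eq, mul_assoc, ← mul_assoc (star _) (v : H →L[ℂ] H),
          h1', one_mul, hp.isIdempotentElem.eq]
      · rw [star_mul, hp.isSelfAdjoint.star_eq, mul_assoc, ← mul_assoc p, hp.isIdempotentElem.eq,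
          ← mul_assoc, ← hvp, mul_assoc, h2', mul_one]
    | zero => simp [hα]
    | add a b _ _ ha hb =>
      rw [AddMemClass.coe_add, add_mul, mul_add, ← ha, ← hb]
      simp [hα, mul_add, add_mul]
    | smul c a _ ha =>
      show α ((c • (a : H →L[ℂ] H)) * p) * c₀ = c₀ * ((c • (a : H →L[ℂ] H)) * p)
      rw [smul_mul_assoc, mul_smul_comm, ← ha]
      simp [hα]
  have := key ⟨Y, hYS⟩
  rwa [show (Y : H →L[ℂ] H) * p = Y from hYp] at this

/-- An intertwiner near `p` which commutes with the corner makes the automorphism trivial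
there. -/
theorem conj_eq_self (hwp : w * p = p * w) {c₀ X : H →L[ℂ] H}
    (hc : ‖c₀ - p‖ < 1) (hXp : X * p = X) (hint : w * X * star w * c₀ = c₀ * X)
    (hcomm : c₀ * X = X * c₀) (hp : IsStarProjection p) : w * X * star w = X := by
  set D := w * X * star w - X with hD
  have hws : star w * p = p * star w := by
    have h := congrArg star hwp
    rwa [star_mul, star_mul, hp.isSelfAdjoint.star_eq, eq_comm] at h
  have hDp : D * p = D := by
    rw [hD, sub_mul, mul_assoc _ (star w), hws, ← mul_assoc, mul_assoc w X, hXp]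
  have h0 : D * c₀ = 0 := by rw [hD, sub_mul, hint, hcomm, sub_self]
  have h1 : ‖D‖ ≤ ‖D‖ * ‖c₀ - p‖ := by
    calc ‖D‖ = ‖D * p - D * c₀‖ := by rw [h0, hDp, sub_zero]
      _ ≤ ‖D‖ * ‖c₀ - p‖ := by
          rw [← mul_sub, norm_sub_rev c₀ p]; exact norm_mul_le _ _
  exact sub_eq_zero.1 (norm_eq_zero.1 (by nlinarith [norm_nonneg D]))

end Vale.Agent.P096.Three.Core
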