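import Vale.Agent.P096.Three.Core.Ivec
import Vale.Agent.P096.Three.Core.Asymp

/-!
P096, cores: the relative commutant of the fixed operators in the half line corner of the core is
the centre.  Far sites of one family show that such an element commutes with the shifts by a dense
set of levels, so it is pointwise constant; the value commutes with all sites and with the pins.
-/

open scoped InnerProductSpace
open Filter Topology MeasureTheory

namespace Vale.Agent.P096.Three.Core

variable {H : Type} [NormedAddCommGroup H] [InnerProductSpace ℂ H] [CompleteSpace H]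
variable {M : VonNeumannAlgebra H} {ξ : H}

theorem ten_mem_comm {y : H →L[ℂ] H} (hy : y ∈ M.commutant) :
    ten y ∈ (amb M).commutant := by
  rw [VonNeumannAlgebra.mem_commutant_iff]
  intro x hx
  have hx' : x ∈ StarSubalgebra.centralizer ℂ _ := hx
  exact (((StarSubalgebra.mem_centralizer_iff ℂ).1 hx' _ (Or.inl ⟨y, hy, rfl⟩)).1).symm

theorem rsite_mem_comm (n : ℕ) (a : Matrix (Fin 2) (Fin 2) ℂ) :
    rsite n a ∈ (amb M).commutant := by
  rw [VonNeumannAlgebra.mem_commutant_iff]
  intro x hx
  have hx' : x ∈ StarSubalgebra.centralizer ℂ _ := hx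
  exact (((StarSubalgebra.mem_centralizer_iff ℂ).1 hx' _ (Or.inr ⟨(n, a), rfl⟩)).1).symm

theorem core_comm_const {N : VonNeumannAlgebra H} {V : ℝ → H →L[ℂ] H}
    {X : CoreH H →L[ℂ] CoreH H} (hX : X ∈ core N V) {y : H →L[ℂ] H} (hy : y ∈ N.commutant) :
    X * const y = const y * X := by
  have hX' : X ∈ StarSubalgebra.centralizer ℂ _ := hX
  exact (((StarSubalgebra.mem_centralizer_iff ℂ).1 hX' _ (Or.inl ⟨y, hy, rfl⟩)).1).symm

theorem ten_injective {x y : H →L[ℂ] H} (h : ten x = ten y) : x = y := by
  refine ContinuousLinearMap.ext fun u => ?_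
  have h1 := congrArg (fun A : AmbH H →L[ℂ] AmbH H => (A (lp.single 2 (0 : Idx) u)) 0) h
  simpa [Cent.ten_apply, lp.single_apply] using h1

theorem lsite_eq_sum (n : ℕ) (a : Matrix (Fin 2) (Fin 2) ℂ) :
    lsite (H := H) n a = ∑ p, ∑ q, a p q • siteUnit n p q := by
  have hs : ∀ (c : ℂ) (b : Matrix (Fin 2) (Fin 2) ℂ), lsite (H := H) n (c • b) = c • lsite n b := by
    intro c b
    show Cent.leftSite _ n (c • b) = c • Cent.leftSite _ n b
    rw [Cent.leftSite, Cent.leftSite, ← Cent.siteOp_smul]
    congr 1
    rw [show Cent.leftMat (c • b) = c • Cent.leftMat b by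
      ext i j; fin_cases i <;> fin_cases j <;> simp [Cent.leftMat]]
    simp [Matrix.mul_smul, Matrix.smul_mul]
  have ha : ∀ b c : Matrix (Fin 2) (Fin 2) ℂ,
      lsite (H := H) n (b + c) = lsite n b + lsite n c := by
    intro b c
    show Cent.leftSite _ n (b + c) = Cent.leftSite _ n b + Cent.leftSite _ n c
    rw [Cent.leftSite, Cent.leftSite, Cent.leftSite, Cent.leftMat_add, mul_add, add_mul,
      Cent.siteOp_add]
  conv_lhs => rw [show a = ∑ p, ∑ q, a p q • Matrix.single p q (1 : ℂ) by
    ext i j; fin_cases i <;> fin_cases j <;> simp [Fin.sum_univ_two]]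
  simp only [Fin.sum_univ_two, ha, hs, siteUnit]

/-- A pointwise operator is determined on any shifted piece of the half line. -/
theorem const_shift_inj {x y : H →L[ℂ] H} (s : ℝ)
    (h : const x * (halfLine * shift s * halfLine) = const y * (halfLine * shift s * halfLine)) :
    x = y := by
  refine ContinuousLinearMap.ext fun u => sub_eq_zero.1 (norm_eq_zero.1 ?_)
  set a := min 0 (-s)
  have ha : a ≤ 0 := min_le_left _ _
  have hb : a + s ≤ 0 := by linarith [min_le_right (0 : ℝ) (-s)]
  have h1 := congrArg (fun A : CoreH H →L[ℂ] CoreH H => A (ivec (a - 1) a u)) h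
  simp only [mul_apply_eq_comp, halfLine_ivec, shift_ivec, const_ivec, min_eq_left ha,
    min_eq_left hb] at h1
  have e : ivec (a - 1 + s) (a + s) (x u - y u) = (0 : CoreH H) := by
    have := ivec_add (a - 1 + s) (a + s) (x u - y u) (y u)
    rw [sub_add_cancel, h1] at this
    exact right_eq_add.1 this
  have h2 := norm_ivec_sq (show a - 1 + s ≤ a + s by linarith) (x u - y u)
  rw [e, norm_zero] at h2
  simpa [show a + s - (a - 1 + s) = 1 by ring] using h2.symm

theorem halfLine_idem : halfLine * halfLine = halfLine (H := H) := by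
  refine op_ext fun a b u => ?_
  simp only [mul_apply_eq_comp, halfLine_ivec]
  rw [min_assoc, min_self]

/-- Commuting on the half line with a shifted pointwise operator. -/
theorem comm_of_corner {z x : H →L[ℂ] H} (s : ℝ)
    (h : const z * halfLine * (const x * (halfLine * shift s * halfLine))
      = const x * (halfLine * shift s * halfLine) * (const z * halfLine)) : z * x = x * z := by
  refine const_shift_inj s ?_
  set Q := halfLine * shift s * halfLine (H := H) with hQ
  have hl : halfLine * Q = Q := by rw [hQ, ← mul_assoc, ← mul_assoc, halfLine_idem]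
  have hr : Q * halfLine = Q := by rw [hQ, mul_assoc, halfLine_idem]
  have h1 : halfLine * const x = const x * halfLine := (const_halfLine x).eq.symm
  have h2 : Q * const z = const z * Q :=
    (((const_halfLine z).mul_right (const_shift z _)).mul_right (const_halfLine z)).eq.symm
  calc const (z * x) * Q = const z * (const x * (halfLine * Q)) := by
        rw [hl, ← const_mul, mul_assoc]
    _ = const z * halfLine * (const x * Q) := by
        rw [← mul_assoc (const x), ← h1]; simp only [mul_assoc]
    _ = const x * Q * (const z * halfLine) := h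
    _ = const x * ((Q * const z) * halfLine) := by simp only [mul_assoc]
    _ = const (x * z) * Q := by rw [h2, mul_assoc (const z), hr, ← mul_assoc, const_mul]

theorem exists_family {a b : ℝ} (hab : a < b) :
    ∃ i : ℕ, a < -(2 * Real.log (Cent.famW i 0 / Cent.famW i 1)) ∧
      -(2 * Real.log (Cent.famW i 0 / Cent.famW i 1)) < b := by
  set c := (a + b) / 2 with hc
  have hcont : ContinuousAt (fun x => 2 * Real.log x) (Real.exp (c / 2)) :=
    (Real.continuousAt_log (Real.exp_pos _).ne').const_mul 2
  obtain ⟨ε, hε, hball⟩ := Metric.continuousAt_iff.1 hcont ((b - a) / 2) (by linarith)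
  obtain ⟨i, hi⟩ := Cent.famW_levels (Real.exp (c / 2)) (Real.exp_pos _) ε hε
  have h := hball (show dist (Cent.famW i 1 / Cent.famW i 0) (Real.exp (c / 2)) < ε by
    rw [Real.dist_eq]; exact hi)
  rw [Real.dist_eq, Real.log_exp, abs_lt] at h
  refine ⟨i, ?_⟩
  rw [show Cent.famW i 0 / Cent.famW i 1 = (Cent.famW i 1 / Cent.famW i 0)⁻¹ by rw [inv_div],
    Real.log_inv]
  constructor <;> linarith [h.1, h.2]

/-- Far sites: commuting with the shifted units of one family gives commuting with the shift. -/
theorem shift_of_sites {T : CoreH (AmbH H) →L[ℂ] CoreH (AmbH H)}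
    (hrsite : ∀ n a, T * const (rsite n a) = const (rsite n a) * T) (i : ℕ)
    (S : CoreH (AmbH H) →L[ℂ] CoreH (AmbH H))
    (hS : ∀ x : AmbH H →L[ℂ] AmbH H, Commute (const x) S)
    (hl : ∀ j, T * (const (lsite (Nat.pair i j) (Matrix.single 0 1 (1 : ℂ))) * S)
      = const (lsite (Nat.pair i j) (Matrix.single 0 1 (1 : ℂ))) * S * T) :
    T * S = S * T := by
  refine ContinuousLinearMap.ext fun ψ => sub_eq_zero.1 ?_
  set κ : ℂ := ((Cent.famW i 0 / Cent.famW i 1 : ℝ) : ℂ) with hκ
  set e := fun j => lsite (H := H) (Nat.pair i j) (Matrix.single 0 1 (1 : ℂ)) with he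
  set r := fun j => rsite (H := H) (Nat.pair i j) (Matrix.single 1 0 (1 : ℂ)) with hr
  set D := fun j => κ • e j - r j with hD
  set φ := (T * S) ψ - (S * T) ψ
  have hκ0 : 0 ≤ Cent.famW i 0 / Cent.famW i 1 :=
    (div_pos (Cent.famW_pos i 0) (Cent.famW_pos i 1)).le
  have hDb : ∀ j v, ‖D j v‖ ≤ (Cent.famW i 0 / Cent.famW i 1 + 1) * ‖v‖ := fun j v => by
    rw [hD]
    simp only [sub_apply, smul_apply, add_one_mul]
    refine (norm_sub_le _ _).trans (add_le_add ?_ (rsite_unit_le _ v))
    rw [norm_smul, hκ, Complex.norm_real, Real.norm_of_nonneg hκ0]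
    exact mul_le_mul_of_nonneg_left (lsite_unit_le _ v) hκ0
  have hDlim : ∀ χ : CoreH (AmbH H), Tendsto (fun j => const (D j) χ) atTop (𝓝 0) := fun χ => by
    rw [tendsto_zero_iff_norm_tendsto_zero]
    have := tendsto_norm_const hDb le_rfl (fun v => by
      rw [zero_mul]; exact tendsto_norm_sub (H := H) i v) χ
    simpa using this
  have heq : ∀ j, const (r j) φ = const (D j) ((S * T) ψ) - T (const (D j) (S ψ)) := fun j => by
    have h1 : const (r j) * (T * S - S * T)
        = const (D j) * (S * T) - T * (const (D j) * S) := by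
      have h2 : const (r j) * T = T * const (r j) := (hrsite _ _).symm
      have h3 : κ • (T * (const (e j) * S)) = κ • (const (e j) * S * T) := by rw [hl j]
      simp only [hD, const_sub, const_smul, mul_sub, sub_mul, smul_mul_assoc, mul_smul_comm]
      rw [← mul_assoc, h2, h3, mul_assoc T, mul_assoc (const (e j))]
      abel
    have h4 := congrArg (fun A : CoreH (AmbH H) →L[ℂ] CoreH (AmbH H) => A ψ) h1
    show const (r j) ((T * S) ψ - (S * T) ψ) = _
    simpa only [mul_apply_eq_comp, sub_apply] using h4
  have h5 : Tendsto (fun j => ‖const (r j) φ‖) atTop (𝓝 0) := by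
    simp only [heq]
    simpa using ((hDlim _).sub ((T.continuous.tendsto _).comp (hDlim _))).norm
  have h6 := tendsto_norm_const (B := 1) (c := Cent.famW i 0)
    (A := r) (fun j v => by rw [one_mul]; exact rsite_unit_le _ v) (Cent.famW_pos i 0).le
    (fun v => tendsto_norm_rsite i v) φ
  have h7 := tendsto_nhds_unique h6 h5
  exact norm_eq_zero.1 ((mul_eq_zero.1 h7).resolve_left (Cent.famW_pos i 0).ne')

/-- In the half line corner of the core, what commutes with the compressed fixed operators is
central. -/
theorem exists_central (P : Pinned M ξ) {V : ℝ → AmbH H →L[ℂ] AmbH H}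
    (hsites : ∀ x : AmbH H →L[ℂ] AmbH H, x ∈ amb M →
      (∀ n a, x * lsite n a = lsite n a * x) → ∃ x₀ ∈ M, x = ten x₀)
    {T : CoreH (AmbH H) →L[ℂ] CoreH (AmbH H)} (hT : T ∈ core (amb M) V)
    (hl : halfLine * T = T) (hr : T * halfLine = T)
    (hA : ∀ a ∈ fixSet P, T * (halfLine * a * halfLine) = halfLine * a * halfLine * T) :
    ∃ z, z ∈ amb M ∧ z ∈ (amb M).commutant ∧ T = const z * halfLine := by
  have hpp : halfLine * halfLine = halfLine (H := AmbH H) := by
    refine op_ext fun a b u => ?_
    simp only [mul_apply_eq_comp, halfLine_ivec]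
    rw [min_assoc, min_self]
  have hpph : ∀ t, halfLine * phase t = phase t * halfLine (H := AmbH H) := fun t =>
    (mulFn_comm _ _ _ _ _ _ _ _).eq
  have hph : ∀ t, T * phase t = phase t * T := fun t => by
    have h := hA _ (Or.inl (Or.inr ⟨t, rfl⟩))
    rw [hpph, mul_assoc, hpp, ← mul_assoc, mul_assoc (phase t), hl] at h
    rwa [mul_assoc, ← hpph, ← mul_assoc, hr] at h
  have hrs : ∀ n a, T * const (rsite n a) = const (rsite n a) * T := fun n a =>
    core_comm_const hT (rsite_mem_comm n a)
  have hTshift : ∀ a b : ℝ, a < b → b ≤ 0 →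
      ∃ s, a < s ∧ s < b ∧ T * shift s * halfLine = shift s * T := by
    intro a b hab hb
    obtain ⟨i, h1, h2⟩ := exists_family hab
    set s := -(2 * Real.log (Cent.famW i 0 / Cent.famW i 1)) with hs
    refine ⟨s, h1, h2, ?_⟩
    have hc := shift_of_sites hrs i (shift s * halfLine)
      (fun x => (const_shift x s).mul_right (const_halfLine x)) fun j => by
        have h := hA _ (Or.inr ⟨(Nat.pair i j, 0, 1), rfl⟩)
        have e : halfLine * coreUnit (H := H) (Nat.pair i j) 0 1 * halfLine
            = const (lsite (Nat.pair i j) (Matrix.single 0 1 (1 : ℂ))) * (shift s * halfLine) := by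
          rw [coreUnit, show -unitLevel (Nat.pair i j) 0 1 = s by
            simp [unitLevel, siteGap, siteW_pair, hs]]
          rw [← mul_assoc halfLine, ← (const_halfLine _).eq, siteUnit, mul_assoc, mul_assoc,
            ← mul_assoc halfLine, halfLine_shift_halfLine (h2.le.trans hb)]
        rwa [e] at h
    rw [mul_assoc, hc, mul_assoc, hl]
  obtain ⟨z, hzT⟩ : ∃ z, T = const z * halfLine :=
    ⟨unitSlice T, eq_const_halfLine hr hph hTshift⟩
  have hp0 : halfLine (H := AmbH H) * shift 0 * halfLine = halfLine := by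
    rw [shift_zero, mul_one, hpp]
  have hz : z ∈ amb M := by
    rw [← VonNeumannAlgebra.commutant_commutant (amb M), VonNeumannAlgebra.mem_commutant_iff]
    intro y hy
    refine (comm_of_corner 0 ?_).symm
    rw [hp0, ← hzT, ← mul_assoc T, core_comm_const hT hy, mul_assoc, hr, mul_assoc, hl]
  have hunit : ∀ n p q, z * siteUnit n p q = siteUnit n p q * z := fun n p q => by
    refine comm_of_corner (-unitLevel n p q) ?_
    rw [← hzT]
    have h := hA _ (Or.inr ⟨(n, p, q), rfl⟩)
    have e1 : halfLine * coreUnit (H := H) n p q * halfLine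
        = const (siteUnit n p q) * (halfLine * shift (-unitLevel n p q) * halfLine) := by
      rw [coreUnit, ← mul_assoc halfLine, ← (const_halfLine _).eq, mul_assoc, mul_assoc,
        mul_assoc halfLine]
    rwa [e1] at h
  obtain ⟨x₀, hx₀, hzx⟩ := hsites z hz fun n a => by
    rw [lsite_eq_sum, Finset.mul_sum, Finset.sum_mul]
    refine Finset.sum_congr rfl fun p _ => ?_
    rw [Finset.mul_sum, Finset.sum_mul]
    refine Finset.sum_congr rfl fun q _ => ?_
    rw [mul_smul_comm, smul_mul_assoc, hunit]
  have hgx : ∀ g ∈ P.Γ.carrier, x₀ * g = g * x₀ := fun g hg => by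
    refine ten_injective ?_
    rw [← Cent.ten_mul, ← Cent.ten_mul, ← hzx]
    refine comm_of_corner 0 ?_
    rw [hp0, ← hzT]
    have h := hA _ (Or.inl (Or.inl ⟨g, hg, rfl⟩))
    have e : halfLine * const (ten g) * halfLine = const (ten g) * halfLine := by
      rw [← (const_halfLine (ten g)).eq, mul_assoc, halfLine_idem]
    rwa [e] at h
  obtain ⟨z₀, -, hz₀', hlim⟩ := P.central x₀ hx₀
  have hx : x₀ = z₀ := ContinuousLinearMap.ext fun v => by
    refine tendsto_nhds_unique ?_ (hlim v)
    have e : ∀ m, Full.Reduce.avg P.Γ m (fun g => g * x₀ * star g) = x₀ := fun m => by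
      rw [Full.Reduce.avg_congr (f' := fun _ => x₀) (fun g hg => by
        rw [← hgx g ⟨m, hg⟩, mul_assoc,
          Unitary.mul_star_self_of_mem (P.Γ.mem_unitary m g hg), mul_one]),
        Full.Reduce.avg_const]
    simp only [e]
    exact tendsto_const_nhds
  exact ⟨z, hz, hzx ▸ ten_mem_comm (hx ▸ hz₀'), hzT⟩

end Vale.Agent.P096.Three.Core
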