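import Vale.Agent.P096.Three.Core.Basic

/-!
P096, cores: the flow of the stabilised algebra on the sites; the shifted matrix units lie in the
core; the shifts normalise every core.
-/

open scoped InnerProductSpace Matrix
open MeasureTheory

namespace Vale.Agent.P096.Three

variable {H : Type} [NormedAddCommGroup H] [InnerProductSpace ℂ H] [CompleteSpace H]

/-! ### The stabilised algebra -/

theorem siteW_sq (n : ℕ) : siteW n 0 ^ 2 + siteW n 1 ^ 2 = 1 := Cent.famW_sq _

theorem mem_amb (M : VonNeumannAlgebra H) (X : AmbH H →L[ℂ] AmbH H) :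
    X ∈ amb M ↔ (∀ y ∈ M.commutant, X * ten y = ten y * X) ∧
      ∀ n b, X * rsite n b = rsite n b * X := by
  change X ∈ StarSubalgebra.centralizer ℂ _ ↔ _
  rw [StarSubalgebra.mem_centralizer_iff]
  constructor
  · intro h
    exact ⟨fun y hy => ((h _ (Or.inl ⟨y, hy, rfl⟩)).1).symm,
      fun n b => ((h _ (Or.inr ⟨(n, b), rfl⟩)).1).symm⟩
  · rintro ⟨h1, h2⟩ g (⟨y, hy, rfl⟩ | ⟨⟨n, b⟩, rfl⟩)
    · exact ⟨(h1 y hy).symm, by rw [Cent.star_ten]; exact (h1 _ (star_mem hy)).symm⟩
    · exact ⟨(h2 n b).symm, by rw [Cent.star_rightSite]; exact (h2 n _).symm⟩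

theorem lsite_mem_amb (M : VonNeumannAlgebra H) (n : ℕ) (a : Matrix (Fin 2) (Fin 2) ℂ) :
    lsite n a ∈ amb M :=
  (mem_amb M _).2 ⟨fun y _ => ((Cent.ten_siteOp y n _).eq).symm,
    fun m b => (Cent.leftSite_rightSite siteW_sq n m a b).eq⟩

theorem ten_mem_amb {M : VonNeumannAlgebra H} {x : H →L[ℂ] H} (hx : x ∈ M) : ten x ∈ amb M :=
  (mem_amb M _).2 ⟨fun y hy => by
      rw [Cent.ten_mul, Cent.ten_mul, VonNeumannAlgebra.mem_commutant_iff.1 hy x hx],
    fun n b => (Cent.ten_siteOp x n _).eq⟩

/-! ### Levels and the flow -/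

theorem siteLevel_zero (n : ℕ) : siteLevel n 0 = 0 := by simp [siteLevel]

theorem level_update (i : Idx) (n : ℕ) (k : Fin 4) :
    level (i.update n k) = level i - siteLevel n (i n) + siteLevel n k := by
  classical
  have key : ∀ j : Idx, (∀ m, m ∉ insert n i.support → j m = 0) →
      level j = siteLevel n (j n) + ∑ m ∈ (insert n i.support).erase n, siteLevel m (j m) := by
    intro j hj
    rw [Finset.add_sum_erase (insert n i.support) (fun m => siteLevel m (j m))
      (Finset.mem_insert_self _ _)]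
    refine Finset.sum_subset (fun m hm => ?_) fun m _ hm => ?_
    · by_contra h
      exact Finsupp.mem_support_iff.1 hm (hj m h)
    · rw [Finsupp.notMem_support_iff.1 hm, siteLevel_zero]
  rw [key i fun m hm => ?_, key (i.update n k) fun m hm => ?_]
  · rw [Finset.sum_congr rfl fun m hm => show siteLevel m (i.update n k m) = siteLevel m (i m) by
      rw [Finsupp.update_apply, if_neg (Finset.ne_of_mem_erase hm)]]
    rw [Finsupp.update_apply, if_pos rfl]
    ring
  · rw [Finset.mem_insert, not_or] at hm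
    rw [Finsupp.update_apply, if_neg hm.1, Finsupp.notMem_support_iff.1 hm.2]
  · rw [Finset.mem_insert, not_or] at hm
    exact Finsupp.notMem_support_iff.1 hm.2

theorem ambU_apply (U : ℝ → H →L[ℂ] H) (t : ℝ) (f : AmbH H) (i : Idx) :
    ambU U t f i = Complex.exp (((t * level i : ℝ) : ℂ) * Complex.I) • U t (f i) := rfl

theorem ambU_zero {U : ℝ → H →L[ℂ] H} (h0 : U 0 = 1) : ambU U 0 = 1 := by
  refine ContinuousLinearMap.ext fun f => lp.ext (funext fun i => ?_)
  simp [ambU_apply, h0]

theorem ambU_add {U : ℝ → H →L[ℂ] H} (hadd : ∀ s t, U (s + t) = U s * U t) (s t : ℝ) :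
    ambU U (s + t) = ambU U s * ambU U t := by
  refine ContinuousLinearMap.ext fun f => lp.ext (funext fun i => ?_)
  simp only [mul_apply_eq_comp, ambU_apply, hadd, map_smul, smul_smul, ← Complex.exp_add]
  congr 2
  push_cast
  ring

theorem star_ambU {U : ℝ → H →L[ℂ] H} (hst : ∀ t, star (U t) = U (-t)) (t : ℝ) :
    star (ambU U t) = ambU U (-t) := by
  rw [ambU, star_mul, Cent.star_ten, Cent.star_diagOp, hst]
  refine ContinuousLinearMap.ext fun f => lp.ext (funext fun i => ?_)
  rw [ambU_apply, mul_apply_eq_comp, Cent.ten_apply, Cent.diagOp_apply, map_smul,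
    ← Complex.exp_conj]
  simp

theorem ambU_ten {U : ℝ → H →L[ℂ] H} {x : H →L[ℂ] H} {t : ℝ} (h : U t * x = x * U t) :
    Commute (ambU U t) (ten x) := by
  refine ContinuousLinearMap.ext fun f => lp.ext (funext fun i => ?_)
  simp only [mul_apply_eq_comp, ambU_apply, Cent.ten_apply, map_smul]
  rw [← mul_apply_eq_comp (U t) x, h, mul_apply_eq_comp]

/-- A site matrix carrying the level `q` is an eigenvector of the flow. -/
theorem ambU_siteOp {n : ℕ} {A : Matrix (Fin 4) (Fin 4) ℂ} {q : ℝ}
    (hA : ∀ j k, A j k ≠ 0 → siteLevel n j - siteLevel n k = q) (U : ℝ → H →L[ℂ] H) (t : ℝ) :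
    ambU U t * Cent.siteOp n A =
      Complex.exp (((t * q : ℝ) : ℂ) * Complex.I) • (Cent.siteOp n A * ambU U t) := by
  refine ContinuousLinearMap.ext fun f => lp.ext (funext fun i => ?_)
  simp only [mul_apply_eq_comp, smul_apply, lp.coeFn_smul, Pi.smul_apply,
    ambU_apply, Cent.siteOp_apply, map_sum, map_smul, Finset.smul_sum, smul_smul]
  refine Finset.sum_congr rfl fun k _ => ?_
  congr 1
  rcases eq_or_ne (A (i n) k) 0 with h | h
  · simp [h]
  · rw [level_update, ← hA _ _ h, mul_left_comm, ← Complex.exp_add, mul_comm _ (A (i n) k)]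
    congr 2
    push_cast
    ring

theorem ambU_siteUnit (U : ℝ → H →L[ℂ] H) (t : ℝ) (n : ℕ) (a b : Fin 2) :
    ambU U t * Core.siteUnit n a b =
      Complex.exp (((t * Core.unitLevel n a b : ℝ) : ℂ) * Complex.I) •
        (Core.siteUnit n a b * ambU U t) := by
  refine ambU_siteOp (fun j k h => ?_) U t
  fin_cases a <;> fin_cases b <;> fin_cases j <;> fin_cases k <;>
    simp [Core.unitLevel, siteLevel, Cent.siteBasis, Cent.leftMat, Matrix.mul_apply,
      Fin.sum_univ_four] at h ⊢

namespace Core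

variable {M : VonNeumannAlgebra H} {U : ℝ → H →L[ℂ] H}

/-! ### Elements of the core -/

theorem const_mem_core (hst : ∀ t, star (U t) = U (-t)) {x : H →L[ℂ] H} (hx : x ∈ M)
    (hU : ∀ t, U t * x = x * U t) : const x ∈ core M U := by
  refine (mem_core hst M _).2 ⟨fun y hy => ?_, fun t => ?_⟩
  · rw [const_mul, const_mul, VonNeumannAlgebra.mem_commutant_iff.1 hy x hx]
  · rw [coreU, ← mul_assoc, const_mul, ← hU t, ← const_mul, mul_assoc, (const_phase x t).eq,
      ← mul_assoc]

theorem mulFn_mem_core (hst : ∀ t, star (U t) = U (-t)) (f : ℝ → ℂ) (hf : Measurable f) (K : ℝ)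
    (hK : ∀ d, ‖f d‖ ≤ K) : mulFn f hf K hK ∈ core M U := by
  refine (mem_core hst M _).2 ⟨fun y _ => (const_mulFn y f hf K hK).eq.symm, fun t => ?_⟩
  rw [coreU, ← mul_assoc, ← (const_mulFn (U t) f hf K hK).eq, mul_assoc, phase,
    (mulFn_comm f _ hf _ K 1 hK _).eq, ← mul_assoc]

theorem phase_mem_core (hst : ∀ t, star (U t) = U (-t)) (s : ℝ) : phase s ∈ core M U :=
  mulFn_mem_core hst _ _ _ _

theorem halfLine_mem_core (hst : ∀ t, star (U t) = U (-t)) : halfLine (H := H) ∈ core M U :=
  mulFn_mem_core hst _ _ _ _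

omit [CompleteSpace H] in
/-- An eigenvector of the flow, shifted back by its level, commutes with the flow of the core. -/
theorem const_shift_coreU {x : H →L[ℂ] H} {q t : ℝ}
    (h : U t * x = Complex.exp (((t * q : ℝ) : ℂ) * Complex.I) • (x * U t)) :
    Commute (const x * shift (-q)) (coreU U t) := by
  rw [commute_iff_eq, coreU]
  calc const x * shift (-q) * (const (U t) * phase t)
      = const (x * U t) * (shift (-q) * phase t) := by
        rw [mul_assoc, ← mul_assoc (shift _) (const _), ← (const_shift (U t) _).eq, mul_assoc,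
          ← mul_assoc (const _) (const _), const_mul]
    _ = const (U t * x) * (phase t * shift (-q)) := by
        rw [h, shift_phase, const_smul, mul_smul_comm, smul_mul_assoc]
        congr 3
        push_cast
        ring
    _ = const (U t) * phase t * (const x * shift (-q)) := by
        rw [← const_mul]
        simp only [mul_assoc]
        rw [← mul_assoc (phase t) (const _), ← (const_phase x t).eq, mul_assoc]

theorem const_shift_mem_core (hst : ∀ t, star (U t) = U (-t)) {x : H →L[ℂ] H} (hx : x ∈ M) {q : ℝ}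
    (h : ∀ t, U t * x = Complex.exp (((t * q : ℝ) : ℂ) * Complex.I) • (x * U t)) :
    const x * shift (-q) ∈ core M U := by
  refine (mem_core hst M _).2 ⟨fun y hy => ?_, fun t => (const_shift_coreU (h t)).eq⟩
  rw [mul_assoc, ← (const_shift y _).eq, ← mul_assoc, const_mul, ← mul_assoc, const_mul,
    VonNeumannAlgebra.mem_commutant_iff.1 hy x hx]

theorem coreUnit_coreU (n : ℕ) (a b : Fin 2) (U : ℝ → H →L[ℂ] H) (t : ℝ) :
    Commute (coreUnit (H := H) n a b) (coreU (H := AmbH H) (ambU U) t) :=
  const_shift_coreU (H := AmbH H) (x := siteUnit n a b) (q := unitLevel n a b) (U := ambU U)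
    (t := t) (ambU_siteUnit U t n a b)

theorem coreUnit_mem_core (hst : ∀ t, star (U t) = U (-t)) (n : ℕ) (a b : Fin 2) :
    coreUnit n a b ∈ core (amb M) (ambU U) :=
  const_shift_mem_core (H := AmbH H) (M := amb M) (U := ambU U) (x := siteUnit n a b)
    (q := unitLevel n a b) (star_ambU hst) (lsite_mem_amb M n _) fun t => ambU_siteUnit U t n a b

theorem const_ten_mem_core (hst : ∀ t, star (U t) = U (-t)) {g : H →L[ℂ] H} (hg : g ∈ M)
    (hU : ∀ t, U t * g = g * U t) : const (ten g) ∈ core (amb M) (ambU U) :=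
  const_mem_core (star_ambU hst) (ten_mem_amb hg) fun t => (ambU_ten (hU t)).eq

theorem fixSet_subset_core {ξ : H} (P : Pinned M ξ) (hst : ∀ t, star (U t) = U (-t))
    (hU : ∀ g ∈ P.Γ.carrier, ∀ t, U t * g = g * U t) :
    fixSet P ⊆ (core (amb M) (ambU U) : Set (CoreH (AmbH H) →L[ℂ] CoreH (AmbH H))) := by
  rintro X ((⟨g, hg, rfl⟩ | ⟨t, rfl⟩) | ⟨⟨n, a, b⟩, rfl⟩)
  · exact const_ten_mem_core hst (P.memM g hg) (hU g hg)
  · exact phase_mem_core (star_ambU hst) t
  · exact coreUnit_mem_core hst n a b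

/-! ### The shifts normalise every core -/

omit [CompleteSpace H] in
theorem shift_coreU (U : ℝ → H →L[ℂ] H) (s t : ℝ) :
    shift s * coreU U t =
      Complex.exp (((-(t * s) : ℝ) : ℂ) * Complex.I) • (coreU U t * shift s) := by
  rw [coreU, ← mul_assoc, ← (const_shift (U t) s).eq, mul_assoc, shift_phase, mul_smul_comm,
    mul_assoc]

theorem shift_conj_mem_core (hst : ∀ t, star (U t) = U (-t)) (s : ℝ)
    {X : CoreH H →L[ℂ] CoreH H} (hX : X ∈ core M U) :
    shift s * X * shift (-s) ∈ core M U := by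
  obtain ⟨h1, h2⟩ := (mem_core hst M X).1 hX
  refine (mem_core hst M _).2 ⟨fun y hy => ?_, fun t => ?_⟩
  · rw [mul_assoc, ← (const_shift y (-s)).eq, ← mul_assoc, mul_assoc (shift s), h1 y hy,
      ← mul_assoc, ← (const_shift y s).eq]
    simp only [mul_assoc]
  · calc shift s * X * shift (-s) * coreU U t
        = Complex.exp (((t * s : ℝ) : ℂ) * Complex.I) •
            (shift s * coreU U t * X * shift (-s)) := by
          rw [mul_assoc, shift_coreU, mul_smul_comm, ← mul_assoc, mul_assoc (shift s), h2,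
            ← mul_assoc]
          congr 3
          push_cast
          ring
      _ = coreU U t * (shift s * X * shift (-s)) := by
          rw [shift_coreU, smul_mul_assoc, smul_mul_assoc, smul_smul, ← Complex.exp_add]
          simp [mul_assoc]

theorem shift_conj_mem_core_iff (hst : ∀ t, star (U t) = U (-t)) (s : ℝ)
    (X : CoreH H →L[ℂ] CoreH H) : shift s * X * shift (-s) ∈ core M U ↔ X ∈ core M U := by
  refine ⟨fun h => ?_, shift_conj_mem_core hst s⟩
  have h' := shift_conj_mem_core hst (-s) h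
  rwa [neg_neg, ← mul_assoc, ← mul_assoc, ← shift_add, neg_add_cancel, shift_zero, one_mul,
    mul_assoc, ← shift_add, neg_add_cancel, shift_zero, mul_one] at h'

end Core

end Vale.Agent.P096.Three
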