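import Vale.Agent.P096.Three.Core.Relative
import Vale.Agent.P096.Three.Core.Shift

/-!
P096, cores: the shifted units move the half line to a total set.  An operator killing all of them
kills, through the far diagonal units of a family, every half line `d ≤ s`.
-/

open scoped InnerProductSpace
open Filter Topology MeasureTheory

namespace Vale.Agent.P096.Three.Core

variable {H : Type} [NormedAddCommGroup H] [InnerProductSpace ℂ H] [CompleteSpace H]

theorem lsite_diag_le (n : ℕ) (v : AmbH H) :
    ‖lsite n (Matrix.single 0 0 (1 : ℂ)) v‖ ≤ ‖v‖ := by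
  refine apply_le_one ?_ v
  show star (Cent.leftSite (H := H) (siteW n) n _) * Cent.leftSite (siteW n) n _
    * (star (Cent.leftSite (H := H) (siteW n) n _) * Cent.leftSite (siteW n) n _) = _
  rw [Cent.star_leftSite, Cent.leftSite_mul (siteW_sq _), Cent.leftSite_mul (siteW_sq _)]
  congr 1
  ext i j; fin_cases i <;> fin_cases j <;> simp [Matrix.mul_apply, Fin.sum_univ_two]

/-- The diagonal left unit of far sites multiplies norms by its weight. -/
theorem tendsto_norm_lsite (i : ℕ) (v : AmbH H) :
    Tendsto (fun j => ‖lsite (Nat.pair i j) (Matrix.single 0 0 (1 : ℂ)) v‖) atTop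
      (𝓝 (Cent.famW i 0 * ‖v‖)) := by
  refine tendsto_norm_of_dense (B := 1) (fun j z => by rw [one_mul]; exact lsite_diag_le _ z)
    zero_le_one (Cent.famW_pos i 0).le Cent.dense_locVecs (fun z hz => ?_) v
  refine tendsto_nhds_of_eventually_eq (((tendsto_pair i).eventually hz).mono fun j hj => ?_)
  set n := Nat.pair i j
  set x := lsite (H := H) n (Matrix.single 0 0 (1 : ℂ)) with hx
  have e : star x * x = Cent.siteOp n (Cent.siteBasis (Cent.famW i)
      * Cent.leftMat (Matrix.single 0 0 1) * Cent.siteBasis (Cent.famW i)) := by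
    show star (Cent.leftSite (H := H) (siteW n) n _) * Cent.leftSite (siteW n) n _ = _
    rw [Cent.star_leftSite, Cent.leftSite_mul (siteW_sq _), Cent.leftSite, siteW_pair]
    congr 4
    ext p q; fin_cases p <;> fin_cases q <;> simp [Matrix.mul_apply, Fin.sum_univ_two]
  have h1 : ((‖x z‖ : ℂ)) ^ 2 = ((Cent.famW i 0 * ‖z‖ : ℝ) : ℂ) ^ 2 := by
    refine (inner_self_eq_norm_sq_to_K (𝕜 := ℂ) (x z)).symm.trans ?_
    rw [← ContinuousLinearMap.adjoint_inner_right, ← ContinuousLinearMap.star_eq_adjoint,
      ← mul_apply_eq_comp, e, Cent.inner_siteOp_atRest hj, inner_self_eq_norm_sq_to_K,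
      Complex.ofReal_mul, mul_pow]
    refine congrArg (· * ((‖z‖ : ℂ)) ^ 2) ?_
    simp [Cent.leftMat, Cent.siteBasis, Matrix.mul_apply, Fin.sum_univ_four, sq]
  exact (pow_left_inj₀ (norm_nonneg _) (mul_nonneg (Cent.famW_pos i 0).le (norm_nonneg _))
    two_ne_zero).1 (by exact_mod_cast h1)

theorem eq_zero_of_coreUnit {T : CoreH (AmbH H) →L[ℂ] CoreH (AmbH H)}
    (h : ∀ n p q, T * coreUnit n p q * halfLine = 0) : T = 0 := by
  refine star_eq_zero.1 (ContinuousLinearMap.ext fun φ => eq_zero_of_ivec fun a b u => ?_)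
  obtain ⟨i, hi, -⟩ := exists_family (show max a b < max a b + 1 by linarith)
  set s := -(2 * Real.log (Cent.famW i 0 / Cent.famW i 1))
  have hbs : b ≤ s := (le_max_right a b).trans hi.le
  set Q := shift s * halfLine * shift (-s) (H := AmbH H) with hQ
  have hQiv : ∀ u, Q (ivec a b u) = ivec a b u := fun u => by
    rw [hQ]
    simp only [mul_apply_eq_comp, shift_ivec, halfLine_ivec]
    rw [min_eq_left (by linarith)]
    congr 1 <;> ring
  have hQs : star Q = Q := by
    have hp : star (halfLine (H := AmbH H)) = halfLine := by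
      rw [halfLine, star_mulFn]
      congr 1
      funext d
      by_cases hd : d ∈ Set.Iic (0 : ℝ) <;> simp [hd]
    rw [hQ, star_mul, star_mul, star_shift, star_shift, neg_neg, hp, mul_assoc]
  set ψ := star T φ with hψ
  have hT : ∀ j, T (const (lsite (Nat.pair i j) (Matrix.single 0 0 (1 : ℂ))) (Q (Q ψ))) = 0 := by
    intro j
    set n := Nat.pair i j
    have hz : T * (const (siteUnit n 0 1) * (shift s * halfLine)) = 0 := by
      rw [← h n 0 1, coreUnit, show -unitLevel n 0 1 = s by
        simp [unitLevel, siteGap, siteW_pair, n, s]]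
      simp only [mul_assoc]
    have e : const (lsite n (Matrix.single 0 0 (1 : ℂ))) * Q
        = const (siteUnit n 0 1) * (shift s * halfLine)
          * (shift (-s) * const (siteUnit (H := H) n 1 0)) := by
      have e2 : siteUnit (H := H) n 0 1 * siteUnit n 1 0 = lsite n (Matrix.single 0 0 1) := by
        show Cent.leftSite (siteW n) n _ * Cent.leftSite (siteW n) n _ = _
        rw [Cent.leftSite_mul (siteW_sq _), Matrix.single_mul_single_same, one_mul]
      have hc : Q * const (siteUnit (H := H) n 1 0) = const (siteUnit (H := H) n 1 0) * Q :=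
        (((const_shift _ s).mul_right (const_halfLine _)).mul_right
          (const_shift _ (-s))).eq.symm
      calc const (lsite n (Matrix.single 0 0 (1 : ℂ))) * Q
          = const (siteUnit n 0 1) * (const (siteUnit n 1 0) * Q) := by
            rw [← e2, ← const_mul, mul_assoc]
        _ = _ := by rw [← hc, hQ]; simp only [mul_assoc]
    have h0 := congrArg (fun A : CoreH (AmbH H) →L[ℂ] CoreH (AmbH H) => A (Q ψ))
      (show T * (const (lsite n (Matrix.single 0 0 (1 : ℂ))) * Q) = 0 by
        rw [e, ← mul_assoc T, hz, zero_mul])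
    simpa only [mul_apply_eq_comp, zero_apply] using h0
  have hzero : ∀ j, ‖const (lsite (Nat.pair i j) (Matrix.single 0 0 (1 : ℂ))) (Q ψ)‖ = 0 := by
    intro j
    set E := const (lsite (H := H) (Nat.pair i j) (Matrix.single 0 0 (1 : ℂ))) with hE
    have hEE : star E * E = E := by
      rw [hE, star_const, const_mul]
      congr 1
      show star (Cent.leftSite (H := H) (siteW _) _ _) * Cent.leftSite (siteW _) _ _ = _
      rw [Cent.star_leftSite, Cent.leftSite_mul (siteW_sq _)]
      congr 1
      ext p q; fin_cases p <;> fin_cases q <;> simp [Matrix.mul_apply, Fin.sum_univ_two]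
    have hEQ : E (Q ψ) = Q (E ψ) := by
      have hc : Q * E = E * Q := (((const_shift _ s).mul_right (const_halfLine _)).mul_right
          (const_shift _ (-s))).eq.symm
      rw [← mul_apply_eq_comp, ← hc, mul_apply_eq_comp]
    have h0 : ⟪ψ, E (Q (Q ψ))⟫_ℂ = 0 := by
      have hadj : ∀ z, ⟪ψ, z⟫_ℂ = ⟪φ, T z⟫_ℂ := fun z => by
        rw [hψ, ContinuousLinearMap.star_eq_adjoint, ContinuousLinearMap.adjoint_inner_left]
      rw [hadj, hT j, inner_zero_right]
    have h1 : ⟪E (Q ψ), E (Q ψ)⟫_ℂ = 0 := by
      have hx : star E (E (Q ψ)) = E (Q ψ) := by rw [← mul_apply_eq_comp (star E), hEE]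
      rw [← ContinuousLinearMap.adjoint_inner_right, ← ContinuousLinearMap.star_eq_adjoint, hx,
        ← ContinuousLinearMap.adjoint_inner_right Q, ← ContinuousLinearMap.star_eq_adjoint, hQs]
      have hc : ∀ z, Q (E z) = E (Q z) := fun z => by
        have hc : Q * E = E * Q := (((const_shift _ s).mul_right (const_halfLine _)).mul_right
          (const_shift _ (-s))).eq.symm
        rw [← mul_apply_eq_comp, hc, mul_apply_eq_comp]
      rw [hc]
      exact h0
    rw [inner_self_eq_zero] at h1
    rw [h1, norm_zero]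
  have h6 := tendsto_norm_const (B := 1) (c := Cent.famW i 0)
    (A := fun j => lsite (H := H) (Nat.pair i j) (Matrix.single 0 0 (1 : ℂ)))
    (fun j v => by rw [one_mul]; exact lsite_diag_le _ v) (Cent.famW_pos i 0).le
    (fun v => tendsto_norm_lsite i v) (Q ψ)
  simp only [hzero] at h6
  have h7 := (mul_eq_zero.1 (tendsto_nhds_unique tendsto_const_nhds h6).symm).resolve_left
    (Cent.famW_pos i 0).ne'
  show ⟪ivec a b u, ψ⟫_ℂ = 0
  rw [← hQiv u]
  conv_lhs => rw [← hQs, ContinuousLinearMap.star_eq_adjoint,
    ContinuousLinearMap.adjoint_inner_left, norm_eq_zero.1 h7]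
  exact inner_zero_right _

end Vale.Agent.P096.Three.Core
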