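import Vale.Agent.P096.Three.Core.Ivec

/-!
P096, cores: the trace vector of the half line, and the density of what the commutant of the core
makes of it.
-/

open scoped InnerProductSpace ComplexConjugate
open MeasureTheory Filter Topology Set

namespace Vale.Agent.P096.Three.Core

/-- The square root of the density of the trace on the half line. -/
noncomputable def halfFun (d : ℝ) : ℂ :=
  (Iic (0 : ℝ)).indicator (fun d => (Real.exp (d / 2) : ℂ)) d

theorem measurable_halfFun : Measurable halfFun :=
  (Complex.measurable_ofReal.comp (Real.measurable_exp.comp (measurable_id.div_const 2))).indicator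
    measurableSet_Iic

theorem memLp_halfFun : MemLp halfFun 2 (volume : Measure ℝ) := by
  refine (memLp_two_iff_integrable_sq_norm measurable_halfFun.aestronglyMeasurable).2 ?_
  have e : (fun d => ‖halfFun d‖ ^ 2) = (Iic (0 : ℝ)).indicator Real.exp := by
    funext d
    by_cases hd : d ∈ Iic (0 : ℝ)
    · rw [halfFun, indicator_of_mem hd, indicator_of_mem hd, Complex.norm_real,
        Real.norm_of_nonneg (Real.exp_pos _).le, sq, ← Real.exp_add]
      ring_nf
    · simp [halfFun, hd]
  rw [e, integrable_indicator_iff measurableSet_Iic]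
  exact integrableOn_exp_Iic 0

/-- The scalar part of the trace vector. -/
noncomputable def halfVec : Lp ℂ 2 (volume : Measure ℝ) := memLp_halfFun.toLp halfFun

variable {H : Type} [NormedAddCommGroup H] [InnerProductSpace ℂ H] [CompleteSpace H]

/-- The trace vector of the half line over `η`. -/
noncomputable def traceVec (η : H) : CoreH H := tensor halfVec η

omit [CompleteSpace H] in
theorem traceVec_apply (η : H) : ⇑(traceVec η) =ᵐ[volume] fun d => halfFun d • η := by
  filter_upwards [tensor_apply halfVec η, memLp_halfFun.coeFn_toLp] with d h1 h2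
  rw [traceVec, h1, halfVec, h2]

omit [CompleteSpace H] in
theorem halfLine_traceVec (η : H) : halfLine (traceVec η) = traceVec η := by
  refine Lp.ext ?_
  filter_upwards [halfLine_apply (traceVec η), traceVec_apply η] with d h1 h2
  rw [h1, h2, smul_smul]
  by_cases hd : d ∈ Iic (0 : ℝ) <;> simp [halfFun, hd]

/-- The commutant of the core moves the trace vector to a dense set of the half line. -/
theorem halfLine_mem_closure_commutant [TopologicalSpace.SeparableSpace H]
    (M : VonNeumannAlgebra H) {U : ℝ → H →L[ℂ] H} (hst : ∀ t, star (U t) = U (-t)) {η : H}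
    (hU : ∀ t, U t η = η) (hη : Dense {v : H | ∃ y ∈ M.commutant, y η = v}) (v : CoreH H) :
    halfLine v ∈ closure
      ((fun a : CoreH H →L[ℂ] CoreH H => a (traceVec η)) '' (core M U).commutant) := by
  set C' := (core M U).commutant with hC'
  set S : Submodule ℂ (CoreH H) := (C'.toStarSubalgebra.toSubalgebra.toSubmodule).map
    (ContinuousLinearMap.apply ℂ (CoreH H) (traceVec η)).toLinearMap with hS
  have hSset : (S : Set (CoreH H))
      = (fun a : CoreH H →L[ℂ] CoreH H => a (traceVec η)) '' C' := rfl
  rw [← hSset, ← Submodule.topologicalClosure_coe]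
  show halfLine v ∈ S.topologicalClosure
  rw [← Submodule.orthogonal_orthogonal_eq_closure, Submodule.mem_orthogonal]
  intro ψ hψ
  rw [Submodule.mem_orthogonal] at hψ
  suffices h : halfLine ψ = 0 by
    have hp : star (halfLine (H := H)) = halfLine := by
      rw [halfLine, star_mulFn]
      congr 1
      funext d
      by_cases hd : d ∈ Iic (0 : ℝ) <;> simp [hd]
    rw [← hp, ContinuousLinearMap.star_eq_adjoint, ContinuousLinearMap.adjoint_inner_right, h,
      inner_zero_left]
  have hgen : ∀ y ∈ M.commutant, const y ∈ C' ∧ ∀ t, coreU U t ∈ C' := fun y hy => by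
    refine ⟨?_, fun t => ?_⟩ <;> rw [hC', VonNeumannAlgebra.mem_commutant_iff] <;> intro X hX
    · exact ((mem_core hst M X).1 hX).1 y hy
    · exact ((mem_core hst M X).1 hX).2 t
  have hfour : ∀ y ∈ M.commutant,
      ∀ᵐ d : ℝ, halfFun d * ⟪ψ d, y η⟫_ℂ = 0 := by
    intro y hy
    have hin : Integrable fun d => ⟪ψ d, (const y (traceVec η) : CoreH H) d⟫_ℂ :=
      L2.integrable_inner _ _
    have he : (fun d => ⟪ψ d, (const y (traceVec η) : CoreH H) d⟫_ℂ)
        =ᵐ[volume] fun d => halfFun d * ⟪ψ d, y η⟫_ℂ := by
      filter_upwards [const_apply y (traceVec η), traceVec_apply η] with d h1 h2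
      rw [h1, h2, map_smul, inner_smul_right]
    refine ae_zero_of_fourier (hin.congr he) fun t => ?_
    have hmem : const y * coreU U t ∈ C' := mul_mem (hgen y hy).1 ((hgen y hy).2 t)
    have h0 : ⟪(const y * coreU U t) (traceVec η), ψ⟫_ℂ = 0 :=
      hψ _ ⟨_, hmem, rfl⟩
    rw [← inner_conj_symm, map_eq_zero] at h0
    rw [← h0, L2.inner_def]
    refine integral_congr_ae ?_
    filter_upwards [const_apply y (coreU U t (traceVec η)),
      const_apply (U t) (phase t (traceVec η)), phase_apply t (traceVec η),
      traceVec_apply η] with d h1 h2 h3 h4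
    rw [mul_apply_eq_comp, h1, coreU, mul_apply_eq_comp, h2, h3, h4, smul_smul, map_smul, hU,
      map_smul, inner_smul_right, mul_assoc]
  choose y hy hyd using fun p : ℕ × ℕ =>
    Metric.mem_closure_iff.1 (hη (TopologicalSpace.denseSeq H p.1)) (1 / (p.2 + 1))
      (by positivity)
  choose z hz hzy using hy
  have hall : ∀ᵐ d : ℝ, ∀ p, halfFun d * ⟪ψ d, z p η⟫_ℂ = 0 :=
    ae_all_iff.2 fun p => hfour _ (hz p)
  refine Lp.ext ?_
  filter_upwards [hall, halfLine_apply ψ, Lp.coeFn_zero H 2 (volume : Measure ℝ)] with d hd h1 h0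
  rw [h1, h0, Pi.zero_apply]
  by_cases hd0 : d ∈ Iic (0 : ℝ)
  swap; · rw [indicator_of_notMem hd0, zero_smul]
  have hk : halfFun d ≠ 0 := by
    rw [halfFun, indicator_of_mem hd0]
    exact Complex.ofReal_ne_zero.2 (Real.exp_pos _).ne'
  have hz0 : ∀ u : H, ⟪ψ d, u⟫_ℂ = 0 := by
    refine fun u => congrFun (Continuous.ext_on (TopologicalSpace.denseRange_denseSeq H)
      (g := fun _ => 0) (continuous_const.inner continuous_id) continuous_const ?_) u
    rintro _ ⟨n, rfl⟩
    show ⟪ψ d, TopologicalSpace.denseSeq H n⟫_ℂ = 0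
    have hlim : Tendsto (fun m : ℕ => z (n, m) η) atTop (𝓝 (TopologicalSpace.denseSeq H n)) := by
      rw [tendsto_iff_dist_tendsto_zero]
      refine squeeze_zero (fun m => dist_nonneg) (fun m => ?_)
        tendsto_one_div_add_atTop_nhds_zero_nat
      rw [hzy, dist_comm]
      exact (hyd (n, m)).le
    refine tendsto_nhds_unique (((continuous_const (y := ψ d)).inner continuous_id).tendsto _
      |>.comp hlim) (tendsto_const_nhds.congr fun m => ?_)
    exact ((mul_eq_zero.1 (hd (n, m))).resolve_left hk).symm
  rw [inner_self_eq_zero.1 (hz0 (ψ d)), smul_zero]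

end Vale.Agent.P096.Three.Core
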