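import Vale.Agent.P096.Three.Core.RigidOf
import Vale.Agent.P096.Three.Core.Total
import Vale.Agent.P096.Three.Core.TraceVec
import Vale.Agent.P096.Three.Amb.CommuteSites
import Vale.Agent.P096.Three.Amb.Data
import Vale.Agent.P096.Three.Spec
import Vale.Agent.P096.Cent.Separable

/-!
P096, cores: rigidity of the cores.
-/

open scoped InnerProductSpace
open Filter Topology
open TopologicalSpace (SeparableSpace)
open Vale.Agent.P132.TypeThree (StdData)
open Vale.Agent.P132.Tomita (conjBy)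

namespace Vale.Agent.P096.Three.Core

variable {H : Type} [NormedAddCommGroup H] [InnerProductSpace ℂ H] [CompleteSpace H]

theorem dense_commutant_of_std {M : VonNeumannAlgebra H} {η : H} {R : H →L[ℂ] H}
    {J : H ≃ₗᵢ⋆[ℂ] H} {U : ℝ → H →L[ℂ] H} (h : StdData M η R J U) :
    Dense {v : H | ∃ y ∈ M.commutant, y η = v} := by
  have hJ : Function.Surjective J := fun v => ⟨J v, h.mod.J_J v⟩
  refine (hJ.denseRange.dense_image J.continuous h.std.2.1).mono ?_
  rintro _ ⟨_, ⟨x, hx, rfl⟩, rfl⟩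
  exact ⟨conjBy J x, h.mod.conj_mem x hx, by simp [conjBy, h.mod.J_xi]⟩

/-- The trace property of the vector over a standard vector. -/
def TraceProp : Prop :=
  ∀ (H : Type) [NormedAddCommGroup H] [InnerProductSpace ℂ H] [CompleteSpace H] [SeparableSpace H]
    (M : VonNeumannAlgebra H) (η : H) (R : H →L[ℂ] H) (J : H ≃ₗᵢ⋆[ℂ] H) (U : ℝ → H →L[ℂ] H),
    StdData M η R J U → ∀ X ∈ core M U, halfLine * X = X → X * halfLine = X →
      ‖X (traceVec η)‖ = ‖star X (traceVec η)‖

theorem rigidSpec_of_trace (hT : TraceProp) : RigidSpec := by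
  refine ⟨1 / 4, by norm_num, ?_⟩
  intro H _ _ _ _ M ξ P R J U hd w hw hw1 hnorm hfix X hX
  obtain ⟨R₂, J₂, hd₂, -⟩ := Amb.data H M ξ R J U hd
  haveI : SeparableSpace (AmbH H) := Cent.separableSpace_amb
  exact rigid_of P hd (halfLine_traceVec (put0 ξ))
    (fun Y hY h1 h2 => hT (AmbH H) (amb M) (put0 ξ) R₂ J₂ (ambU U) hd₂ Y hY h1 h2)
    (halfLine_mem_closure_commutant (amb M) hd₂.mod.U_star hd₂.mod.U_xi
      (dense_commutant_of_std hd₂))
    (fun x hx hl => Amb.exists_of_commute_sites M hx hl)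
    (fun T hT0 => eq_zero_of_coreUnit hT0) hw hw1 (fun Y hY => (hnorm Y).1 hY) hfix hX

end Vale.Agent.P096.Three.Core
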