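import Vale.Agent.P096.Three.Core.Relative
import Vale.Agent.P096.Three.Core.Least
import Vale.Agent.P096.Three.Core.Shift
import Vale.Agent.P096.Three.Pins

/-!
P096, cores: rigidity from a trace vector of the half line corner.  A unitary near the identity
which normalises the core and commutes with the fixed operators is trivial on the corner, by the
least vector and the relative commutant, and hence on the core.
-/

open scoped InnerProductSpace
open Filter Topology MeasureTheory
open Vale.Agent.P132.TypeThree (StdData)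

namespace Vale.Agent.P096.Three.Core

variable {H : Type} [NormedAddCommGroup H] [InnerProductSpace ℂ H] [CompleteSpace H]

theorem isStarProjection_halfLine : IsStarProjection (halfLine (H := H)) := by
  refine ⟨halfLine_idem, ?_⟩
  rw [IsSelfAdjoint, halfLine, star_mulFn]
  congr 1
  funext d
  by_cases hd : d ∈ Set.Iic (0 : ℝ) <;> simp [hd]

variable {M : VonNeumannAlgebra H} {ξ : H} {R : H →L[ℂ] H} {J : H ≃ₗᵢ⋆[ℂ] H}
  {U : ℝ → H →L[ℂ] H}

/-- Rigidity from the trace vector `W`, the membership of the units, the fullness of the half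
line, and the description of what commutes with the sites. -/
theorem rigid_of (P : Pinned M ξ) (hd : StdData M ξ R J U) {W : CoreH (AmbH H)} (hW : halfLine W = W)
    (hT : ∀ X ∈ core (amb M) (ambU U), halfLine * X = X → X * halfLine = X →
      ‖X W‖ = ‖star X W‖)
    (hD : ∀ v, halfLine v ∈ closure
      ((fun a : CoreH (AmbH H) →L[ℂ] CoreH (AmbH H) => a W) '' (core (amb M) (ambU U)).commutant))
    (hsites : ∀ x : AmbH H →L[ℂ] AmbH H, x ∈ amb M →
      (∀ n a, x * lsite n a = lsite n a * x) → ∃ x₀ ∈ M, x = ten x₀)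
    (hfull : ∀ T : CoreH (AmbH H) →L[ℂ] CoreH (AmbH H),
      (∀ n p q, T * coreUnit n p q * halfLine = 0) → T = 0)
    {w : CoreH (AmbH H) →L[ℂ] CoreH (AmbH H)} (hw : w ∈ unitary _) (hw1 : ‖w - 1‖ ≤ 1 / 4)
    (hnorm : ∀ X ∈ core (amb M) (ambU U), w * X * star w ∈ core (amb M) (ambU U))
    (hfix : ∀ a ∈ fixSet P, w * a = a * w) {X : CoreH (AmbH H) →L[ℂ] CoreH (AmbH H)}
    (hX : X ∈ core (amb M) (ambU U)) : w * X = X * w := by
  set C := core (amb M) (ambU U) with hC
  set p : CoreH (AmbH H) →L[ℂ] CoreH (AmbH H) := halfLine with hp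
  have hps : IsStarProjection p := isStarProjection_halfLine
  have hpC : p ∈ C := halfLine_mem_core (star_ambU hd.mod.U_star)
  have hmem : ∀ n q r, coreUnit (H := H) n q r ∈ C := coreUnit_mem_core hd.mod.U_star
  have hww : star w * w = 1 := Unitary.star_mul_self_of_mem hw
  have hww' : w * star w = 1 := Unitary.mul_star_self_of_mem hw
  have hwp : w * p = p * w :=
    commute_mulFn_of_phase (fun t => hfix _ (Or.inl (Or.inr ⟨t, rfl⟩))) _ _ _ _
  have hconj : ∀ {a : CoreH (AmbH H) →L[ℂ] CoreH (AmbH H)}, w * a = a * w →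
      w * a * star w = a := fun h => by rw [h, mul_assoc, hww', mul_one]
  have hfixC : ∀ a ∈ fixSet P, a ∈ C := fun a ha =>
    fixSet_subset_core P hd.mod.U_star (fun g hg t => P.U_comm_g P.fits_self hd hg t) ha
  obtain ⟨c₀, ⟨hc₀C, hc₀l, hc₀r, hc₀n⟩, hint⟩ :=
    exists_least_intertwiner hps hpC hw hw1 hwp hnorm hW hT hD
  obtain ⟨z, hz, hz', hzc⟩ := exists_central P hsites hc₀C hc₀l hc₀r fun a ha => by
    have h1 := hint (p * a * p) (mul_mem (mul_mem hpC (hfixC a ha)) hpC)
      (by rw [← mul_assoc, ← mul_assoc, hps.isIdempotentElem.eq])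
      (by rw [mul_assoc, hps.isIdempotentElem.eq])
    rw [hconj (by rw [← mul_assoc, ← mul_assoc, hwp, mul_assoc p w a, hfix a ha, ← mul_assoc,
      mul_assoc (p * a) w p, hwp, ← mul_assoc])] at h1
    exact h1.symm
  -- trivial on the corner
  have hcorner : ∀ Y ∈ C, p * Y = Y → Y * p = Y → w * Y * star w = Y := fun Y hY hpY hYp => by
    refine conj_eq_self hwp (lt_of_le_of_lt hc₀n (by norm_num)) hYp (hint Y hY hpY hYp) ?_ hps
    rw [hzc, mul_assoc, hpY, ← core_comm_const hY hz', ← mul_assoc Y, core_comm_const hY hz',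
      mul_assoc, hYp]
  -- and on the core
  set D := w * X * star w - X with hDdef
  have hDC : D ∈ C := sub_mem (hnorm X hX) hX
  have hzero : ∀ n₁ p₁ q₁ n₂ p₂ q₂,
      p * star (coreUnit (H := H) n₂ p₂ q₂) * D * coreUnit n₁ p₁ q₁ * p = 0 := by
    intro n₁ p₁ q₁ n₂ p₂ q₂
    set a := coreUnit (H := H) n₁ p₁ q₁
    set b := star (coreUnit (H := H) n₂ p₂ q₂) with hb
    have hwa : w * a = a * w := hfix _ (Or.inr ⟨(n₁, p₁, q₁), rfl⟩)
    have hwb : w * b = b * w := by
      have h := hfix _ (Or.inr ⟨(n₂, p₂, q₂), rfl⟩)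
      have h2 := congrArg star h
      rw [star_mul, star_mul, ← hb] at h2
      calc w * b = w * (b * star w) * w := by rw [mul_assoc, mul_assoc b, hww, mul_one]
        _ = b * w := by rw [← mul_assoc, mul_assoc w b (star w), h2, ← mul_assoc, hww', one_mul]
    have hk := hcorner (p * b * X * a * p)
      (mul_mem (mul_mem (mul_mem (mul_mem hpC (star_mem (hmem _ _ _))) hX) (hmem _ _ _)) hpC)
      (by simp only [← mul_assoc, hps.isIdempotentElem.eq])
      (by rw [mul_assoc, hps.isIdempotentElem.eq])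
    have hsa : a * star w = star w * a := by
      calc a * star w = star w * (w * a) * star w := by rw [← mul_assoc, hww, one_mul]
        _ = star w * a := by rw [hwa, mul_assoc, mul_assoc a, hww', mul_one]
    have hsp : p * star w = star w * p := by
      calc p * star w = star w * (w * p) * star w := by rw [← mul_assoc, hww, one_mul]
        _ = star w * p := by rw [hwp, mul_assoc, mul_assoc p, hww', mul_one]
    have e : w * (p * b * X * a * p) * star w = p * b * (w * X * star w) * a * p := by
      simp only [← mul_assoc, hwp]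
      rw [mul_assoc p w b, hwb, ← mul_assoc, mul_assoc _ p (star w), hsp, ← mul_assoc,
        mul_assoc _ a (star w), hsa, ← mul_assoc]
    rw [e] at hk
    rw [hDdef, mul_sub, sub_mul, sub_mul, hk, sub_self]
  have h1 : ∀ n₂ p₂ q₂, p * star (coreUnit (H := H) n₂ p₂ q₂) * D = 0 := fun n₂ p₂ q₂ =>
    hfull _ fun n₁ p₁ q₁ => hzero n₁ p₁ q₁ n₂ p₂ q₂
  have h2 : star D = 0 := hfull _ fun n₂ p₂ q₂ => by
    have h := congrArg star (h1 n₂ p₂ q₂)
    rwa [star_mul, star_mul, star_star, hps.isSelfAdjoint.star_eq, star_zero, ← mul_assoc] at h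
  have h3 : w * X * star w = X := sub_eq_zero.1 (star_eq_zero.1 h2)
  calc w * X = w * X * star w * w := by rw [mul_assoc, hww, mul_one]
    _ = X * w := by rw [h3]

end Vale.Agent.P096.Three.Core
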