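import Vale.Agent.P096.Three.Core.Rigid
import Vale.Agent.P096.Two.Corner

/-!
P096, cores: the core of a stabilised algebra is semifinite as soon as the vector of the half line
has the trace property.
-/

open scoped InnerProductSpace
open Filter Topology MeasureTheory
open TopologicalSpace (SeparableSpace)
open Vale.Agent.P132.TypeThree (StdData)
open Vale.Agent.P096.Two
open Vale.Agent.P104.Discrete

namespace Vale.Agent.P096.Three.Core

variable {H : Type} [NormedAddCommGroup H] [InnerProductSpace ℂ H] [CompleteSpace H]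

theorem norm_halfVec : ‖halfVec‖ = 1 := by
  have h : ‖halfVec‖ ^ 2 = 1 := by
    rw [norm_sq_eq_integral (H := ℂ) halfVec]
    have e : (fun d => ‖(halfVec : ℝ → ℂ) d‖ ^ 2) =ᵐ[volume]
        (Set.Iic (0 : ℝ)).indicator Real.exp := by
      filter_upwards [memLp_halfFun.coeFn_toLp] with d hd
      rw [halfVec, hd]
      by_cases h0 : d ∈ Set.Iic (0 : ℝ)
      · rw [halfFun, Set.indicator_of_mem h0, Set.indicator_of_mem h0, Complex.norm_real,
          Real.norm_of_nonneg (Real.exp_pos _).le, sq, ← Real.exp_add]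
        ring_nf
      · simp [halfFun, h0]
    rw [integral_congr_ae e, integral_indicator measurableSet_Iic, integral_exp_Iic_zero]
  exact (pow_eq_one_iff_of_nonneg (norm_nonneg _) two_ne_zero).1 h

omit [CompleteSpace H] in
theorem norm_traceVec (η : H) : ‖traceVec η‖ = ‖η‖ := by
  have h : ‖traceVec η‖ ^ 2 = ‖η‖ ^ 2 := by
    rw [← inner_self_eq_norm_sq (𝕜 := ℂ), ← inner_self_eq_norm_sq (𝕜 := ℂ), traceVec, inner_tensor,
      inner_self_eq_norm_sq_to_K halfVec, norm_halfVec]
    norm_num
  exact (pow_left_inj₀ (norm_nonneg _) (norm_nonneg _) two_ne_zero).1 h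

/-- A vector on which all elements and their adjoints have the same norm is tracial. -/
theorem trace_of_norm_eq (A : VonNeumannAlgebra H) (w : H)
    (h : ∀ x ∈ A, ‖x w‖ = ‖star x w‖) {x y : H →L[ℂ] H} (hx : x ∈ A) (hy : y ∈ A) :
    ⟪w, x (y w)⟫_ℂ = ⟪w, y (x w)⟫_ℂ := by
  set φ : (H →L[ℂ] H) → ℂ := fun z => ⟪w, z w⟫_ℂ with hφ
  have hq : ∀ z ∈ A, φ (star z * z) = φ (z * star z) := fun z hz => by
    have e : ∀ u : H →L[ℂ] H, φ (star u * u) = (‖u w‖ : ℂ) ^ 2 := fun u => by
      show ⟪w, (star u * u) w⟫_ℂ = _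
      rw [mul_apply_eq_comp, ContinuousLinearMap.star_eq_adjoint,
        ContinuousLinearMap.adjoint_inner_right]
      exact inner_self_eq_norm_sq_to_K (u w)
    have e2 := e (star z)
    rw [star_star] at e2
    rw [e, e2, h z hz]
  have hadd : ∀ u v, φ (u + v) = φ u + φ v := fun u v => by simp [φ, inner_add_right]
  have hsmul : ∀ (c : ℂ) u, φ (c • u) = c * φ u := fun c u => by simp [φ, inner_smul_right]
  have h1 := hq _ (add_mem (star_mem hx) hy)
  have h2 := hq _ (add_mem (star_mem hx)
    (SMulMemClass.smul_mem (s := A.toStarSubalgebra) Complex.I hy))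
  have h3 := hq _ (star_mem hx)
  have h4 := hq _ hy
  simp only [star_add, star_star, star_smul, RCLike.star_def, Complex.conj_I, add_mul, mul_add,
    smul_mul_assoc, mul_smul_comm, hadd, hsmul] at h1 h2 h3 h4
  show φ (x * y) = φ (y * x)
  have h5 : Complex.I * (φ (x * y) - φ (star y * star x)) =
      Complex.I * (φ (y * x) - φ (star x * star y)) := by
    linear_combination h2 - h3 + Complex.I * Complex.I * h4
  have h6 := mul_left_cancel₀ Complex.I_ne_zero h5
  linear_combination (h6 + h1 - h3 - h4) / 2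

/-- An algebra with one full corner that has a tracial faithful vector is semifinite. -/
theorem semifinite_of_vector (C : VonNeumannAlgebra H) {p : H →L[ℂ] H} (hps : IsStarProjection p)
    (hpC : p ∈ C) {W : H} (hW : p W = W) (hW1 : ‖W‖ = 1)
    (hT : ∀ X ∈ C, p * X = X → X * p = X → ‖X W‖ = ‖star X W‖)
    (hD : ∀ v, p v ∈ closure ((fun a : H →L[ℂ] H => a W) '' C.commutant))
    (hfull : ∀ a ∈ C.commutant, a * p = 0 → a = 0) : Semi.IsSemifinite H C := by
  have hpp : ∀ v, p (p v) = p v := fun v => DFunLike.congr_fun hps.isIdempotentElem.eq v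
  set K := cspan (Set.range p) with hK
  have hKp : K.starProjection = p := by
    have h1 : p * K.starProjection = K.starProjection :=
      mul_spanProj_of_fix p (by rintro _ ⟨v, rfl⟩; exact hpp v)
    have h2 : K.starProjection * p = p := ContinuousLinearMap.ext fun v =>
      spanProj_apply_mem ⟨v, rfl⟩
    have h3 := congrArg star h1
    rw [star_mul, hps.isSelfAdjoint.star_eq, (isSelfAdjoint_starProjection K).star_eq] at h3
    rw [← h3, h2]
  have hKC : K.starProjection ∈ C := hKp.symm ▸ hpC
  have hcor := isCorner_corner K C hKC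
  set A := corner K C with hA
  have hlift : ∀ x ∈ A, ext' K x ∈ C ∧ p * ext' K x = ext' K x ∧ ext' K x * p = ext' K x := by
    intro x hx
    obtain ⟨m, hm, rfl⟩ := (hcor x).1 hx
    change ext' K (cmp K m) ∈ C ∧ p * ext' K (cmp K m) = ext' K (cmp K m) ∧
      ext' K (cmp K m) * p = ext' K (cmp K m)
    rw [ext'_cmp, hKp]
    exact ⟨mul_mem (mul_mem hpC hm) hpC,
      by rw [← mul_assoc, ← mul_assoc, hps.isIdempotentElem.eq],
      by rw [mul_assoc, hps.isIdempotentElem.eq]⟩
  have hWK : W ∈ K := by
    rw [← Submodule.starProjection_eq_self_iff, hKp]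
    exact hW
  set w : K := ⟨W, hWK⟩ with hw
  have happ : ∀ x : K →L[ℂ] K, ext' K x W = (x w : H) := fun x => by
    rw [ext'_apply, show K.orthogonalProjectionOnto W = w from
      Submodule.orthogonalProjectionOnto_mem_subspace_eq_self w]
  have hnorm : ∀ x ∈ A, ‖x w‖ = ‖star x w‖ := fun x hx => by
    obtain ⟨h1, h2, h3⟩ := hlift x hx
    have := hT _ h1 h2 h3
    rwa [star_ext', happ, happ] at this
  have hsep : ∀ x ∈ A, x w = 0 → ∀ v : K, x v = 0 := fun x hx h0 v => by
    obtain ⟨h1, h2, h3⟩ := hlift x hx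
    set X := ext' K x
    have hcl : IsClosed {u : H | X u = 0} := isClosed_eq X.continuous continuous_const
    have hall : ∀ u, X (p u) = 0 := fun u => by
      refine hcl.closure_subset (closure_mono ?_ (hD u))
      rintro _ ⟨a, ha, rfl⟩
      show X (a W) = 0
      rw [← mul_apply_eq_comp X, VonNeumannAlgebra.mem_commutant_iff.1 ha X h1, mul_apply_eq_comp,
        happ, h0]
      exact map_zero a
    have hX : X = 0 := ContinuousLinearMap.ext fun u => by
      rw [← h3, mul_apply_eq_comp, hall, zero_apply]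
    have e := cmp_ext' K x
    rw [show ext' K x = 0 from hX] at e
    rw [← e]
    exact Subtype.ext (by rw [cmp_apply, zero_apply, map_zero]; rfl)
  refine ⟨PUnit, fun _ => K, fun _ => inferInstance, fun _ => A, fun _ => hKC,
    fun i j hij => absurd (Subsingleton.elim i j) hij, fun a ha h => ?_, fun _ => ⟨hcor, ?_⟩⟩
  · refine hfull a ha (ContinuousLinearMap.ext fun v => ?_)
    rw [mul_apply_eq_comp, zero_apply]
    exact h PUnit.unit _ (Submodule.le_topologicalClosure _ (Submodule.subset_span ⟨v, rfl⟩))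
  · refine ⟨fun n => if n = 0 then w else 0, ?_, fun x hx y hy => ?_, fun x hx h v => ?_⟩
    · have e : (fun n : ℕ => ‖(if n = 0 then w else 0 : K)‖ ^ 2) =
          fun n => if n = 0 then 1 else 0 := by
        funext n
        split_ifs with hn
        · rw [show ‖w‖ = 1 from hW1, one_pow]
        · simp
      rw [e]
      exact hasSum_ite_eq 0 1
    · rw [tsum_eq_single 0 (fun n hn => by simp [hn]),
        tsum_eq_single 0 (fun n hn => by simp [hn])]
      simpa using trace_of_norm_eq A w hnorm hx hy
    · exact hsep x hx (by simpa using h 0) v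

/-- SEMI from the trace property. -/
theorem semiSpec_of_trace (hT : TraceProp) : SemiSpec := by
  intro H _ _ _ _ M ξ R J U hd _
  obtain ⟨R₂, J₂, hd₂, -⟩ := Amb.data H M ξ R J U hd
  haveI : SeparableSpace (AmbH H) := Cent.separableSpace_amb
  refine semifinite_of_vector (core (amb M) (ambU U)) isStarProjection_halfLine
    (halfLine_mem_core (star_ambU hd.mod.U_star)) (halfLine_traceVec (put0 ξ))
    ((norm_traceVec _).trans hd₂.std.1)
    (hT (AmbH H) (amb M) (put0 ξ) R₂ J₂ (ambU U) hd₂)
    (halfLine_mem_closure_commutant (amb M) hd₂.mod.U_star hd₂.mod.U_xi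
      (dense_commutant_of_std hd₂))
    fun a ha h0 => eq_zero_of_coreUnit fun n q r => ?_
  rw [← VonNeumannAlgebra.mem_commutant_iff.1 ha _ (coreUnit_mem_core hd.mod.U_star n q r),
    mul_assoc, h0, mul_zero]

end Vale.Agent.P096.Three.Core
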